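import Crest.Agent.R314.Defs

/-!
# R314 part A — statements of the reduction steps and basic facts on path costs

`BayesStmt C → StrictStmt (2 * max C 0)` (RRep), `StrictStmt c → StrictX c` (RDet), `StrictX c → MixStmt c` (RMix),
`kuhn` (RKuhn), compactness and the final statement (RTych).
-/

set_option autoImplicit false

open Crest.LogicCS.KServer Finset

namespace Crest.Agent.R314

universe u

section Basic

variable {X : Type u} [MetricSpace X] {k : ℕ}

/-- the configuration after a path -/
def endCfg : (Fin k → X) → List (X × Fin k) → Fin k → X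
  | c, [] => c
  | c, (r, i) :: rest => endCfg (Function.update c i r) rest

theorem pathCost_nonneg (c : Fin k → X) (P : List (X × Fin k)) : 0 ≤ pathCost c P := by
  induction P generalizing c with
  | nil => simp [pathCost]
  | cons a P ih => exact add_nonneg dist_nonneg (ih _)

theorem pathCost_append (c : Fin k → X) (P P' : List (X × Fin k)) :
    pathCost c (P ++ P') = pathCost c P + pathCost (endCfg c P) P' := by
  induction P generalizing c with
  | nil => simp [pathCost, endCfg]
  | cons a P ih => simp only [List.cons_append, pathCost, endCfg, ih, add_assoc]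

theorem endCfg_append (c : Fin k → X) (P P' : List (X × Fin k)) :
    endCfg c (P ++ P') = endCfg (endCfg c P) P' := by
  induction P generalizing c with
  | nil => rfl
  | cons a P ih => simp only [List.cons_append, endCfg, ih]

theorem sum_dist_update_le (c c' : Fin k → X) (i : Fin k) (r : X) :
    ∑ a, dist (Function.update c i r a) (Function.update c' i r a) + dist (c i) (c' i) =
      ∑ a, dist (c a) (c' a) := by
  rw [← add_sum_erase _ _ (mem_univ i), ← add_sum_erase _ (fun a => dist (c a) (c' a)) (mem_univ i)]
  simp only [Function.update_self, dist_self, zero_add]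
  rw [add_comm]
  congr 1
  exact sum_congr rfl fun a ha => by simp [Function.update_of_ne (ne_of_mem_erase ha)]

/-- the cost of a fixed path is `1`-Lipschitz in the start -/
theorem pathCost_le_add (c c' : Fin k → X) (P : List (X × Fin k)) :
    pathCost c P ≤ pathCost c' P + ∑ a, dist (c a) (c' a) := by
  induction P generalizing c c' with
  | nil => simpa [pathCost] using sum_nonneg fun _ _ => dist_nonneg
  | cons a P ih =>
    obtain ⟨r, i⟩ := a
    have h1 := ih (Function.update c i r) (Function.update c' i r)
    have h2 := sum_dist_update_le c c' i r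
    have h3 := dist_triangle (c i) (c' i) r
    simp only [pathCost]
    linarith

/-- the servers move at most the cost of the path -/
theorem sum_dist_endCfg_le (c : Fin k → X) (P : List (X × Fin k)) :
    ∑ a, dist (c a) (endCfg c P a) ≤ pathCost c P := by
  induction P generalizing c with
  | nil => simp [pathCost, endCfg]
  | cons a P ih =>
    obtain ⟨r, i⟩ := a
    have h1 := ih (Function.update c i r)
    have h2 := sum_dist_update_le c (Function.update c i r) i r
    simp only [Function.update_idem, Function.update_self] at h2
    have h3 : ∑ a, dist (Function.update c i r a) (Function.update c i r a) = 0 := by simp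
    have h4 : ∑ a, dist (c a) (endCfg (Function.update c i r) P a) ≤
        ∑ a, dist (c a) (Function.update c i r a) +
          ∑ a, dist (Function.update c i r a) (endCfg (Function.update c i r) P a) := by
      rw [← sum_add_distrib]
      exact sum_le_sum fun a _ => dist_triangle _ _ _
    simp only [pathCost, endCfg]
    linarith

end Basic

/-- strict Bayesian competitiveness from distinct starting points of a finite space -/
def StrictStmt (c : ℝ) : Prop :=
  ∀ (k : ℕ), 2 ≤ k → ∀ (Y : Type u) [Fintype Y] [DecidableEq Y] [MetricSpace Y] (s : Fin k → Y),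
    Function.Injective s → ∀ (Ω : Type u) [Fintype Ω] (π : Ω → ℝ), π ∈ stdSimplex ℝ Ω →
      ∀ P : Ω → List (Y × Fin k), ∃ a : List Y → Fin k,
        ∑ ω, π ω * detCost a s ((P ω).map Prod.fst) ≤
          c * Real.log (k + 1) ^ 2 * ∑ ω, π ω * pathCost s (P ω)

/-- the same in an arbitrary metric space -/
def StrictX (c : ℝ) : Prop :=
  ∀ (k : ℕ), 2 ≤ k → ∀ (X : Type u) [MetricSpace X] (s : Fin k → X),
    Function.Injective s → ∀ (Ω : Type u) [Fintype Ω] (π : Ω → ℝ), π ∈ stdSimplex ℝ Ω →
      ∀ P : Ω → List (X × Fin k), ∃ a : List X → Fin k,
        ∑ ω, π ω * detCost a s ((P ω).map Prod.fst) ≤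
          c * Real.log (k + 1) ^ 2 * ∑ ω, π ω * pathCost s (P ω)

/-- a finite mixture of deterministic algorithms that is good on a given finite set of inputs -/
def MixStmt (c : ℝ) : Prop :=
  ∀ (k : ℕ), 2 ≤ k → ∀ (X : Type u) [MetricSpace X] (s : Fin k → X),
    Function.Injective s → ∀ F : Finset (List (X × Fin k)),
      ∃ (m : ℕ) (w : Fin m → ℝ) (a : Fin m → List X → Fin k), w ∈ stdSimplex ℝ (Fin m) ∧
        ∀ P ∈ F, ∑ i, w i * detCost (a i) s (P.map Prod.fst) ≤
          c * Real.log (k + 1) ^ 2 * pathCost s P

end Crest.Agent.R314
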