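import Crest.Agent.R314.Simple
import Crest.Agent.R314.RDefs

/-!
# R314 — the abstract potential recursion

Let `c m m' = ∫ ξ, (∑ ι, ∑ i, dist (q m ξ ι i) (q m' ξ ι i)) / card I`.  (1) By induction on `T`, generalising
`m, π, cfg, x, j`: there is `W : List Y → M` (history, oldest request first) with `W [] = m`, such that for every
`l` and `y` all `q (W (l ++ [y])) ξ ι` cover `y`, and
`∑ ω, π ω * ∑ t < T, c (W (take t σ_ω)) (W (take (t+1) σ_ω)) ≤ Pot m π cfg + ρ ∑ ω, π ω * pathCost (cfg ω) P_ω + T e + B`.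
Step: `r y = ∑ ω with x ω 0 = y, π ω`; posterior `π_y = π · 1[x ω 0 = y] / r y` (any point of the simplex, e.g. `π`,
if `r y = 0`), `π = ∑ y, r y • π_y`; concavity (`ConcaveOn.le_map_sum`); the one-step hypothesis gives `m'_y`,
the induction hypothesis `W_y` for `(m'_y, π_y, update …, tail x, tail j)`; put `W (y :: l) = W_y l`.  (For `T = 0`
any covering `W` with `W [] = m`, obtained from the one-step hypothesis.)
(2) The function `ξ ↦ ∑ ω, π ω * ∑ t, (∑ ι ∑ i, dist …) / card I` is simple; pick `ξ` below the integral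
(`Simple.exists_le`), then `ι` below the average.  (3) Lazification: `a l` = a server `i` with
`q (W l) ξ ι i = last l`; by induction `detCost` from `c` is at most `∑ i, dist (c i) (V [] i)` plus the total
virtual movement (`sum_dist_update_le`).
-/

set_option autoImplicit false

open Crest.LogicCS.KServer MeasureTheory Finset

namespace Crest.Agent.R314

universe u

/-- total cost of the macro moves along a request list -/
def absTot {Y M : Type u} (c : M → M → ℝ) : (List Y → M) → List Y → ℝ
  | _, [] => 0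
  | W, y :: l => c (W []) (W [y]) + absTot c (fun l' => W (y :: l')) l

theorem abs_detChoices_cons {Y : Type u} {k : ℕ} (a : List Y → Fin k) (y : Y) (l : List Y) :
    detChoices a (y :: l) = a [y] :: detChoices (fun l' => a (y :: l')) l := by
  simp only [detChoices, List.length_cons, List.ofFn_succ]
  rfl

theorem abs_detCost_cons {Y : Type u} [MetricSpace Y] {k : ℕ} (a : List Y → Fin k) (s : Fin k → Y)
    (y : Y) (l : List Y) : detCost a s (y :: l) =
      dist (s (a [y])) y + detCost (fun l' => a (y :: l')) (Function.update s (a [y]) y) l := by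
  simp only [detCost, abs_detChoices_cons, List.zip_cons_cons, pathCost]

/-- lazification -/
theorem abs_lazy {Y M : Type u} [MetricSpace Y] {k : ℕ} (g : M → Fin k → Y) (σ : List Y) :
    ∀ (W : List Y → M) (a : List Y → Fin k) (c : Fin k → Y),
      (∀ l y, g (W (l ++ [y])) (a (l ++ [y])) = y) →
      detCost a c σ ≤ ∑ i, dist (c i) (g (W []) i) +
        absTot (fun m m' => ∑ i, dist (g m i) (g m' i)) W σ := by
  induction σ with
  | nil =>
    intro W a c _
    simpa [detCost, pathCost, absTot] using sum_nonneg fun _ _ => dist_nonneg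
  | cons y l ih =>
    intro W a c h
    have h1 := ih (fun l' => W (y :: l')) (fun l' => a (y :: l')) (Function.update c (a [y]) y)
      fun l' y' => h (y :: l') y'
    have h0 : g (W [y]) (a [y]) = y := h [] y
    have h2 := sum_dist_update_le c (g (W [y])) (a [y]) y
    have h3 : Function.update (g (W [y])) (a [y]) y = g (W [y]) := by
      conv_lhs => rw [← h0]
      rw [h0]
      exact Function.update_eq_self_iff.2 h0.symm
    rw [h3, h0] at h2
    have h4 : ∑ i, dist (c i) (g (W [y]) i) ≤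
        ∑ i, dist (c i) (g (W []) i) + ∑ i, dist (g (W []) i) (g (W [y]) i) := by
      rw [← sum_add_distrib]
      exact sum_le_sum fun i _ => dist_triangle _ _ _
    rw [abs_detCost_cons]
    simp only [absTot]
    linarith

theorem absTot_integral {Y M Ξ : Type u} [MeasurableSpace Ξ] (P : Measure Ξ) (F : Ξ → M → M → ℝ)
    (hF : ∀ m m', Integrable (fun ξ => F ξ m m') P) (σ : List Y) : ∀ W : List Y → M,
    Integrable (fun ξ => absTot (F ξ) W σ) P ∧
      ∫ ξ, absTot (F ξ) W σ ∂P = absTot (fun m m' => ∫ ξ, F ξ m m' ∂P) W σ := by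
  induction σ with
  | nil => intro W; simp [absTot]
  | cons y l ih =>
    intro W
    obtain ⟨h1, h2⟩ := ih fun l' => W (y :: l')
    simp only [absTot]
    exact ⟨(hF _ _).add h1, by rw [integral_add (hF _ _) h1, h2]⟩

theorem absTot_avg {Y M : Type u} {I : Type} [Fintype I] (G : I → M → M → ℝ) (n : ℝ) (σ : List Y) :
    ∀ W : List Y → M,
      absTot (fun m m' => (∑ ι, G ι m m') / n) W σ = (∑ ι, absTot (G ι) W σ) / n := by
  induction σ with
  | nil => intro W; simp [absTot]
  | cons y l ih =>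
    intro W
    simp only [absTot, ih, sum_add_distrib, add_div]

/-- disintegration of a prior along an observation -/
theorem abs_post {Y Ω : Type u} [Fintype Y] [DecidableEq Y] [Fintype Ω] {π : Ω → ℝ}
    (hπ : π ∈ stdSimplex ℝ Ω) (z : Ω → Y) :
    ∃ (r : Y → ℝ) (post : Y → Ω → ℝ), (∀ y, 0 ≤ r y) ∧ ∑ y, r y = 1 ∧
      (∀ y, post y ∈ stdSimplex ℝ Ω) ∧ ∑ y, r y • post y = π ∧
      ∀ F : Y → Ω → ℝ, ∑ ω, π ω * F (z ω) ω = ∑ y, r y * ∑ ω, post y ω * F y ω := by
  let r : Y → ℝ := fun y => ∑ ω, if z ω = y then π ω else 0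
  have hn : ∀ y ω, 0 ≤ if z ω = y then π ω else 0 := fun y ω => by
    split_ifs
    · exact hπ.1 ω
    · exact le_rfl
  have hr : ∀ y, 0 ≤ r y := fun y => sum_nonneg fun ω _ => hn y ω
  let post : Y → Ω → ℝ := fun y ω =>
    if r y = 0 then π ω else (if z ω = y then π ω else 0) / r y
  have key : ∀ y ω, r y * post y ω = if z ω = y then π ω else 0 := fun y ω => by
    by_cases h : r y = 0
    · rw [h, zero_mul]
      exact ((sum_eq_zero_iff_of_nonneg fun ω _ => hn y ω).1 h ω (mem_univ ω)).symm
    · simp only [post, if_neg h]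
      field_simp
  refine ⟨r, post, hr, ?_, fun y => ?_, ?_, fun F => ?_⟩
  · simp only [r]
    rw [sum_comm]
    simpa using hπ.2
  · by_cases h : r y = 0
    · have : post y = π := funext fun ω => by simp only [post, if_pos h]
      rw [this]
      exact hπ
    · refine ⟨fun ω => ?_, ?_⟩
      · simp only [post, if_neg h]
        exact div_nonneg (hn y ω) (hr y)
      · simp only [post, if_neg h]
        rw [← sum_div]
        exact div_self h
  · funext ω
    simp only [Finset.sum_apply, Pi.smul_apply, smul_eq_mul, key]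
    simp
  · simp only [mul_sum, ← mul_assoc, key]
    rw [sum_comm]
    refine sum_congr rfl fun ω _ => ?_
    simp

/-- the potential recursion -/
theorem abs_rec {k : ℕ} (hk : 1 ≤ k) {Y Ω M : Type u} [Fintype Y] [DecidableEq Y] [MetricSpace Y]
    [Fintype Ω] (c : M → M → ℝ) (Cov : M → Y → Prop)
    (Pot : M → (Ω → ℝ) → (Ω → Fin k → Y) → ℝ) (ρ e B : ℝ)
    (hconc : ∀ m cfg, ConcaveOn ℝ (stdSimplex ℝ Ω) fun π => Pot m π cfg)
    (hlow : ∀ m, ∀ π ∈ stdSimplex ℝ Ω, ∀ cfg, -B ≤ Pot m π cfg)
    (hstep : ∀ m, ∀ π ∈ stdSimplex ℝ Ω, ∀ (cfg : Ω → Fin k → Y) (x : Y) (jj : Ω → Fin k),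
      ∃ m', Cov m' x ∧ c m m' + Pot m' π (fun ω => Function.update (cfg ω) (jj ω) x) ≤
        Pot m π cfg + ρ * ∑ ω, π ω * dist (cfg ω (jj ω)) x + e) (T : ℕ) :
    ∀ m, ∀ π ∈ stdSimplex ℝ Ω, ∀ (cfg : Ω → Fin k → Y) (x : Ω → Fin T → Y)
      (j : Ω → Fin T → Fin k), ∃ W : List Y → M, W [] = m ∧ (∀ l y, Cov (W (l ++ [y])) y) ∧
        ∑ ω, π ω * absTot c W (List.ofFn (x ω)) ≤ Pot m π cfg +
          ρ * ∑ ω, π ω * pathCost (cfg ω) (List.ofFn fun t => (x ω t, j ω t)) + T * e + B := by
  induction T with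
  | zero =>
    intro m π hπ cfg x j
    choose m' hm' using fun y => hstep m π hπ cfg y fun _ => ⟨0, hk⟩
    refine ⟨fun l => l.getLast?.elim m m', rfl, fun l y => ?_, ?_⟩
    · simpa using (hm' y).1
    · have := hlow m π hπ cfg
      simp only [List.ofFn_zero, absTot, pathCost, mul_zero, sum_const_zero, Nat.cast_zero,
        zero_mul]
      linarith
  | succ T ih =>
    intro m π hπ cfg x j
    obtain ⟨r, post, hr, hr1, hpost, hsum, hF⟩ := abs_post hπ fun ω => x ω 0
    choose m' hm' using fun y => hstep m (post y) (hpost y) cfg y fun ω => j ω 0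
    choose W' hW0 hWc hW using fun y => ih (m' y) (post y) (hpost y)
      (fun ω => Function.update (cfg ω) (j ω 0) y) (fun ω t => x ω t.succ) fun ω t => j ω t.succ
    let W : List Y → M := fun l => match l with
      | [] => m
      | y :: l' => W' y l'
    refine ⟨W, rfl, fun l y => ?_, ?_⟩
    · cases l with
      | nil =>
        change Cov (W' y []) y
        rw [hW0]
        exact (hm' y).1
      | cons z l => exact hWc z l y
    · have e1 : ∑ ω, π ω * absTot c W (List.ofFn (x ω)) = ∑ y, r y * ∑ ω, post y ω *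
          (c m (m' y) + absTot c (W' y) (List.ofFn fun t : Fin T => x ω t.succ)) := by
        rw [← hF fun y ω => c m (m' y) + absTot c (W' y) (List.ofFn fun t : Fin T => x ω t.succ)]
        refine sum_congr rfl fun ω _ => ?_
        rw [List.ofFn_succ, ← hW0]
        rfl
      have e2 : ∑ ω, π ω * pathCost (cfg ω) (List.ofFn fun t => (x ω t, j ω t)) =
          ∑ y, r y * ∑ ω, post y ω * (dist (cfg ω (j ω 0)) y +
            pathCost (Function.update (cfg ω) (j ω 0) y)
              (List.ofFn fun t : Fin T => (x ω t.succ, j ω t.succ))) := by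
        rw [← hF fun y ω => dist (cfg ω (j ω 0)) y + pathCost (Function.update (cfg ω) (j ω 0) y)
              (List.ofFn fun t : Fin T => (x ω t.succ, j ω t.succ))]
        refine sum_congr rfl fun ω _ => ?_
        rw [List.ofFn_succ]
        rfl
      have h3 := (hconc m cfg).le_map_sum (t := univ) (fun y _ => hr y) hr1 fun y _ => hpost y
      rw [hsum] at h3
      simp only [smul_eq_mul] at h3
      have h4 : ∑ y, r y * ∑ ω, post y ω *
          (c m (m' y) + absTot c (W' y) (List.ofFn fun t : Fin T => x ω t.succ)) ≤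
          ∑ y, r y * (Pot m (post y) cfg + ρ * ∑ ω, post y ω * (dist (cfg ω (j ω 0)) y +
            pathCost (Function.update (cfg ω) (j ω 0) y)
              (List.ofFn fun t : Fin T => (x ω t.succ, j ω t.succ))) + ((T + 1) * e + B)) := by
        refine sum_le_sum fun y _ => mul_le_mul_of_nonneg_left ?_ (hr y)
        have h5 := (hm' y).2
        have h6 := hW y
        simp only [mul_add, sum_add_distrib, ← sum_mul, (hpost y).2] at h5 h6 ⊢
        linarith
      have e5 : ∑ y, r y * (Pot m (post y) cfg + ρ * ∑ ω, post y ω * (dist (cfg ω (j ω 0)) y +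
            pathCost (Function.update (cfg ω) (j ω 0) y)
              (List.ofFn fun t : Fin T => (x ω t.succ, j ω t.succ))) + ((T + 1) * e + B)) =
          ∑ y, r y * Pot m (post y) cfg + ρ * ∑ y, r y * ∑ ω, post y ω * (dist (cfg ω (j ω 0)) y +
            pathCost (Function.update (cfg ω) (j ω 0) y)
              (List.ofFn fun t : Fin T => (x ω t.succ, j ω t.succ))) + ((T + 1) * e + B) := by
        have e6 : ∀ a b d : Y → ℝ, ∀ D : ℝ, ∑ y, r y * (a y + ρ * b y + D) =
            ∑ y, r y * a y + ρ * ∑ y, r y * b y + D := fun a b _ D => by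
          simp only [mul_add, sum_add_distrib, ← sum_mul, hr1, one_mul, mul_sum, mul_left_comm ρ]
        exact e6 _ _ r _
      rw [e1, e2]
      push_cast
      linarith

theorem absStmt : AbsStmt.{u} := by
  intro k hk Y _ _ _ s Ω _ I _ _ Ξ _ P _ M q Pot M0 ρ e B _ _ hq hconc hlow hB hs hstep π hπ T x j
  obtain ⟨W, hW0, hWc, hW⟩ := abs_rec hk
    (fun m m' => ∫ ξ, (∑ ι, ∑ i, dist (q m ξ ι i) (q m' ξ ι i)) / Fintype.card I ∂P)
    (fun m y => ∀ ξ ι, ∃ i, q m ξ ι i = y) Pot ρ e B hconc hlow hstep T M0 π hπ (fun _ => s) x j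
  have hint := fun ω => absTot_integral P
    (fun ξ m m' => (∑ ι, ∑ i, dist (q m ξ ι i) (q m' ξ ι i)) / (Fintype.card I : ℝ))
    (fun m m' => ((hq m).comp₂ (hq m') fun u v =>
      (∑ ι, ∑ i, dist (u ι i) (v ι i)) / (Fintype.card I : ℝ)).integrable P) (List.ofFn (x ω)) W
  obtain ⟨ξ, hξ⟩ := exists_le_integral (μ := P) (integrable_finsetSum univ fun ω _ =>
    (hint ω).1.const_mul (π ω))
  rw [integral_finsetSum _ fun ω _ => (hint ω).1.const_mul (π ω)] at hξ
  simp only [integral_const_mul, (hint _).2] at hξ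
  have hc : (0 : ℝ) < Fintype.card I := by exact_mod_cast Fintype.card_pos
  let f : I → ℝ := fun ι => ∑ ω, π ω *
    absTot (fun m m' => ∑ i, dist (q m ξ ι i) (q m' ξ ι i)) W (List.ofFn (x ω))
  have e1 : ∑ ω, π ω * absTot (fun m m' => (∑ ι, ∑ i, dist (q m ξ ι i) (q m' ξ ι i)) /
      (Fintype.card I : ℝ)) W (List.ofFn (x ω)) = (∑ ι, f ι) / Fintype.card I := by
    simp only [absTot_avg (fun ι m m' => ∑ i, dist (q m ξ ι i) (q m' ξ ι i)), f]
    rw [sum_comm, sum_div]
    refine sum_congr rfl fun ω _ => ?_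
    rw [← mul_sum, mul_div_assoc]
  obtain ⟨ι, -, hι⟩ := exists_le_of_sum_le (s := univ) univ_nonempty (f := f)
    (g := fun _ => (∑ ι, f ι) / Fintype.card I) (by
      rw [sum_const, card_univ, nsmul_eq_mul, mul_div_cancel₀ _ hc.ne'])
  have ha : ∀ l : List Y, ∃ i : Fin k, ∀ l' y, l = l' ++ [y] → q (W l) ξ ι i = y := fun l => by
    rcases List.eq_nil_or_concat l with rfl | ⟨l', y, rfl⟩
    · exact ⟨⟨0, hk⟩, fun l' y h => by simp at h⟩
    · obtain ⟨i, hi⟩ := hWc l' y ξ ι
      refine ⟨i, fun l'' y' h => ?_⟩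
      rw [List.concat_eq_append] at h ⊢
      rw [hi]
      simpa using (List.append_inj' h rfl).2
  choose a ha using ha
  refine ⟨a, ?_⟩
  have h1 : ∑ ω, π ω * detCost a s (List.ofFn (x ω)) ≤ ∑ ω, π ω * (B +
      absTot (fun m m' => ∑ i, dist (q m ξ ι i) (q m' ξ ι i)) W (List.ofFn (x ω))) := by
    refine sum_le_sum fun ω _ => mul_le_mul_of_nonneg_left ?_ (hπ.1 ω)
    have h2 := abs_lazy (fun m => q m ξ ι) (List.ofFn (x ω)) W a s fun l y => ha _ l y rfl
    rw [hW0] at h2
    linarith [hs ξ ι]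
  simp only [mul_add, sum_add_distrib, ← sum_mul, hπ.2, one_mul] at h1
  have h3 := hB π hπ
  rw [e1] at hξ
  simp only [f] at hι hξ
  linarith

end Crest.Agent.R314
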