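import Mathlib
import Crest.Prelude.Def_KServer

/-!
# k-server, `O(log² k)`: definitions and interfaces (row 314)

Plan: `BayesStmt C → S0486` (part A).  `BayesStmt` follows from `AbsStmt` (abstract potential
recursion) applied to the macro state built from `TreeStmt` (fractional algorithm on the label tree),
`RoundStmt`/`TransStmt` (rounding), `ProfStmt` (posterior profiles), `RaceStmt` (exponential
clocks) and `LevelStmt` (dynamic clustering at one scale).
-/

set_option autoImplicit false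

open Crest.LogicCS.KServer MeasureTheory Finset

namespace Crest.Agent.R314

universe u

/-! ## Part A: the Bayesian statement -/

/-- choices of the deterministic online algorithm `a` on the request list `σ` -/
def detChoices {Y : Type u} {k : ℕ} (a : List Y → Fin k) (σ : List Y) : List (Fin k) :=
  List.ofFn fun t : Fin σ.length => a (σ.take (t + 1))

/-- cost of the deterministic online algorithm `a` from `s` on `σ` -/
def detCost {Y : Type u} [MetricSpace Y] {k : ℕ} (a : List Y → Fin k) (s : Fin k → Y)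
    (σ : List Y) : ℝ :=
  pathCost s (σ.zip (detChoices a σ))

/-- Against every finitely supported prior on (request list, offline path) of length `T` some
deterministic online algorithm is `C log²(k+1)`-competitive in expectation, with an additive
constant depending only on the finite metric space and the start. -/
def BayesStmt (C : ℝ) : Prop :=
  ∀ (k : ℕ), 2 ≤ k → ∀ (Y : Type u) [Fintype Y] [DecidableEq Y] [MetricSpace Y] (s : Fin k → Y),
    ∃ B : ℝ, ∀ (Ω : Type u) [Fintype Ω] (π : Ω → ℝ), π ∈ stdSimplex ℝ Ω →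
      ∀ (T : ℕ) (x : Ω → Fin T → Y) (j : Ω → Fin T → Fin k),
        ∃ a : List Y → Fin k,
          ∑ ω, π ω * detCost a s (List.ofFn (x ω)) ≤
            C * Real.log (k + 1) ^ 2 *
              ∑ ω, π ω * pathCost s (List.ofFn fun t => (x ω t, j ω t)) + B

/-! ## Simple random variables, the race -/

/-- finite range and measurable fibres -/
def Simple {Ξ : Type*} [MeasurableSpace Ξ] {α : Type*} (f : Ξ → α) : Prop :=
  (Set.range f).Finite ∧ ∀ a, MeasurableSet (f ⁻¹' {a})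

/-- weighted Jaccard distance of two weight vectors -/
noncomputable def jac {Y : Type u} [Fintype Y] (a b : Y → ℝ) : ℝ :=
  1 - (∑ w, min (a w) (b w)) / ∑ w, max (a w) (b w)

/-- restriction of a weight vector to a finite set -/
def rstr {Y : Type u} [DecidableEq Y] (μ : Y → ℝ) (A : Finset Y) : Y → ℝ :=
  fun w => if w ∈ A then μ w else 0

/-- exponential clocks: one probability space serving all positive weight vectors -/
def RaceStmt : Prop :=
  ∀ (Y : Type u) [Fintype Y] [DecidableEq Y] [Nonempty Y],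
    ∃ (Ξ : Type u) (_ : MeasurableSpace Ξ) (P : Measure Ξ) (_ : IsProbabilityMeasure P)
      (win : (Y → ℝ) → Finset Y → Ξ → Y),
      (∀ μ A, Simple (win μ A)) ∧
      (∀ μ A ξ, A.Nonempty → win μ A ξ ∈ A) ∧
      ∀ (μ μ' : Y → ℝ) (A A' : Finset Y), (∀ w, 0 < μ w) → (∀ w, 0 < μ' w) →
        A.Nonempty → A'.Nonempty →
        ∫ ξ, (if win μ A ξ = win μ' A' ξ then (0 : ℝ) else 1) ∂P ≤ jac (rstr μ A) (rstr μ' A')

/-! ## The abstract potential recursion -/

/-- A macro state `M` carries virtual server positions `q M ξ ι`; a potential that is concave in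
the posterior and satisfies a one-step inequality yields a deterministic algorithm. -/
def AbsStmt : Prop :=
  ∀ (k : ℕ), 1 ≤ k → ∀ (Y : Type u) [Fintype Y] [DecidableEq Y] [MetricSpace Y] (s : Fin k → Y)
    (Ω : Type u) [Fintype Ω] (I : Type) [Fintype I] [Nonempty I]
    (Ξ : Type u) [MeasurableSpace Ξ] (P : Measure Ξ) [IsProbabilityMeasure P]
    (M : Type u) (q : M → Ξ → I → Fin k → Y) (Pot : M → (Ω → ℝ) → (Ω → Fin k → Y) → ℝ)
    (M0 : M) (ρ e B : ℝ), 0 ≤ ρ → 0 ≤ e →
    (∀ m, Simple (q m)) →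
    (∀ m cfg, ConcaveOn ℝ (stdSimplex ℝ Ω) fun π => Pot m π cfg) →
    (∀ m, ∀ π ∈ stdSimplex ℝ Ω, ∀ cfg, -B ≤ Pot m π cfg) →
    (∀ π ∈ stdSimplex ℝ Ω, Pot M0 π (fun _ => s) ≤ B) →
    (∀ ξ ι, ∑ i, dist (s i) (q M0 ξ ι i) ≤ B) →
    (∀ m, ∀ π ∈ stdSimplex ℝ Ω, ∀ (cfg : Ω → Fin k → Y) (x : Y) (jj : Ω → Fin k),
      ∃ m', (∀ ξ ι, ∃ i, q m' ξ ι i = x) ∧
        ∫ ξ, (∑ ι, ∑ i, dist (q m ξ ι i) (q m' ξ ι i)) / Fintype.card I ∂P +
            Pot m' π (fun ω => Function.update (cfg ω) (jj ω) x) ≤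
          Pot m π cfg + ρ * ∑ ω, π ω * dist (cfg ω (jj ω)) x + e) →
    ∀ π ∈ stdSimplex ℝ Ω, ∀ (T : ℕ) (x : Ω → Fin T → Y) (j : Ω → Fin T → Fin k),
      ∃ a : List Y → Fin k,
        ∑ ω, π ω * detCost a s (List.ofFn (x ω)) ≤
          ρ * ∑ ω, π ω * pathCost s (List.ofFn fun t => (x ω t, j ω t)) + 3 * B + T * e

/-! ## The label tree -/

/-- nodes of the label tree of height `J`: lists of labels (deepest label first) of length `≤ J`;
the root is `[]`, the children of `v` are the `a :: v` -/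
noncomputable def nodes (Lab : Type u) [Fintype Lab] (J : ℕ) : Finset (List Lab) :=
  (List.finite_length_le Lab J).toFinset

lemma mem_nodes {Lab : Type u} [Fintype Lab] {J : ℕ} {v : List Lab} :
    v ∈ nodes Lab J ↔ v.length ≤ J := by
  simp [nodes]

/-- weight of the edge from `v` to its parent; a node of length `m` is at level `J - m` -/
noncomputable def wt {Lab : Type u} (J : ℕ) (v : List Lab) : ℝ := 2048 ^ (J - v.length)

/-- `s v i` = probability that more than `i` offline servers lie below `v` -/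
abbrev Prof (Lab : Type u) (k : ℕ) := List Lab → Fin k → ℝ

/-- the unit cube of profiles -/
def cube (Lab : Type u) (k : ℕ) : Set (Prof Lab k) := {s | ∀ v i, s v i ∈ Set.Icc (0 : ℝ) 1}

structure IsProf {Lab : Type u} [Fintype Lab] {k : ℕ} (J : ℕ) (s : Prof Lab k) : Prop where
  mem : s ∈ cube Lab k
  root : ∀ i, s [] i = 1
  anti : ∀ v, Antitone (s v)
  /-- superadditivity of convex distortion risk measures -/
  super : ∀ g : ℝ → ℝ, ConvexOn ℝ (Set.Icc 0 1) g → MonotoneOn g (Set.Icc 0 1) → g 0 = 0 →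
    ∀ v : List Lab, v.length < J → ∑ a, ∑ i, g (s (a :: v) i) ≤ ∑ i, g (s v i)

/-- fractional server masses of subtrees (mass may be parked at inner nodes) -/
structure Feas {Lab : Type u} [Fintype Lab] (k J : ℕ) (z : List Lab → ℝ) : Prop where
  root : z [] = k
  nonneg : ∀ v : List Lab, v.length ≤ J → 0 ≤ z v
  super : ∀ v : List Lab, v.length < J → ∑ a, z (a :: v) ≤ z v

/-- Part B: the `O(log k)` fractional algorithm on the tree, as a state machine. -/
def TreeStmt (C : ℝ) : Prop :=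
  ∀ (k : ℕ), 2 ≤ k → ∀ (Lab : Type u) [Fintype Lab] [DecidableEq Lab] [Nonempty Lab] (J : ℕ),
    ∃ (S : Type u) (z : S → List Lab → ℝ) (Φ : S → Prof Lab k → ℝ) (σ0 : S) (B : ℝ),
      (∀ σ, Feas k J (z σ)) ∧
      (∀ v : List Lab, v ≠ [] → z σ0 v = 0) ∧
      (∀ s, IsProf J s → Φ σ0 s ≤ B) ∧
      (∀ σ s, IsProf J s → -B ≤ Φ σ s) ∧
      (∀ σ, ConcaveOn ℝ (cube Lab k) (Φ σ)) ∧
      (∀ σ, ∀ s ∈ cube Lab k, ∀ s' ∈ cube Lab k, Φ σ s' ≤ Φ σ s +
        C * Real.log (k + 1) * ∑ v ∈ nodes Lab J, wt J v * ∑ i, |s' v i - s v i|) ∧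
      ∀ σ s, IsProf J s → ∃ σ',
        ∑ v ∈ nodes Lab J, wt J v * |z σ' v - z σ v| + Φ σ' s ≤ Φ σ s ∧
        (∀ v : List Lab, v.length ≤ J → v ≠ [] → z σ' v ≤ C * ∑ i, s v i) ∧
        (∀ v : List Lab, v.length ≤ J → (∃ i, s v i = 1) → 1 ≤ z σ' v)

/-- number of servers below the node `v` -/
def cnt {Lab : Type u} [DecidableEq Lab] {k : ℕ} (pos : Fin k → List Lab) (v : List Lab) : ℕ :=
  (univ.filter fun i => v <:+ pos i).card

/-- the posterior profile of the offline configuration `cfg` seen through `path` -/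
noncomputable def prof {Lab Y Ω : Type u} [DecidableEq Lab] [Fintype Ω] {k : ℕ} (π : Ω → ℝ)
    (cfg : Ω → Fin k → Y) (path : Y → List Lab) : Prof Lab k :=
  fun v i => ∑ ω, π ω * if (i : ℕ) < cnt (fun i' => path (cfg ω i')) v then 1 else 0

def ProfStmt : Prop :=
  ∀ (k : ℕ) (Lab Y Ω : Type u) [Fintype Lab] [DecidableEq Lab] [Fintype Ω] (J : ℕ) (π : Ω → ℝ),
    π ∈ stdSimplex ℝ Ω → ∀ (cfg : Ω → Fin k → Y) (path : Y → List Lab),
      IsProf J (prof π cfg path)

/-! ## Part C: rounding -/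

/-- `Q` integral configurations, balanced and with the right averages -/
structure RoundOK {Lab : Type u} [Fintype Lab] (k J Q : ℕ) (z : List Lab → ℝ)
    (n : Fin Q → List Lab → ℕ) : Prop where
  root : ∀ θ, n θ [] = k
  super : ∀ θ, ∀ v : List Lab, v.length < J → ∑ a, n θ (a :: v) ≤ n θ v
  avg : ∀ v : List Lab, v.length ≤ J → ∑ θ, n θ v = ⌊(Q : ℝ) * z v⌋₊
  bal : ∀ v : List Lab, v.length ≤ J → ∀ θ θ', n θ v ≤ n θ' v + 1

def RoundStmt (C : ℝ) : Prop :=
  ∀ (k : ℕ) (Lab : Type u) [Fintype Lab] [DecidableEq Lab] (J Q : ℕ), 0 < Q →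
    ∀ (z z' : List Lab → ℝ), Feas k J z → Feas k J z' →
      ∀ n : Fin Q → List Lab → ℕ, RoundOK k J Q z n →
        ∃ n', RoundOK k J Q z' n' ∧
          ∑ θ, ∑ v ∈ nodes Lab J, wt J v * |(n' θ v : ℝ) - n θ v| ≤
            C * ∑ v ∈ nodes Lab J, wt J v * (Q * |z' v - z v| + 1)

/-- transport of labelled servers along the tree edges -/
def TransStmt : Prop :=
  ∀ (k : ℕ) (Lab Y : Type u) [Fintype Lab] [DecidableEq Lab] [MetricSpace Y] (J : ℕ)
    (pos : Fin k → List Lab), (∀ i, (pos i).length ≤ J) →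
    ∀ n' : List Lab → ℕ, n' [] = k → (∀ v : List Lab, v.length < J → ∑ a, n' (a :: v) ≤ n' v) →
    ∀ (loc : List Lab → Y) (len : List Lab → ℝ), (∀ v, 0 ≤ len v) →
      (∀ v : List Lab, v.length ≤ J → v ≠ [] → cnt pos v ≠ n' v →
        dist (loc v) (loc v.tail) ≤ len v) →
      ∃ pos' : Fin k → List Lab, (∀ i, (pos' i).length ≤ J) ∧
        (∀ v : List Lab, v.length ≤ J → cnt pos' v = n' v) ∧
        ∑ i, dist (loc (pos i)) (loc (pos' i)) ≤
          ∑ v ∈ nodes Lab J, |(n' v : ℝ) - cnt pos v| * len v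

/-! ## Part D: dynamic clustering at one scale (distances already divided by the scale) -/

structure IsMet {Y : Type u} (D : Y → Y → ℝ) : Prop where
  self : ∀ x, D x x = 0
  symm : ∀ x y, D x y = D y x
  tri : ∀ x y z, D x z ≤ D x y + D y z

/-- kings (labelled by `Option Y`, alive or dead, with centres) and race weights -/
structure KD (Y : Type u) where
  alive : Finset (Option Y)
  cen : Option Y → Y
  mu : Y → ℝ

structure KInv {Y : Type u} (D : Y → Y → ℝ) (σ : KD Y) : Prop where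
  pos : ∀ y, 0 < σ.mu y
  sep : ∀ a ∈ σ.alive, ∀ b ∈ σ.alive, a ≠ b → 4 ≤ D (σ.cen a) (σ.cen b)

/-- closed ball as a finite set -/
noncomputable def bl {Y : Type u} [Fintype Y] (D : Y → Y → ℝ) (x : Y) (R : ℝ) : Finset Y :=
  univ.filter fun w => D x w ≤ R

/-- the `i`-th radius of the grid; `i < m` gives `[1/4, 1/2)` -/
noncomputable def rad (m i : ℕ) : ℝ := 1 / 4 + (i : ℝ) / (4 * m)

open Classical in
/-- the king capturing `y` at radius `R` -/
noncomputable def kingOf {Y : Type u} (D : Y → Y → ℝ) (σ : KD Y) (R : ℝ) (y : Y) :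
    Option (Option Y) :=
  if h : ∃ a ∈ σ.alive, D y (σ.cen a) ≤ R then some h.choose else none

open Classical in
/-- bound for the probability that the label of `y` in `σ` differs from that of `y'` in `σ'` -/
noncomputable def ldist {Y : Type u} [Fintype Y] [DecidableEq Y] (D : Y → Y → ℝ) (R : ℝ)
    (σ : KD Y) (y : Y) (σ' : KD Y) (y' : Y) : ℝ :=
  if kingOf D σ R y = kingOf D σ' R y' then
    (if kingOf D σ R y = none then jac (rstr σ.mu (bl D y R)) (rstr σ'.mu (bl D y' R)) else 0)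
  else 1

/-- average of `ldist` over the radius grid -/
noncomputable def lavg {Y : Type u} [Fintype Y] [DecidableEq Y] (D : Y → Y → ℝ) (m : ℕ)
    (σ : KD Y) (y : Y) (σ' : KD Y) (y' : Y) : ℝ :=
  (∑ i ∈ range m, ldist D (rad m i) σ y σ' y') / m

/-- mass of a ball -/
noncomputable def bm {Y : Type u} [Fintype Y] (D : Y → Y → ℝ) (ν : Y → ℝ) (x : Y) (R : ℝ) : ℝ :=
  ∑ w ∈ bl D x R, ν w

/-- wide-kernel mass around `x` -/
noncomputable def wide {Y : Type u} [Fintype Y] (D : Y → Y → ℝ) (ν : Y → ℝ) (x : Y) : ℝ :=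
  ∑ w, ν w / (1 + D x w)

/-- soft ring mass around `x` -/
noncomputable def ring {Y : Type u} [Fintype Y] (D : Y → Y → ℝ) (ν : Y → ℝ) (x : Y) : ℝ :=
  ∑ w, ν w * (D x w / (1 + D x w) ^ 2)

/-- parked mass of the kings next to `x` -/
noncomputable def pnear {Y : Type u} (D : Y → Y → ℝ) (σ : KD Y) (p : Option Y → ℝ) (x : Y) : ℝ :=
  ∑ a ∈ σ.alive.filter (fun a => D x (σ.cen a) ≤ 1 / 1024), p a

/-- the rate charged to a short offline move ending at `x` -/
noncomputable def rate {Y : Type u} [Fintype Y] (D : Y → Y → ℝ) (η : ℝ) (ν : Y → ℝ) (σ : KD Y)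
    (p : Option Y → ℝ) (x : Y) : ℝ :=
  (ring D ν x + η * Fintype.card Y + pnear D σ p x) / wide D ν x +
    Real.log (bm D ν x 2 / bm D ν x (1 / 1024))

/-- cost of a structural update: relabelled offline mass plus dragged parked mass -/
noncomputable def ucost {Y : Type u} [Fintype Y] [DecidableEq Y] (D : Y → Y → ℝ) (m : ℕ)
    (ν : Y → ℝ) (p : Option Y → ℝ) (σ σ' : KD Y) : ℝ :=
  ∑ y, ν y * lavg D m σ y σ' y + ∑ a ∈ σ.alive, p a * D (σ.cen a) (σ'.cen a)

/-- Part D. `pot σ y` is the potential density, `pot0 σ` the constant term. -/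
def LevelStmt (C : ℝ) : Prop :=
  ∀ (k : ℕ), 2 ≤ k → ∀ (Y : Type u) [Fintype Y] [DecidableEq Y] [Nonempty Y] (η : ℝ), 0 < η →
    η * Fintype.card Y ≤ 1 → ∀ (m : ℕ), 0 < m → ∀ (D : Y → Y → ℝ), IsMet D →
    (∀ x y, x ≠ y → 1 / (4 * (m : ℝ)) ≤ D x y) →
    ∃ (pot : KD Y → Y → ℝ) (pot0 : KD Y → ℝ),
      (∀ σ, KInv D σ → 0 ≤ pot0 σ ∧ ∀ y, -C ≤ pot σ y) ∧
      ∀ σ, KInv D σ → ∀ ν : Y → ℝ, (∀ y, 0 ≤ ν y) → ∑ y, ν y = k →
        ∀ (x : Y) (p : Option Y → ℝ), (∀ a, 0 ≤ p a) → ∀ e : ℝ, 0 < e →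
          ∃ σ', KInv D σ' ∧ (∀ a ∈ σ.alive, D (σ.cen a) (σ'.cen a) ≤ 1 / 1024) ∧
            ucost D m ν p σ σ' + (∑ y, ν y * pot σ' y + pot0 σ') ≤
              (∑ y, ν y * pot σ y + pot0 σ) + e +
                (if 1 / 2 ≤ bm D ν x (1 / 1024) then 0 else C) ∧
            (∀ y, 1 + pot σ' x - pot σ' y ≤ C * Real.log (k + 1)) ∧
            (1 / 2 ≤ bm D ν x (1 / 1024) → ∀ y, D x y ≤ 1 / 1024 →
              lavg D m σ' x σ' y + pot σ' x - pot σ' y ≤ C * D x y * rate D η ν σ p x)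

end Crest.Agent.R314
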