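import Crest.Agent.R314.LBasic

/-!
# Part D: valid kings are few and far apart
-/

set_option autoImplicit false

open Finset

namespace Crest.Agent.R314

universe u

variable {Y : Type u} [Fintype Y] [DecidableEq Y] {k m : ℕ} {D : Y → Y → ℝ} {η : ℝ} {ν : Y → ℝ}

namespace Cn

lemma core_eq_zero {t : ℝ} (h : 1 / 256 ≤ t) : core t = 0 := cl_of_nonpos (by linarith)

lemma core_eq_one {t : ℝ} (h : t ≤ 1 / 512) : core t = 1 := cl_of_one_le (by linarith)

lemma wk_of_one_lt {t : ℝ} (h : 1 < t) : wk t = 1 / t := by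
  unfold wk; rw [if_neg (not_le.2 h)]

lemma one_le_wk {t : ℝ} (h : 1 / 512 ≤ t) (h1 : t ≤ 1) : 1 ≤ 2 ^ 18 * wk t := by
  unfold wk; rw [if_pos h1]; nlinarith

lemma sum_inv_sq (n : ℕ) : ∑ i ∈ range n, 1 / ((i : ℝ) + 1) ^ 2 ≤ 2 - 2 / (2 * (n : ℝ) + 1) := by
  induction n with
  | zero => simp
  | succ n ih =>
    rw [Finset.sum_range_succ]
    have hn : (0 : ℝ) ≤ n := Nat.cast_nonneg n
    have : 1 / ((n : ℝ) + 1) ^ 2 ≤ 2 / (2 * (n : ℝ) + 1) - 2 / (2 * ((n + 1 : ℕ) : ℝ) + 1) := by
      push_cast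
      rw [div_sub_div _ _ (by positivity) (by positivity), div_le_div_iff₀ (by positivity)
        (by positivity)]
      nlinarith
    linarith

lemma sum_inv (n : ℕ) : ∑ i ∈ range n, 1 / ((i : ℝ) + 1) ≤ 1 + Real.log n := by
  have h := harmonic_le_one_add_log n
  have e : ((harmonic n : ℚ) : ℝ) = ∑ i ∈ range n, 1 / ((i : ℝ) + 1) := by
    unfold harmonic
    push_cast
    simp
  rwa [e] at h

omit [DecidableEq Y] in
lemma bm_eq (μ : Y → ℝ) (z : Y) (R : ℝ) :
    bm D μ z R = ∑ y, if D z y ≤ R then μ y else 0 := by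
  unfold bm bl
  rw [Finset.sum_filter]

end Cn

/-- Sorting lemma: if at most `f a` elements have value `≤ f a`, the `i`-th smallest value is `≥ i`.
Induction on the card, removing a maximiser of `f`. -/
lemma sum_le_sum_range_of_count {α : Type*} [DecidableEq α] (S : Finset α) (f : α → ℝ)
    (hf : ∀ a ∈ S, (((S.filter fun b => f b ≤ f a).card : ℕ) : ℝ) ≤ f a) (g : ℝ → ℝ)
    (hg : AntitoneOn g (Set.Ici 1)) :
    ∑ a ∈ S, g (f a) ≤ ∑ i ∈ range S.card, g (i + 1) := by
  induction S using Finset.induction_on_max_value f with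
  | empty => simp
  | insert a s ha hmax ih =>
    rw [Finset.sum_insert ha, Finset.card_insert_of_notMem ha, Finset.sum_range_succ]
    have h1 := hf a (Finset.mem_insert_self a s)
    have e : (insert a s).filter (fun b => f b ≤ f a) = insert a s := by
      apply Finset.filter_true_of_mem
      intro b hb
      rcases Finset.mem_insert.1 hb with rfl | hb
      · exact le_rfl
      · exact hmax b hb
    rw [e, Finset.card_insert_of_notMem ha] at h1
    push_cast at h1
    have h0 : (0 : ℝ) ≤ s.card := Nat.cast_nonneg _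
    have h2 : g (f a) ≤ g (s.card + 1) :=
      hg (show (1 : ℝ) ≤ s.card + 1 by linarith) (show (1 : ℝ) ≤ f a by linarith) h1
    have h3 := ih fun b hb => le_trans (by
      exact_mod_cast Finset.card_le_card
        (Finset.filter_subset_filter _ (Finset.subset_insert a s)))
      (hf b (Finset.mem_insert_of_mem hb))
    linarith

omit [DecidableEq Y] in
/-- `∑ Core ≤ ∑ ν = k` by `sum_core_le_one` -/
lemma card_ok_le (c : Ctx k D m η ν) {σ : KD Y} (hσ : KInv D σ)
    (hok : ∀ a ∈ σ.alive, OK D ν (σ.cen a)) : (σ.alive.card : ℝ) ≤ 17 * k := by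
  have h1 : ∑ _a ∈ σ.alive, (1 / 17 : ℝ) ≤ ∑ a ∈ σ.alive, Core D ν (σ.cen a) :=
    Finset.sum_le_sum fun a ha => (hok a ha).2
  have h2 : ∑ a ∈ σ.alive, Core D ν (σ.cen a) ≤ ∑ y, ν y := by
    unfold Core
    rw [Finset.sum_comm]
    refine Finset.sum_le_sum fun y _ => ?_
    rw [← Finset.mul_sum]
    have := sum_core_le_one c.met hσ y
    have := c.ν0 y
    nlinarith
  rw [c.νsum] at h2
  rw [Finset.sum_const, nsmul_eq_mul] at h1
  linarith

omit [DecidableEq Y] in
/-- Let `z*` have minimal `Core` among the kings within `t` of `x`.  For another such king `z` and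
`core (D y z) > 0`: `1 ≤ D y z* ≤ 2t + 1/256 ≤ 3t`, so `wk (D y z*) ≥ 1/(3t)`; with
`sum_core_le_one`, `Wk z* ≥ (n-1) Core z* /(3t)`, and `Wk z* ≤ 2 eps1 Core z*`, `Core z* > 0`. -/
lemma count_le (c : Ctx k D m η ν) {σ : KD Y} (hσ : KInv D σ)
    (hok : ∀ a ∈ σ.alive, OK D ν (σ.cen a)) (x : Y) {t : ℝ} (ht : 2 ≤ t) :
    (((σ.alive.filter fun a => D x (σ.cen a) ≤ t).card : ℕ) : ℝ) ≤ 1 + t / 4 := by
  classical
  set S := σ.alive.filter fun a => D x (σ.cen a) ≤ t with hS
  rcases S.eq_empty_or_nonempty with h0 | hne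
  · rw [h0]; simp; linarith
  obtain ⟨b, hb, hmin⟩ := S.exists_min_image (fun a => Core D ν (σ.cen a)) hne
  have hb' := Finset.mem_filter.1 hb
  have hpt : ∀ y, ∑ a ∈ S.erase b, core (D y (σ.cen a)) ≤ 3 * t * wk (D y (σ.cen b)) := by
    intro y
    by_cases hex : ∃ a ∈ S.erase b, D y (σ.cen a) < 1 / 256
    · obtain ⟨a, ha, hya⟩ := hex
      have ha' := Finset.mem_erase.1 ha
      have ha'' := Finset.mem_filter.1 ha'.2
      have hsep := hσ.sep a ha''.1 b hb'.1 ha'.1
      have t1 := c.met.tri (σ.cen a) y (σ.cen b)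
      rw [c.met.symm (σ.cen a) y] at t1
      have t2 := c.met.tri y (σ.cen a) (σ.cen b)
      have t3 := c.met.tri (σ.cen a) x (σ.cen b)
      rw [c.met.symm (σ.cen a) x] at t3
      have h1 : 1 < D y (σ.cen b) := by linarith
      have h2 : D y (σ.cen b) ≤ 3 * t := by linarith [ha''.2, hb'.2]
      have h3 : 1 ≤ 3 * t * wk (D y (σ.cen b)) := by
        rw [Cn.wk_of_one_lt h1, mul_one_div, le_div_iff₀ (by linarith)]
        linarith
      have h4 : ∑ a ∈ S.erase b, core (D y (σ.cen a)) ≤ ∑ a ∈ σ.alive, core (D y (σ.cen a)) :=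
        Finset.sum_le_sum_of_subset_of_nonneg
          ((Finset.erase_subset _ _).trans (Finset.filter_subset _ _)) fun _ _ _ => cl_nonneg _
      linarith [sum_core_le_one c.met hσ y]
    · push Not at hex
      rw [Finset.sum_eq_zero fun a ha => Cn.core_eq_zero (hex a ha)]
      exact mul_nonneg (by linarith) (wk_nonneg (c.met.nonneg _ _))
  have h1 : ∑ a ∈ S.erase b, Core D ν (σ.cen a) ≤ 3 * t * Wk D ν (σ.cen b) := by
    unfold Core Wk
    rw [Finset.sum_comm, Finset.mul_sum]
    refine Finset.sum_le_sum fun y _ => ?_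
    rw [← Finset.mul_sum]
    have := mul_le_mul_of_nonneg_left (hpt y) (c.ν0 y)
    linarith
  have h2 : ∑ _a ∈ S.erase b, Core D ν (σ.cen b) ≤ ∑ a ∈ S.erase b, Core D ν (σ.cen a) :=
    Finset.sum_le_sum fun a ha => hmin a (Finset.mem_of_mem_erase ha)
  rw [Finset.sum_const, nsmul_eq_mul] at h2
  have h3 : ((S.erase b).card : ℝ) + 1 = S.card := by
    exact_mod_cast Finset.card_erase_add_one hb
  obtain ⟨h4, h5⟩ := hok b hb'.1
  unfold eps1 at h4
  have h6 : 3 * t * Wk D ν (σ.cen b) ≤ 3 * t * (2 * (1 / 2 ^ 25) * Core D ν (σ.cen b)) :=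
    mul_le_mul_of_nonneg_left h4 (by linarith)
  have h7 : ((S.erase b).card : ℝ) * Core D ν (σ.cen b) ≤ t / 4 * Core D ν (σ.cen b) := by
    have : 0 ≤ t * Core D ν (σ.cen b) := mul_nonneg (by linarith) (by linarith)
    nlinarith
  have h8 := le_of_mul_le_mul_right h7 (by linarith)
  linarith

omit [DecidableEq Y] in
/-- sorting lemma with `g t = 1/t²`, `∑ 1/i² ≤ 2` -/
lemma sum_inv_sq_le (c : Ctx k D m η ν) {σ : KD Y} (hσ : KInv D σ)
    (hok : ∀ a ∈ σ.alive, OK D ν (σ.cen a)) (x : Y) :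
    ∑ a ∈ σ.alive.filter (fun a => 2 ≤ D x (σ.cen a)), 1 / D x (σ.cen a) ^ 2 ≤ 2 := by
  classical
  have h := sum_le_sum_range_of_count (σ.alive.filter (fun a => 2 ≤ D x (σ.cen a)))
    (fun a => D x (σ.cen a)) (fun a ha => by
      have ha' := (Finset.mem_filter.1 ha).2
      have h1 := count_le c hσ hok x ha'
      have h2 : (((σ.alive.filter (fun a => 2 ≤ D x (σ.cen a))).filter
          fun b => D x (σ.cen b) ≤ D x (σ.cen a)).card : ℝ) ≤
          ((σ.alive.filter fun b => D x (σ.cen b) ≤ D x (σ.cen a)).card : ℝ) := by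
        exact_mod_cast Finset.card_le_card
          (Finset.filter_subset_filter _ (Finset.filter_subset _ _))
      linarith) (fun t => 1 / t ^ 2) (by
      intro s hs t ht hst
      have hs' : (1 : ℝ) ≤ s := hs
      exact one_div_le_one_div_of_le (by positivity) (by nlinarith))
  have h2 := Cn.sum_inv_sq (σ.alive.filter (fun a => 2 ≤ D x (σ.cen a))).card
  have h3 : (0 : ℝ) ≤ 2 / (2 * ((σ.alive.filter (fun a => 2 ≤ D x (σ.cen a))).card : ℝ) + 1) := by
    positivity
  linarith

omit [Fintype Y] [DecidableEq Y] in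
/-- at most one living king within distance `< 2` -/
lemma card_near_le_one (h : IsMet D) {σ : KD Y} (hσ : KInv D σ) (x : Y) :
    (σ.alive.filter fun a => D x (σ.cen a) < 2).card ≤ 1 := by
  rw [Finset.card_le_one]
  intro a ha b hb
  by_contra hab
  have ha' := Finset.mem_filter.1 ha
  have hb' := Finset.mem_filter.1 hb
  have h1 := hσ.sep a ha'.1 b hb'.1 hab
  have h2 := h.tri (σ.cen a) x (σ.cen b)
  rw [h.symm (σ.cen a) x] at h2
  linarith [ha'.2, hb'.2]

omit [DecidableEq Y] in
/-- one king within `2` (`wk ≤ 1`), the others have `wk = 1/t`; harmonic sum `≤ 1 + log (17 k)` -/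
lemma sum_wk_le (c : Ctx k D m η ν) {σ : KD Y} (hσ : KInv D σ)
    (hok : ∀ a ∈ σ.alive, OK D ν (σ.cen a)) (x : Y) :
    ∑ a ∈ σ.alive, wk (D x (σ.cen a)) ≤ 2 + Real.log (17 * k) := by
  classical
  rw [← Finset.sum_filter_add_sum_filter_not σ.alive (fun a => D x (σ.cen a) < 2)]
  simp only [not_lt]
  have h1 : ∑ a ∈ σ.alive.filter (fun a => D x (σ.cen a) < 2), wk (D x (σ.cen a)) ≤ 1 := by
    have a1 := Finset.sum_le_card_nsmul (σ.alive.filter (fun a => D x (σ.cen a) < 2))
      (fun a => wk (D x (σ.cen a))) 1 fun a _ => wk_le_one (c.met.nonneg _ _)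
    rw [nsmul_eq_mul, mul_one] at a1
    have a2 : ((σ.alive.filter (fun a => D x (σ.cen a) < 2)).card : ℝ) ≤ 1 := by
      exact_mod_cast card_near_le_one c.met hσ x
    linarith
  have h := sum_le_sum_range_of_count (σ.alive.filter (fun a => 2 ≤ D x (σ.cen a)))
    (fun a => D x (σ.cen a)) (fun a ha => by
      have ha' := (Finset.mem_filter.1 ha).2
      have h1 := count_le c hσ hok x ha'
      have h2 : (((σ.alive.filter (fun a => 2 ≤ D x (σ.cen a))).filter
          fun b => D x (σ.cen b) ≤ D x (σ.cen a)).card : ℝ) ≤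
          ((σ.alive.filter fun b => D x (σ.cen b) ≤ D x (σ.cen a)).card : ℝ) := by
        exact_mod_cast Finset.card_le_card
          (Finset.filter_subset_filter _ (Finset.filter_subset _ _))
      linarith) (fun t => 1 / t) (by
      intro s hs t ht hst
      have hs' : (1 : ℝ) ≤ s := hs
      exact one_div_le_one_div_of_le (by positivity) hst)
  have h2 := Cn.sum_inv (σ.alive.filter (fun a => 2 ≤ D x (σ.cen a))).card
  have h3 : ∑ a ∈ σ.alive.filter (fun a => 2 ≤ D x (σ.cen a)), wk (D x (σ.cen a)) =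
      ∑ a ∈ σ.alive.filter (fun a => 2 ≤ D x (σ.cen a)), 1 / D x (σ.cen a) :=
    Finset.sum_congr rfl fun a ha =>
      Cn.wk_of_one_lt (by linarith [(Finset.mem_filter.1 ha).2])
  have h4 : Real.log ((σ.alive.filter (fun a => 2 ≤ D x (σ.cen a))).card : ℝ) ≤
      Real.log (17 * k) := by
    have hk : (2 : ℝ) ≤ k := by exact_mod_cast c.hk
    rcases Nat.eq_zero_or_pos (σ.alive.filter (fun a => 2 ≤ D x (σ.cen a))).card with h0 | h0
    · rw [h0]
      simpa using Real.log_nonneg (show (1 : ℝ) ≤ 17 * k by linarith)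
    · apply Real.log_le_log (by exact_mod_cast h0)
      have a1 := card_ok_le c hσ hok
      have a2 : ((σ.alive.filter (fun a => 2 ≤ D x (σ.cen a))).card : ℝ) ≤ σ.alive.card := by
        exact_mod_cast Finset.card_le_card (Finset.filter_subset _ _)
      linarith
  linarith

omit [DecidableEq Y] in
/-- king part of a short move: the king within `2` contributes `(2 + 512 eps1) d ≤ 3d`; for
`t = D x z ≥ 2` both cores vanish and `1/t - 1/t' ≤ 2 d/t²` -/
lemma sum_qk_move (c : Ctx k D m η ν) {σ : KD Y} (hσ : KInv D σ)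
    (hok : ∀ a ∈ σ.alive, OK D ν (σ.cen a)) {x y : Y} (hxy : D x y ≤ 1 / 1024) :
    ∑ a ∈ σ.alive, (qk (D x (σ.cen a)) - qk (D y (σ.cen a))) ≤ 7 * D x y := by
  classical
  have hd := c.met.nonneg x y
  have habs : ∀ z, |D x z - D y z| ≤ D x y := by
    intro z
    have t1 := c.met.tri x y z
    have t2 := c.met.tri y x z
    rw [c.met.symm y x] at t2
    rw [abs_le]; constructor <;> linarith
  rw [← Finset.sum_filter_add_sum_filter_not σ.alive (fun a => D x (σ.cen a) < 2)]
  simp only [not_lt]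
  have h1 : ∑ a ∈ σ.alive.filter (fun a => D x (σ.cen a) < 2),
      (qk (D x (σ.cen a)) - qk (D y (σ.cen a))) ≤ 3 * D x y := by
    have a1 := Finset.sum_le_card_nsmul (σ.alive.filter (fun a => D x (σ.cen a) < 2))
      (fun a => qk (D x (σ.cen a)) - qk (D y (σ.cen a))) (3 * D x y) fun a _ => by
        have b1 := wk_lip (c.met.nonneg x (σ.cen a)) (c.met.nonneg y (σ.cen a))
        have b2 := cl_lip (2 - 512 * D y (σ.cen a)) (2 - 512 * D x (σ.cen a))
        have b3 : |2 - 512 * D y (σ.cen a) - (2 - 512 * D x (σ.cen a))| =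
            512 * |D x (σ.cen a) - D y (σ.cen a)| := by
          rw [show 2 - 512 * D y (σ.cen a) - (2 - 512 * D x (σ.cen a)) =
            512 * (D x (σ.cen a) - D y (σ.cen a)) by ring, abs_mul]
          norm_num
        have b4 := habs (σ.cen a)
        unfold qk core eps1
        linarith
    rw [nsmul_eq_mul] at a1
    have a2 : ((σ.alive.filter (fun a => D x (σ.cen a) < 2)).card : ℝ) ≤ 1 := by
      exact_mod_cast card_near_le_one c.met hσ x
    nlinarith
  have h2 : ∑ a ∈ σ.alive.filter (fun a => 2 ≤ D x (σ.cen a)),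
      (qk (D x (σ.cen a)) - qk (D y (σ.cen a))) ≤
      ∑ a ∈ σ.alive.filter (fun a => 2 ≤ D x (σ.cen a)), 2 * D x y * (1 / D x (σ.cen a) ^ 2) := by
    refine Finset.sum_le_sum fun a ha => ?_
    have ha' := (Finset.mem_filter.1 ha).2
    have b := abs_le.1 (habs (σ.cen a))
    set s := D x (σ.cen a)
    set t := D y (σ.cen a)
    have ht : 1 < t := by linarith [b.2]
    unfold qk
    rw [Cn.core_eq_zero (t := s) (by linarith), Cn.core_eq_zero (t := t) (by linarith),
      Cn.wk_of_one_lt (t := s) (by linarith), Cn.wk_of_one_lt ht]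
    have e : 1 / s - eps1 * 0 - (1 / t - eps1 * 0) = (t - s) / (s * t) := by
      field_simp
      ring
    rw [e, mul_one_div, div_le_div_iff₀ (by positivity) (by positivity)]
    have b1 : (t - s) * s ^ 2 ≤ D x y * s ^ 2 :=
      mul_le_mul_of_nonneg_right (by linarith [b.1]) (by positivity)
    have b2 : D x y * s ^ 2 ≤ D x y * (2 * (s * t)) :=
      mul_le_mul_of_nonneg_left (by nlinarith [b.2]) hd
    linarith
  rw [← Finset.mul_sum] at h2
  have h3 := mul_le_mul_of_nonneg_left (sum_inv_sq_le c hσ hok x) (show 0 ≤ 2 * D x y by linarith)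
  linarith

omit [DecidableEq Y] in
/-- exposed wide mass around a king position `z` (`cL (tK y) = 0` when `D y z ≤ 1/512`;
`1/(1+t) ≤ 2^18 wk t` for `t ≥ 1/512`) -/
lemma wide_nuL_le_Wk (c : Ctx k D m η ν) {σ : KD Y} {a : Option Y} (ha : a ∈ σ.alive) :
    wide D (nuL D η ν σ) (σ.cen a) ≤ 2 ^ 18 * Wk D ν (σ.cen a) + 1 := by
  have h1 : wide D (nuL D η ν σ) (σ.cen a) ≤ ∑ w, (2 ^ 18 * (ν w * wk (D w (σ.cen a))) + η) := by
    unfold wide
    refine Finset.sum_le_sum fun w _ => ?_
    rw [c.met.symm (σ.cen a) w]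
    have ht := c.met.nonneg w (σ.cen a)
    have hν := c.ν0 w
    have hη := c.ηpos
    have hw := wk_nonneg ht
    set t := D w (σ.cen a) with htdef
    have b1 : η / (1 + t) ≤ η := div_le_self hη.le (by linarith)
    unfold nuL
    rw [add_div]
    have b2 : cL (tK D σ w) * ν w / (1 + t) ≤ 2 ^ 18 * (ν w * wk t) := by
      rcases le_or_gt t (1 / 512) with h | h
      · have e : cL (tK D σ w) = 0 := cl_of_nonpos (by linarith [tK_le (D := D) ha w])
        rw [e, zero_mul, zero_div]
        positivity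
      · have b3 : cL (tK D σ w) * ν w ≤ 1 * ν w := mul_le_mul_of_nonneg_right (cl_le_one _) hν
        have b4 : 1 / (1 + t) ≤ 2 ^ 18 * wk t := by
          rcases le_or_gt t 1 with h' | h'
          · have := Cn.one_le_wk h.le h'
            have : 1 / (1 + t) ≤ 1 := div_le_self (by norm_num) (by linarith)
            linarith
          · rw [Cn.wk_of_one_lt h']
            have : 1 / (1 + t) ≤ 1 / t := one_div_le_one_div_of_le (by linarith) (by linarith)
            have : 0 ≤ 1 / t := by positivity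
            linarith
        calc cL (tK D σ w) * ν w / (1 + t) ≤ 1 * ν w / (1 + t) :=
              div_le_div_of_nonneg_right b3 (by linarith)
          _ = ν w * (1 / (1 + t)) := by ring
          _ ≤ ν w * (2 ^ 18 * wk t) := mul_le_mul_of_nonneg_left b4 hν
          _ = _ := by ring
    linarith
  rw [Finset.sum_add_distrib, ← Finset.mul_sum, Finset.sum_const, nsmul_eq_mul,
    Finset.card_univ] at h1
  have := c.ηcard
  unfold Wk
  linarith

omit [DecidableEq Y] in
/-- `1 ≤ core t + 2^18 wk t` for `0 ≤ t ≤ 1` -/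
lemma bm_le_Core_add (c : Ctx k D m η ν) (z : Y) :
    bm D ν z 1 ≤ Core D ν z + 2 ^ 18 * Wk D ν z := by
  rw [Cn.bm_eq]
  unfold Core Wk
  rw [Finset.mul_sum, ← Finset.sum_add_distrib]
  refine Finset.sum_le_sum fun y _ => ?_
  rw [c.met.symm z y]
  have ht := c.met.nonneg y z
  have hν := c.ν0 y
  have hw := wk_nonneg ht
  have hc : 0 ≤ core (D y z) := cl_nonneg _
  split_ifs with h
  · rcases le_or_gt (D y z) (1 / 512) with h' | h'
    · rw [Cn.core_eq_one h']
      have : 0 ≤ ν y * wk (D y z) := mul_nonneg hν hw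
      linarith
    · have b1 := mul_le_mul_of_nonneg_left (Cn.one_le_wk h'.le h) hν
      have : 0 ≤ ν y * core (D y z) := mul_nonneg hν hc
      linarith
  · positivity

omit [DecidableEq Y] in
lemma Core_le_bm (c : Ctx k D m η ν) (z : Y) : Core D ν z ≤ bm D ν z (1 / 256) := by
  rw [Cn.bm_eq]
  unfold Core
  refine Finset.sum_le_sum fun y _ => ?_
  rw [c.met.symm z y]
  have hν := c.ν0 y
  split_ifs with h
  · have := mul_le_mul_of_nonneg_left (show core (D y z) ≤ 1 from cl_le_one _) hν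
    linarith
  · rw [Cn.core_eq_zero (not_le.1 h).le, mul_zero]

omit [DecidableEq Y] in
lemma bm_le_Core (c : Ctx k D m η ν) (z : Y) : bm D ν z (1 / 512) ≤ Core D ν z := by
  rw [Cn.bm_eq]
  unfold Core
  refine Finset.sum_le_sum fun y _ => ?_
  rw [c.met.symm z y]
  have hν := c.ν0 y
  split_ifs with h
  · rw [Cn.core_eq_one h, mul_one]
  · exact mul_nonneg hν (cl_nonneg _)

end Crest.Agent.R314
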