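import Crest.Agent.R314.LJac

/-!
# Part D: Lipschitz bounds in the point (fixed weights)

`d = D x y ≤ 1/1024`; if `x = y` everything is trivial, otherwise `d ≥ 1/(4m)` by `c.grid`.
-/

set_option autoImplicit false

open Finset

namespace Crest.Agent.R314

universe u

variable {Y : Type u} [Fintype Y] [DecidableEq Y] {k m : ℕ} {D : Y → Y → ℝ} {η : ℝ} {ν : Y → ℝ}

namespace Lp

lemma sqrt_move {Tx Ty ux uy c Δ : ℝ} (hTx : 0 ≤ Tx) (hTy : 0 ≤ Ty) (hux : 0 < ux) (huy : 0 < uy)
    (h1 : √Ty ≤ √Tx + c * √uy) (h2 : Tx ≤ uy) (h3 : Real.log ux - Real.log uy ≤ Δ) (hΔ : 0 ≤ Δ) :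
    √(Ty / uy) - √(Tx / ux) ≤ c + Δ / 2 := by
  rw [Real.sqrt_div hTy, Real.sqrt_div hTx]
  have hp : 0 < √ux := Real.sqrt_pos.2 hux
  have hq : 0 < √uy := Real.sqrt_pos.2 huy
  have hb : 0 ≤ √Tx := Real.sqrt_nonneg _
  have hbq : √Tx ≤ √uy := Real.sqrt_le_sqrt h2
  have e : √Ty / √uy - √Tx / √ux = (√Ty - √Tx) / √uy + √Tx / √uy * (1 - √uy / √ux) := by
    field_simp
    ring
  have a1 : (√Ty - √Tx) / √uy ≤ c := by
    rw [div_le_iff₀ hq]; linarith
  have a2 : 1 - √uy / √ux ≤ Δ / 2 := by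
    have b1 := Real.log_le_sub_one_of_pos (div_pos hq hp)
    have b2 := Real.one_sub_inv_le_log_of_pos (div_pos hp hq)
    rw [inv_div, Real.log_div hp.ne' hq.ne', Real.log_sqrt hux.le, Real.log_sqrt huy.le] at b2
    linarith
  have a3 : 0 ≤ √Tx / √uy := div_nonneg hb hq.le
  have a4 : √Tx / √uy ≤ 1 := (div_le_one hq).2 hbq
  have a5 : √Tx / √uy * (1 - √uy / √ux) ≤ √Tx / √uy * (Δ / 2) := mul_le_mul_of_nonneg_left a2 a3
  have a6 : √Tx / √uy * (Δ / 2) ≤ 1 * (Δ / 2) := mul_le_mul_of_nonneg_right a4 (by linarith)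
  linarith

omit [DecidableEq Y] in
lemma tele (c : Ctx k D m η ν) {μ : Y → ℝ} (hμ : ∀ y, 0 < μ y) (x : Y) {d : ℝ}
    (hd : 1 / (4 * (m : ℝ)) ≤ d) (hd' : d ≤ 1 / 1024) :
    (∑ i ∈ range m, (Real.log (bm D μ x (rad m i + d)) - Real.log (bm D μ x (rad m i - d)))) / m ≤
      16 * d * Real.log (bm D μ x 1 / bm D μ x (3 / 32)) := by
  have hμ' : ∀ y, 0 ≤ μ y := fun y => (hμ y).le
  have hm : (0 : ℝ) < m := by exact_mod_cast c.mpos
  have hd0 : 0 ≤ d := le_trans (by positivity) hd
  have h := sum_rad_telescope c.mpos hd (by linarith) (fun R => Real.log (bm D μ x R)) (by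
    intro s hs t _ hst
    exact Real.log_le_log (bm_pos c.met hμ x (by linarith [hs.1]))
      (bm_le_bm c.met hμ' (by rw [c.met.self]; linarith)))
  have h1 : Real.log (bm D μ x (3 / 32)) ≤ Real.log (bm D μ x (1 / 8)) :=
    Real.log_le_log (bm_pos c.met hμ x (by norm_num))
      (bm_le_bm c.met hμ' (by rw [c.met.self]; norm_num))
  rw [Real.log_div (bm_pos c.met hμ x (by norm_num)).ne' (bm_pos c.met hμ x (by norm_num)).ne']
  refine h.trans (mul_le_mul_of_nonneg_left (by linarith) (by linarith))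

omit [Fintype Y] [DecidableEq Y] in
lemma king_window (h : IsMet D) {σ : KD Y} (hσ : KInv D σ) {x y : Y} (hxy : D x y ≤ 1 / 1024) :
    ∃ lo hi : ℝ, hi ≤ lo + D x y ∧
      ∀ R : ℝ, R ≤ 1 / 2 → kingOf D σ R x ≠ kingOf D σ R y → lo ≤ R ∧ R < hi := by
  have hd := h.nonneg x y
  have t1 : ∀ z, D x z ≤ D x y + D y z := fun z => h.tri x y z
  have t2 : ∀ z, D y z ≤ D x y + D x z := fun z => by
    have := h.tri y x z
    rwa [h.symm y x] at this
  by_cases hex : ∃ a ∈ σ.alive, D x (σ.cen a) ≤ 1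
  · obtain ⟨a, ha, hxa⟩ := hex
    refine ⟨min (D x (σ.cen a)) (D y (σ.cen a)), max (D x (σ.cen a)) (D y (σ.cen a)), ?_, ?_⟩
    · have a1 := t1 (σ.cen a)
      have a2 := t2 (σ.cen a)
      rcases le_total (D x (σ.cen a)) (D y (σ.cen a)) with h' | h'
      · rw [min_eq_left h', max_eq_right h']; linarith
      · rw [min_eq_right h', max_eq_left h']; linarith
    · intro R hR hne
      constructor
      · by_contra hlt
        push Not at hlt
        have b1 := lt_of_lt_of_le hlt (min_le_left _ _)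
        have b2 := lt_of_lt_of_le hlt (min_le_right _ _)
        have far : ∀ b ∈ σ.alive, b ≠ a → 3 ≤ D x (σ.cen b) := by
          intro b hb hba
          have s1 := hσ.sep a ha b hb hba.symm
          have s2 := h.tri (σ.cen a) x (σ.cen b)
          rw [h.symm (σ.cen a) x] at s2
          linarith
        apply hne
        rw [kingOf_eq_none.2, kingOf_eq_none.2]
        · intro b hb
          by_cases hba : b = a
          · rw [hba]; exact b2
          · linarith [far b hb hba, t1 (σ.cen b)]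
        · intro b hb
          by_cases hba : b = a
          · rw [hba]; exact b1
          · linarith [far b hb hba]
      · by_contra hle
        push Not at hle
        apply hne
        rw [(kingOf_eq_some h hσ (by linarith)).2 ⟨ha, (le_max_left _ _).trans hle⟩,
          (kingOf_eq_some h hσ (by linarith)).2 ⟨ha, (le_max_right _ _).trans hle⟩]
  · push Not at hex
    refine ⟨0, 0, by linarith, fun R hR hne => ?_⟩
    exfalso
    apply hne
    rw [kingOf_eq_none.2, kingOf_eq_none.2]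
    · intro b hb
      linarith [hex b hb, t1 (σ.cen b)]
    · intro b hb
      linarith [hex b hb]

lemma jac_move (h : IsMet D) {μ : Y → ℝ} (hμ : ∀ y, 0 < μ y) (x y : Y) {R : ℝ} (hR : D x y ≤ R) :
    jac (rstr μ (bl D x R)) (rstr μ (bl D y R)) ≤
      Real.log (bm D μ x (R + D x y)) - Real.log (bm D μ x (R - D x y)) := by
  have hd := h.nonneg x y
  have hlo : 0 < bm D μ x (R - D x y) := bm_pos h hμ x (by linarith)
  have hhi : 0 < bm D μ x (R + D x y) := bm_pos h hμ x (by linarith)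
  have h1 : bm D μ x (R - D x y) ≤ ∑ w, min (rstr μ (bl D x R) w) (rstr μ (bl D y R) w) := by
    rw [← sum_rstr_bl]
    refine Finset.sum_le_sum fun w _ => ?_
    have := (hμ w).le
    have t := h.tri y x w
    rw [h.symm y x] at t
    simp only [rstr, mem_bl]
    by_cases hw : D x w ≤ R - D x y
    · rw [if_pos hw, if_pos (by linarith), if_pos (by linarith), min_self]
    · rw [if_neg hw]
      apply le_min <;> split_ifs <;> linarith
  have h2 : ∑ w, max (rstr μ (bl D x R) w) (rstr μ (bl D y R) w) ≤ bm D μ x (R + D x y) := by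
    rw [← sum_rstr_bl]
    refine Finset.sum_le_sum fun w _ => ?_
    have := (hμ w).le
    have t := h.tri x y w
    simp only [rstr, mem_bl]
    by_cases hw : D x w ≤ R + D x y
    · rw [if_pos hw]
      apply max_le <;> split_ifs <;> linarith
    · rw [if_neg hw, if_neg (by intro h'; exact hw (by linarith)),
        if_neg (by intro h'; exact hw (by linarith)), max_self]
  have h3 := jac_le_of hlo h1 h2
  have h4 := Real.one_sub_inv_le_log_of_pos (div_pos hhi hlo)
  rw [inv_div, Real.log_div hhi.ne' hlo.ne'] at h4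
  linarith

end Lp

omit [DecidableEq Y] in
/-- `sh y ≤ √(1+d) (sh x + 16 d √(bm y (1/16+d)/N x))` by `sqrt_tent_le`, `wide_le_mul`;
`bm y (1/16 + d) ≤ bm x 1 ≤ 2 N x`, `√(1+d) ≤ 1 + d`, `sh x ≤ 2` -/
lemma psiL_move (h : IsMet D) {μ : Y → ℝ} (hμ : ∀ y, 0 < μ y) {x y : Y} (hxy : D x y ≤ 1 / 1024) :
    psiL D μ x - psiL D μ y ≤ 70 * D x y := by
  have hμ' : ∀ y, 0 ≤ μ y := fun y => (hμ y).le
  have hd := h.nonneg x y
  have hNx := wide_pos h hμ x
  have hNy := wide_pos h hμ y
  have h1 := wide_le_mul h hμ' y x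
  rw [h.symm y x] at h1
  have h2 := sqrt_tent_le h hμ' x y
  have h3 : bm D μ y (1 / 16 + D x y) ≤ bm D μ x 1 := bm_le_bm h hμ' (by linarith)
  have h4 := bm_le_wide h hμ' x (R := 1) (by norm_num)
  have h5 := sh_le_two h hμ x
  have h6 := sh_nonneg (D := D) μ x
  unfold psiL
  unfold sh at *
  rw [Real.sqrt_div (tent_nonneg hμ' x)] at h5 h6 ⊢
  rw [Real.sqrt_div (tent_nonneg hμ' y)]
  set d := D x y
  have hp : 0 < √(wide D μ x) := Real.sqrt_pos.2 hNx
  have hq : 0 < √(wide D μ y) := Real.sqrt_pos.2 hNy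
  have a1 : √(bm D μ y (1 / 16 + d)) ≤ 2 * √(wide D μ x) := by
    apply Real.sqrt_le_iff.2
    refine ⟨by linarith, ?_⟩
    rw [mul_pow, Real.sq_sqrt hNx.le]
    linarith
  have a2 : √(wide D μ x) ≤ (1 + d) * √(wide D μ y) := by
    apply Real.sqrt_le_iff.2
    refine ⟨by positivity, ?_⟩
    rw [mul_pow, Real.sq_sqrt hNy.le]
    have : 0 ≤ d * wide D μ y := by positivity
    nlinarith
  set a := √(tent D μ y)
  set b := √(tent D μ x)
  set p := √(wide D μ x)
  set q := √(wide D μ y)
  have ha : 0 ≤ a := Real.sqrt_nonneg _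
  have a3 : a / p ≤ b / p + 32 * d := by
    rw [div_add' _ _ _ hp.ne', div_le_div_iff_of_pos_right hp]
    have := mul_le_mul_of_nonneg_left a1 (show 0 ≤ 16 * d by linarith)
    linarith
  have a4 : a / q ≤ (1 + d) * (a / p) := by
    rw [← mul_div_assoc, div_le_div_iff₀ hq hp]
    have := mul_le_mul_of_nonneg_left a2 ha
    linarith
  have a5 : (1 + d) * (a / p) ≤ (1 + d) * (b / p + 32 * d) :=
    mul_le_mul_of_nonneg_left a3 (by linarith)
  have a6 : d * (b / p) ≤ d * 2 := mul_le_mul_of_nonneg_left h5 hd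
  have a7 : d * d ≤ d * (1 / 1024) := mul_le_mul_of_nonneg_left hxy hd
  nlinarith

omit [DecidableEq Y] in
/-- With `f R = log (bm μ x R)`, `Λ = f 1 - f (1/8) ≤ log (bm x 1 / bm x (3/32))`:
`log N x - log N y ≤ d`; `log bm y R - log bm x R ≤ f (R+d) - f (R-d)`;
`√(T y/u_y) - √(T x/u_x) ≤ 16 d + (1/2) (f (R+d) - f (R-d))` (split as
`(√T y - √T x)/√u_y + √(T x/u_y) (1 - √(u_y/u_x))`, `T x ≤ u_y`); `sum_rad_telescope`. -/
lemma psiR_move (c : Ctx k D m η ν) {μ : Y → ℝ} (hμ : ∀ y, 0 < μ y) {x y : Y}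
    (hxy : D x y ≤ 1 / 1024) :
    psiR D m μ x - psiR D m μ y ≤
      D x y * (17 + 24 * Real.log (bm D μ x 1 / bm D μ x (3 / 32))) := by
  by_cases hxy0 : x = y
  · subst hxy0
    rw [c.met.self]; simp
  have h := c.met
  have hμ' : ∀ y, 0 ≤ μ y := fun y => (hμ y).le
  have hd := h.nonneg x y
  have hm : (0 : ℝ) < m := by exact_mod_cast c.mpos
  have ht := Lp.tele c hμ x (c.grid x y hxy0) hxy
  have hNx := wide_pos h hμ x
  have hNy := wide_pos h hμ y
  have h1 := wide_le_mul h hμ' y x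
  rw [h.symm y x] at h1
  have h2 : Real.log (2 * wide D μ x) - Real.log (2 * wide D μ y) ≤ D x y := by
    have a1 : Real.log (2 * wide D μ x) ≤ Real.log ((1 + D x y) * (2 * wide D μ y)) :=
      Real.log_le_log (by linarith) (by linarith)
    rw [Real.log_mul (x := 1 + D x y) (by linarith) (by linarith)] at a1
    have a2 := Real.log_le_sub_one_of_pos (show 0 < 1 + D x y by linarith)
    linarith
  have h3 : ∀ i ∈ range m,
      (Real.log (bm D μ y (rad m i)) - Real.log (bm D μ x (rad m i))) +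
        (√(tent D μ y / bm D μ y (rad m i)) - √(tent D μ x / bm D μ x (rad m i))) ≤
      16 * D x y + 3 / 2 * (Real.log (bm D μ x (rad m i + D x y)) -
        Real.log (bm D μ x (rad m i - D x y))) := by
    intro i _
    have hR := rad_ge m i
    set R := rad m i
    have hlo : 0 < bm D μ x (R - D x y) := bm_pos h hμ x (by linarith)
    have hux : 0 < bm D μ x R := bm_pos h hμ x (by linarith)
    have huy : 0 < bm D μ y R := bm_pos h hμ y (by linarith)
    have b1 : Real.log (bm D μ x (R - D x y)) ≤ Real.log (bm D μ x R) :=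
      Real.log_le_log hlo (bm_le_bm h hμ' (by rw [h.self]; linarith))
    have b2 : Real.log (bm D μ x (R - D x y)) ≤ Real.log (bm D μ y R) :=
      Real.log_le_log hlo (bm_le_bm h hμ' (by rw [h.symm y x]; linarith))
    have b3 : Real.log (bm D μ x R) ≤ Real.log (bm D μ x (R + D x y)) :=
      Real.log_le_log hux (bm_le_bm h hμ' (by rw [h.self]; linarith))
    have b4 : Real.log (bm D μ y R) ≤ Real.log (bm D μ x (R + D x y)) :=
      Real.log_le_log huy (bm_le_bm h hμ' (by linarith))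
    have b5 := sqrt_tent_le h hμ' x y
    have b6 : √(bm D μ y (1 / 16 + D x y)) ≤ √(bm D μ y R) :=
      Real.sqrt_le_sqrt (bm_le_bm h hμ' (by rw [h.self]; linarith))
    have b7 := mul_le_mul_of_nonneg_left b6 (show 0 ≤ 16 * D x y by linarith)
    have b8 : tent D μ x ≤ bm D μ y R :=
      (tent_le_bm h hμ' x).trans (bm_le_bm h hμ' (by rw [h.symm y x]; linarith))
    have b9 := Lp.sqrt_move (c := 16 * D x y)
      (Δ := Real.log (bm D μ x (R + D x y)) - Real.log (bm D μ x (R - D x y)))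
      (tent_nonneg hμ' x) (tent_nonneg hμ' y) hux huy (by linarith) b8 (by linarith) (by linarith)
    linarith
  have h4 := Finset.sum_le_sum h3
  simp only [Finset.sum_add_distrib, Finset.sum_sub_distrib, ← Finset.mul_sum, Finset.sum_const,
    Finset.card_range, nsmul_eq_mul] at h4
  have h5 := div_le_div_of_nonneg_right h4 hm.le
  rw [Finset.sum_sub_distrib] at ht
  have e : ∀ A B : ℝ, (16 * ((m : ℝ) * D x y) + 3 / 2 * (A - B)) / m =
      16 * D x y + 3 / 2 * ((A - B) / m) := by
    intro A B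
    field_simp
  rw [e, add_div, sub_div, sub_div] at h5
  unfold psiR
  linarith

/-- At radius `R` the king status of `x` and `y` differs only if `R` separates `D x z` and `D y z`
for the unique king `z` with `D x z ≤ 1` (`card_rad_le`: fraction `≤ 8 d`); otherwise
`ldist ≤ jac ≤ 1 - bm x (R-d)/bm x (R+d) ≤ f (R+d) - f (R-d)` (`jac_le_of`), `sum_rad_telescope`. -/
lemma lavg_move (c : Ctx k D m η ν) {σ : KD Y} (hσ : KInv D σ) {x y : Y}
    (hxy : D x y ≤ 1 / 1024) :
    lavg D m σ x σ y ≤ D x y * (8 + 16 * Real.log (bm D σ.mu x 1 / bm D σ.mu x (3 / 32))) := by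
  classical
  have h := c.met
  by_cases hxy0 : x = y
  · subst hxy0
    rw [h.self, zero_mul]
    unfold lavg
    rw [Finset.sum_eq_zero fun i _ => ldist_eq_zero h hσ (by linarith [rad_ge m i]) rfl rfl]
    simp
  have hd := h.nonneg x y
  have hm : (0 : ℝ) < m := by exact_mod_cast c.mpos
  have ht := Lp.tele c hσ.pos x (c.grid x y hxy0) hxy
  obtain ⟨lo, hi, hlh, hwin⟩ := Lp.king_window h hσ hxy
  have hc := card_rad_le c.mpos (c.grid x y hxy0) hlh
  have h3 : ∀ i ∈ range m, ldist D (rad m i) σ x σ y ≤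
      (if lo ≤ rad m i ∧ rad m i < hi then 1 else 0) +
        (Real.log (bm D σ.mu x (rad m i + D x y)) - Real.log (bm D σ.mu x (rad m i - D x y))) := by
    intro i hi'
    have hR := rad_ge m i
    have hR' := rad_lt (Finset.mem_range.1 hi')
    have b1 := Lp.jac_move h hσ.pos x y (R := rad m i) (by linarith)
    have b2 : Real.log (bm D σ.mu x (rad m i - D x y)) ≤ Real.log (bm D σ.mu x (rad m i + D x y)) :=
      Real.log_le_log (bm_pos h hσ.pos x (by linarith))
        (bm_le_bm h (fun w => (hσ.pos w).le) (by rw [h.self]; linarith))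
    have b3 : (0 : ℝ) ≤ if lo ≤ rad m i ∧ rad m i < hi then 1 else 0 := by
      split_ifs <;> norm_num
    unfold ldist
    by_cases hk : kingOf D σ (rad m i) x = kingOf D σ (rad m i) y
    · rw [if_pos hk]
      by_cases hn : kingOf D σ (rad m i) x = none
      · rw [if_pos hn]; linarith
      · rw [if_neg hn]; linarith
    · rw [if_neg hk, if_pos (hwin _ hR'.le hk)]
      linarith
  have h4 := Finset.sum_le_sum h3
  rw [Finset.sum_add_distrib, Finset.sum_boole] at h4
  have h5 := div_le_div_of_nonneg_right h4 hm.le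
  rw [add_div] at h5
  have h6 : (((range m).filter fun i => lo ≤ rad m i ∧ rad m i < hi).card : ℝ) / m ≤ 8 * D x y := by
    rw [div_le_iff₀ hm]; exact hc
  unfold lavg
  linarith

/-- both points captured by the same king at every radius -/
lemma lavg_eq_zero (h : IsMet D) {σ : KD Y} (hσ : KInv D σ) {a : Option Y} (ha : a ∈ σ.alive)
    {x y : Y} (hx : D x (σ.cen a) ≤ 1 / 4) (hy : D y (σ.cen a) ≤ 1 / 4) :
    lavg D m σ x σ y = 0 := by
  unfold lavg
  rw [Finset.sum_eq_zero, zero_div]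
  intro i hi
  have hR := rad_ge m i
  have hR' := rad_lt (Finset.mem_range.1 hi)
  have e1 : kingOf D σ (rad m i) x = some a :=
    (kingOf_eq_some h hσ (by linarith)).2 ⟨ha, by linarith⟩
  have e2 : kingOf D σ (rad m i) y = some a :=
    (kingOf_eq_some h hσ (by linarith)).2 ⟨ha, by linarith⟩
  unfold ldist
  rw [e1, e2]
  simp

end Crest.Agent.R314
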