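import Crest.Agent.R314.LDom
import Crest.Agent.R314.LCount
import Crest.Agent.R314.LLip

/-!
# Part D: offline moves at a stationary state with valid kings
-/

set_option autoImplicit false

open Finset

namespace Crest.Agent.R314

universe u

variable {Y : Type u} [Fintype Y] [DecidableEq Y] {k m : ℕ} {D : Y → Y → ℝ} {η : ℝ} {ν : Y → ℝ}

namespace Mv

lemma log_four_le : Real.log 4 ≤ 3 / 2 := by
  have h : Real.log 4 = 2 * Real.log 2 := by
    rw [show (4 : ℝ) = 2 ^ 2 by norm_num, Real.log_pow]; norm_num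
  have := Real.log_two_lt_d9
  linarith

lemma log_div_le {a b c d t : ℝ} (ha : 0 < a) (hb : 0 < b) (hc : 0 < c) (hd : 0 < d) (ht : 0 < t)
    (h1 : a ≤ t * c) (h2 : d ≤ b) : Real.log (a / b) ≤ Real.log t + Real.log (c / d) := by
  rw [← Real.log_mul ht.ne' (div_pos hc hd).ne']
  apply Real.log_le_log (div_pos ha hb)
  rw [← mul_div_assoc]
  exact div_le_div₀ (by positivity) h1 hd h2

omit [DecidableEq Y] in
lemma bm_le (h : IsMet D) {μ μ' : Y → ℝ} (hμ' : ∀ w, 0 ≤ μ' w) {x : Y} {R R' : ℝ} (hR : R ≤ R')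
    (hle : ∀ w, D x w ≤ R → μ w ≤ μ' w) : bm D μ x R ≤ bm D μ' x R' := by
  have h1 : bm D μ x R ≤ bm D μ' x R :=
    Finset.sum_le_sum fun w hw => hle w (mem_bl.1 hw)
  exact h1.trans (bm_le_bm h hμ' (by rw [h.self]; linarith))

omit [DecidableEq Y] in
lemma nuR_pos (c : Ctx k D m η ν) (σ : KD Y) (y : Y) : 0 < nuR D η ν σ y :=
  lt_of_lt_of_le c.ηpos (eta_le_nuR c σ y)

omit [DecidableEq Y] in
lemma nuL_pos (c : Ctx k D m η ν) (σ : KD Y) (y : Y) : 0 < nuL D η ν σ y :=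
  lt_of_lt_of_le (nuR_pos c σ y) (nuR_le_nuL c σ y)

omit [DecidableEq Y] in
lemma bm_nuL_le (c : Ctx k D m η ν) (σ : KD Y) (x : Y) (R : ℝ) :
    bm D (nuL D η ν σ) x R ≤ bm D ν x R + 1 := by
  have h1 : bm D (nuL D η ν σ) x R ≤ bm D (fun y => ν y + η) x R :=
    bm_mono_mu (nuL_le c σ) x R
  have h2 : bm D (fun y => ν y + η) x R = bm D ν x R + bm D (fun _ => η) x R := by
    simp only [bm, Finset.sum_add_distrib]
  have h3 : bm D (fun _ => η) x R ≤ ∑ _y : Y, η := bm_le_sum (fun _ => c.ηpos.le) x R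
  have h4 : ∑ _y : Y, η = η * Fintype.card Y := by
    simp [mul_comm]
  have := c.ηcard
  linarith

omit [DecidableEq Y] in
lemma le_bm_nuR (c : Ctx k D m η ν) (σ : KD Y) {x : Y} (ht : 1 / 32 + 1 / 1024 ≤ tK D σ x) :
    bm D ν x (1 / 1024) ≤ bm D (nuR D η ν σ) x (1 / 32) := by
  refine bm_le c.met (fun w => (nuR_pos c σ w).le) (by norm_num) fun w hw => ?_
  have h1 := tK_lip c.met σ x w
  have h2 : cR (tK D σ w) = 1 := cl_of_one_le (by linarith)
  have := c.ηpos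
  simp only [nuR, h2]
  linarith

omit [DecidableEq Y] in
lemma le_bm_nuL (c : Ctx k D m η ν) (σ : KD Y) {x : Y} (ht : 1 / 64 - 1 / 1024 ≤ tK D σ x) :
    bm D ν x (1 / 1024) ≤ bm D (nuL D η ν σ) x (1 / 32) := by
  refine bm_le c.met (fun w => (nuL_pos c σ w).le) (by norm_num) fun w hw => ?_
  have h1 := tK_lip c.met σ x w
  have h2 : cL (tK D σ w) = 1 := cl_of_one_le (by linarith)
  have := c.ηpos
  simp only [nuL, h2]
  linarith

omit [DecidableEq Y] in
lemma bm_small_le (c : Ctx k D m η ν) (x : Y) : bm D ν x (1 / 1024) ≤ bm D ν x 2 :=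
  bm_le_bm c.met c.ν0 (by rw [c.met.self]; norm_num)

omit [Fintype Y] [DecidableEq Y] in
lemma abs_tK (h : IsMet D) (σ : KD Y) (x y : Y) : |tK D σ x - tK D σ y| ≤ D x y := by
  have h1 := tK_lip h σ x y
  have h2 := tK_lip h σ y x
  rw [h.symm y x] at h2
  rw [abs_le]; constructor <;> linarith

/-- product rule for a cut-off `c ∈ [0,1]` and a nonnegative function -/
lemma prod_move {c c' f f' A L B : ℝ} (h0 : 0 ≤ c') (h1 : c' ≤ 1) (hA : 0 ≤ A) (hf : f - f' ≤ A)
    (hc : c - c' ≤ L) (hL : 0 ≤ L) (hf0 : 0 ≤ f) (hB : f ≤ B) : c * f - c' * f' ≤ A + L * B := by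
  have e : c * f - c' * f' = c' * (f - f') + (c - c') * f := by ring
  have a1 : c' * (f - f') ≤ c' * A := mul_le_mul_of_nonneg_left hf h0
  have a2 : c' * A ≤ A := by nlinarith
  have a3 : (c - c') * f ≤ L * f := mul_le_mul_of_nonneg_right hc hf0
  have a4 : L * f ≤ L * B := mul_le_mul_of_nonneg_left hB hL
  linarith

omit [Fintype Y] [DecidableEq Y] in
lemma cL_move (h : IsMet D) (σ : KD Y) (x y : Y) :
    cL (tK D σ x) - cL (tK D σ y) ≤ 512 * D x y := by
  have h1 := cl_lip (512 * tK D σ x - 1) (512 * tK D σ y - 1)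
  have h2 : |512 * tK D σ x - 1 - (512 * tK D σ y - 1)| = 512 * |tK D σ x - tK D σ y| := by
    rw [show 512 * tK D σ x - 1 - (512 * tK D σ y - 1) = 512 * (tK D σ x - tK D σ y) by ring,
      abs_mul]
    norm_num
  have h3 := abs_tK h σ x y
  unfold cL
  linarith

omit [Fintype Y] [DecidableEq Y] in
lemma cR_move (h : IsMet D) (σ : KD Y) (x y : Y) :
    cR (tK D σ x) - cR (tK D σ y) ≤ 64 * D x y := by
  have h1 := cl_lip (64 * tK D σ x - 1) (64 * tK D σ y - 1)
  have h2 : |64 * tK D σ x - 1 - (64 * tK D σ y - 1)| = 64 * |tK D σ x - tK D σ y| := by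
    rw [show 64 * tK D σ x - 1 - (64 * tK D σ y - 1) = 64 * (tK D σ x - tK D σ y) by ring,
      abs_mul]
    norm_num
  have h3 := abs_tK h σ x y
  unfold cR
  linarith

lemma lavg_zero (h : IsMet D) {σ : KD Y} (hσ : KInv D σ) {x y : Y} (hxy : D x y ≤ 1 / 1024)
    (ht : tK D σ x ≤ 1 / 16) : lavg D m σ x σ y = 0 := by
  obtain ⟨a, ha, hta⟩ := exists_of_tK_lt (D := D) (σ := σ) (y := x) (by linarith)
  have h1 := h.tri y x (σ.cen a)
  rw [h.symm y x] at h1
  exact lavg_eq_zero h hσ ha (by linarith) (by linarith)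

end Mv

/-- `Λ := log (bm μ x 1 / bm μ x (3/32))`, `λ := log (bm ν x 2 / bm ν x (1/1024)) ≥ 0`.
If `tK x ≥ 1/32 + 1/1024` then `cR (tK w) = 1` on `bl x (1/1024)`, so
`bm nuR x (1/32) ≥ bm ν x (1/1024)`, `bm nuL x (3/2) ≤ bm ν x 2 + 1 ≤ 3 bm ν x 2`, `log_local_le`. -/
lemma log_ratio_far (c : Ctx k D m η ν) {σ : KD Y} (hσ : KInv D σ) {e : ℝ}
    (hS : Stat k D m η ν σ e) {x : Y} (hx : 1 / 2 ≤ bm D ν x (1 / 1024))
    (ht : 1 / 32 + 1 / 1024 ≤ tK D σ x) :
    Real.log (bm D σ.mu x 1 / bm D σ.mu x (3 / 32)) ≤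
      19 + 2 * Real.log (bm D ν x 2 / bm D ν x (1 / 1024)) := by
  have h1 := log_local_le c hσ hS x
  have hV := Mv.le_bm_nuR c σ ht
  have hH := Mv.bm_small_le c x
  have h2 := Mv.bm_nuL_le c σ x (3 / 2)
  have h3 : bm D ν x (3 / 2) ≤ bm D ν x 2 := bm_le_bm c.met c.ν0 (by rw [c.met.self]; norm_num)
  have h4 := Mv.log_div_le (a := bm D (nuL D η ν σ) x (3 / 2)) (b := bm D (nuR D η ν σ) x (1 / 32))
    (c := bm D ν x 2) (d := bm D ν x (1 / 1024)) (t := 4)
    (bm_pos c.met (Mv.nuL_pos c σ) x (by norm_num)) (by linarith) (by linarith) (by linarith)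
    (by norm_num) (by linarith) hV
  have := Mv.log_four_le
  linarith

/-- If `1/64 - 1/1024 ≤ tK x ≤ 1/16` (king `z`, valid): `cL (tK w) = 1` on `bl x (1/1024)`, so
`bm nuL x (1/32) ≥ bm ν x (1/1024)`; `wide nuL x ≤ 2 wide nuL z ≤ 2 (2^18 Wk z + 1) ≤ Core z + 2
≤ 5 bm ν x 2`. -/
lemma log_ratio_mid (c : Ctx k D m η ν) {σ : KD Y} (hσ : KInv D σ)
    (hok : ∀ a ∈ σ.alive, OK D ν (σ.cen a)) {x : Y} (hx : 1 / 2 ≤ bm D ν x (1 / 1024))
    (ht : 1 / 64 - 1 / 1024 ≤ tK D σ x) (ht' : tK D σ x ≤ 1 / 16) :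
    Real.log (wide D (nuL D η ν σ) x / bm D (nuL D η ν σ) x (1 / 32)) ≤
      2 + Real.log (bm D ν x 2 / bm D ν x (1 / 1024)) := by
  obtain ⟨a, ha, hta⟩ := exists_of_tK_lt (D := D) (σ := σ) (y := x) (by linarith)
  have hV := Mv.le_bm_nuL c σ ht
  have hH := Mv.bm_small_le c x
  have h0 : ∀ w, 0 ≤ nuL D η ν σ w := fun w => (Mv.nuL_pos c σ w).le
  have h1 := wide_le_mul c.met h0 (σ.cen a) x
  rw [c.met.symm (σ.cen a) x] at h1
  have h2 := wide_nuL_le_Wk c ha
  have h3 := (hok a ha).1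
  have h4 := Core_le_bm c (σ.cen a)
  have h5 : bm D ν (σ.cen a) (1 / 256) ≤ bm D ν x 2 := bm_le_bm c.met c.ν0 (by linarith)
  have h6 := wide_nonneg c.met h0 (σ.cen a)
  have h7 : (1 + D x (σ.cen a)) * wide D (nuL D η ν σ) (σ.cen a) ≤
      (17 / 16) * wide D (nuL D η ν σ) (σ.cen a) :=
    mul_le_mul_of_nonneg_right (by linarith) h6
  unfold eps1 at h3
  have h8 := Mv.log_div_le (a := wide D (nuL D η ν σ) x) (b := bm D (nuL D η ν σ) x (1 / 32))
    (c := bm D ν x 2) (d := bm D ν x (1 / 1024)) (t := 4)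
    (wide_pos c.met (Mv.nuL_pos c σ) x) (by linarith) (by linarith) (by linarith)
    (by norm_num) (by norm_num at h2 h3 ⊢; linarith) hV
  have := Mv.log_four_le
  linarith

/-- Short move, general case.  King part: `sum_qk_move`.  `cL psiL` part:
`cL y (psiL x - psiL y) + (cL x - cL y) psiL x ≤ 70 d + 1024 d`.  `cR psiR` part and `lavg`:
* `tK x ≤ 1/64 - 1/1024`: `cR = 0` at both points, `lavg = 0` (`lavg_eq_zero`);
* `tK x ≥ 1/32 + 1/1024`: `cR = 1` at both, `psiR_move`, `lavg_move`, `log_ratio_far`;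
* in between: `lavg = 0`; `cR y (psiR x - psiR y) + (cR x - cR y) psiR x` with `psiR_move`,
  `bm μ x 1 ≤ 2 wide μ x`, `log_wide_le`, `psiR_stat`, `log_ratio_mid`. -/
lemma move_general (c : Ctx k D m η ν) {σ : KD Y} (hσ : KInv D σ) {e : ℝ}
    (hS : Stat k D m η ν σ e) (hok : ∀ a ∈ σ.alive, OK D ν (σ.cen a)) {x : Y}
    (hx : 1 / 2 ≤ bm D ν x (1 / 1024)) {y : Y} (hxy : D x y ≤ 1 / 1024) :
    lavg D m σ x σ y + pot D m σ x - pot D m σ y ≤
      2 ^ 57 * D x y * (1 + Real.log (bm D ν x 2 / bm D ν x (1 / 1024))) := by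
  have hd := c.met.nonneg x y
  have hH := Mv.bm_small_le c x
  have hlam : 0 ≤ Real.log (bm D ν x 2 / bm D ν x (1 / 1024)) :=
    Real.log_nonneg ((one_le_div (by linarith)).2 hH)
  set lam := Real.log (bm D ν x 2 / bm D ν x (1 / 1024)) with hlamdef
  set d := D x y with hddef
  have hdl : 0 ≤ d * lam := mul_nonneg hd hlam
  have hK := sum_qk_move c hσ hok hxy
  rw [Finset.sum_sub_distrib] at hK
  have hL : cL (tK D σ x) * psiL D σ.mu x - cL (tK D σ y) * psiL D σ.mu y ≤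
      70 * d + 512 * d * 2 :=
    Mv.prod_move (cl_nonneg _) (cl_le_one _) (by linarith) (psiL_move c.met hσ.pos hxy)
      (Mv.cL_move c.met σ x y) (by linarith) (psiL_nonneg c.met hσ.pos x) (psiL_le_two _ _)
  have habs := abs_le.1 (Mv.abs_tK c.met σ x y)
  have hb : bm D σ.mu x (3 / 32) ≤ bm D σ.mu x 1 :=
    bm_le_bm c.met (fun w => (hσ.pos w).le) (by rw [c.met.self]; norm_num)
  have hb0 : 0 < bm D σ.mu x (3 / 32) := bm_pos c.met hσ.pos x (by norm_num)
  have hΛ0 : 0 ≤ Real.log (bm D σ.mu x 1 / bm D σ.mu x (3 / 32)) :=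
    Real.log_nonneg ((one_le_div hb0).2 hb)
  have hR := psiR_move c hσ.pos hxy
  have key : lavg D m σ x σ y + 2 * (cR (tK D σ x) * psiR D m σ.mu x -
      cR (tK D σ y) * psiR D m σ.mu y) ≤ 2 ^ 20 * d + 2 ^ 20 * (d * lam) := by
    rcases le_or_gt (tK D σ x) (1 / 64 - 1 / 1024) with h1 | h1
    · have e1 : cR (tK D σ x) = 0 := cl_of_nonpos (by linarith)
      have e2 : cR (tK D σ y) = 0 := cl_of_nonpos (by linarith [habs.1])
      rw [e1, e2, Mv.lavg_zero c.met hσ hxy (by linarith)]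
      nlinarith
    · rcases le_or_gt (1 / 32 + 1 / 1024) (tK D σ x) with h2 | h2
      · have e1 : cR (tK D σ x) = 1 := cl_of_one_le (by linarith)
        have e2 : cR (tK D σ y) = 1 := cl_of_one_le (by linarith [habs.2])
        have h3 := log_ratio_far c hσ hS hx h2
        have h4 := lavg_move c hσ hxy
        have h5 : d * Real.log (bm D σ.mu x 1 / bm D σ.mu x (3 / 32)) ≤ d * (19 + 2 * lam) :=
          mul_le_mul_of_nonneg_left h3 hd
        rw [e1, e2]
        nlinarith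
      · have h3 := log_ratio_mid c hσ hok hx h1.le (by linarith)
        have h4 := log_wide_le c hσ hS x
        have h5 := psiR_stat c hσ hS (x := x) (y := x) (by rw [c.met.self]; norm_num)
        have h6 : Real.log (bm D σ.mu x 1 / bm D σ.mu x (3 / 32)) ≤
            Real.log 4 + Real.log (wide D σ.mu x / bm D σ.mu x (3 / 32)) := by
          have hw := wide_pos c.met hσ.pos x
          have hbw := bm_le_wide c.met (fun w => (hσ.pos w).le) x (R := 1) (by norm_num)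
          exact Mv.log_div_le (by linarith) hb0 hw hb0 (by norm_num) (by linarith) le_rfl
        have h7 := Mv.log_four_le
        have h8 : d * Real.log (bm D σ.mu x 1 / bm D σ.mu x (3 / 32)) ≤ d * (21 + 2 * lam) :=
          mul_le_mul_of_nonneg_left (by linarith) hd
        have h9 : cR (tK D σ x) * psiR D m σ.mu x - cR (tK D σ y) * psiR D m σ.mu y ≤
            d * (17 + 24 * Real.log (bm D σ.mu x 1 / bm D σ.mu x (3 / 32))) +
              64 * d * (22 + 2 * lam) :=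
          Mv.prod_move (cl_nonneg _) (cl_le_one _) (mul_nonneg hd (by linarith)) hR
            (Mv.cR_move c.met σ x y) (by linarith) (psiR_nonneg c.met c.mpos hσ.pos x)
            (by linarith)
        rw [Mv.lavg_zero c.met hσ hxy (by linarith)]
        nlinarith
  unfold pot KK
  have e : (2 : ℝ) ^ 57 * d * (1 + lam) = 2 ^ 57 * d + 2 ^ 57 * (d * lam) := by ring
  rw [e]
  norm_num at hK key hL ⊢
  linarith

omit [DecidableEq Y] in
/-- arbitrary move: `psiR, psiL ≥ 0` at `y`, `psiL x ≤ 2`, `sum_wk_le`, `sum_core_le_one` -/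
lemma move_any (c : Ctx k D m η ν) {σ : KD Y} (hσ : KInv D σ)
    (hok : ∀ a ∈ σ.alive, OK D ν (σ.cen a)) (x y : Y) :
    pot D m σ x - pot D m σ y ≤
      2 * (cR (tK D σ x) * psiR D m σ.mu x) + 4 + KK * (3 + Real.log (17 * k)) := by
  have h1 := sum_wk_le c hσ hok x
  have h2 := sum_core_le_one c.met hσ y
  have h3 : ∑ a ∈ σ.alive, qk (D x (σ.cen a)) ≤ ∑ a ∈ σ.alive, wk (D x (σ.cen a)) :=
    Finset.sum_le_sum fun a _ => by
      have : 0 ≤ eps1 * core (D x (σ.cen a)) := mul_nonneg (by unfold eps1; norm_num) (cl_nonneg _)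
      unfold qk; linarith
  have h4 : -(∑ a ∈ σ.alive, core (D y (σ.cen a))) ≤ ∑ a ∈ σ.alive, qk (D y (σ.cen a)) := by
    rw [← Finset.sum_neg_distrib]
    refine Finset.sum_le_sum fun a _ => ?_
    have a1 := wk_nonneg (c.met.nonneg y (σ.cen a))
    have a2 : 0 ≤ core (D y (σ.cen a)) := cl_nonneg _
    unfold qk eps1
    norm_num
    linarith
  have h5 : 0 ≤ cR (tK D σ y) * psiR D m σ.mu y :=
    mul_nonneg (cl_nonneg _) (psiR_nonneg c.met c.mpos hσ.pos y)
  have h6 : 0 ≤ cL (tK D σ y) * psiL D σ.mu y :=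
    mul_nonneg (cl_nonneg _) (psiL_nonneg c.met hσ.pos y)
  have h7 : cL (tK D σ x) * psiL D σ.mu x ≤ 1 * 2 :=
    mul_le_mul (cl_le_one _) (psiL_le_two _ _) (psiL_nonneg c.met hσ.pos x) (by norm_num)
  have hKK : (0 : ℝ) ≤ KK := by unfold KK; norm_num
  have h8 : KK * (∑ a ∈ σ.alive, qk (D x (σ.cen a)) - ∑ a ∈ σ.alive, qk (D y (σ.cen a))) ≤
      KK * (3 + Real.log (17 * k)) := mul_le_mul_of_nonneg_left (by linarith) hKK
  unfold pot
  linarith

/-- if `cR (tK x) > 0` then `tK x > 1/64`, `cL = 1` on `bl x (1/1024)`, `bm nuL x (1/32) ≥ 1/2`,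
`wide nuL x ≤ k+1`, `psiR_stat` -/
lemma cR_psiR_near (c : Ctx k D m η ν) {σ : KD Y} (hσ : KInv D σ) {e : ℝ}
    (hS : Stat k D m η ν σ e) {x : Y} (hx : 1 / 2 ≤ bm D ν x (1 / 1024)) :
    cR (tK D σ x) * psiR D m σ.mu x ≤ 20 + 2 * Real.log (k + 1) := by
  have hk0 : (0 : ℝ) ≤ k := Nat.cast_nonneg k
  have hlog : 0 ≤ Real.log ((k : ℝ) + 1) := Real.log_nonneg (by linarith)
  rcases le_or_gt (tK D σ x) (1 / 64) with h1 | h1
  · have e1 : cR (tK D σ x) = 0 := cl_of_nonpos (by linarith)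
    rw [e1]; linarith
  · have hV := Mv.le_bm_nuL c σ (x := x) (by linarith)
    have h5 := psiR_stat c hσ hS (x := x) (y := x) (by rw [c.met.self]; norm_num)
    have h2 := wide_le_sum c.met (fun w => (Mv.nuL_pos c σ w).le) x
    have h3 := sum_nuL_le c σ
    have h4 : Real.log (wide D (nuL D η ν σ) x / bm D (nuL D η ν σ) x (1 / 32)) ≤
        Real.log 2 + Real.log ((k : ℝ) + 1) := by
      rw [← Real.log_mul (by norm_num) (by linarith)]
      apply Real.log_le_log (div_pos (wide_pos c.met (Mv.nuL_pos c σ) x) (by linarith))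
      rw [div_le_iff₀ (by linarith)]
      nlinarith
    have h6 := Real.log_two_lt_d9
    have h7 : cR (tK D σ x) * psiR D m σ.mu x ≤ 1 * psiR D m σ.mu x :=
      mul_le_mul_of_nonneg_right (cl_le_one _) (psiR_nonneg c.met c.mpos hσ.pos x)
    linarith

/-- paid insertion of `α = wide μ x/(k+1)` at `x`: cost `≤ 52 wide nuL x/(k+1) ≤ 52`
(`insert_paid`, `dom_wide`); afterwards `psiR x ≤ 1 + log (4 (k+1))` (`psiR_le`) -/
lemma insert_far (c : Ctx k D m η ν) {σ : KD Y} (hσ : KInv D σ) {e : ℝ}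
    (hS : Stat k D m η ν σ e) (x : Y) :
    ∃ α : ℝ, 0 ≤ α ∧
      rel D m ν σ (addMu σ x α) + Pot D m η ν (addMu σ x α) ≤ Pot D m η ν σ + 52 ∧
      psiR D m (addMu σ x α).mu x ≤ 3 + Real.log (k + 1) := by
  have hk0 : (0 : ℝ) ≤ k := Nat.cast_nonneg k
  have hw := wide_pos c.met hσ.pos x
  have hα : 0 < wide D σ.mu x / (k + 1) := div_pos hw (by linarith)
  refine ⟨wide D σ.mu x / (k + 1), hα.le, ?_, ?_⟩
  · have h1 := insert_paid c hσ x hα.le
    have h2 := dom_wide c hσ hS x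
    have h3 := wide_le_sum c.met (fun w => (Mv.nuL_pos c σ w).le) x
    have h4 := sum_nuL_le c σ
    have h5 : 4 * (wide D σ.mu x / (k + 1)) * dom D η ν σ x ≤ 52 := by
      rw [show 4 * (wide D σ.mu x / (k + 1)) * dom D η ν σ x =
        4 * (wide D σ.mu x * dom D η ν σ x) / (k + 1) by ring, div_le_iff₀ (by linarith)]
      linarith
    linarith
  · have hσ' := hσ.addMu x hα.le
    have h1 : wide D σ.mu x / (k + 1) ≤
        bm D (addMu σ x (wide D σ.mu x / (k + 1))).mu x (1 / 4) := by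
      rw [bm_addMu, if_pos (by rw [c.met.self]; norm_num)]
      have := bm_nonneg (D := D) (fun w => (hσ.pos w).le) x (1 / 4)
      linarith
    have h2 := psiR_le c.met c.mpos hσ'.pos x hα h1
    rw [wide_addMu c.met, c.met.self] at h2
    have h3 : 2 * (wide D σ.mu x + wide D σ.mu x / (k + 1) / (1 + 0)) / (wide D σ.mu x / (k + 1)) =
        2 * ((k : ℝ) + 2) := by
      field_simp
      ring
    rw [h3] at h2
    have h4 : Real.log (2 * ((k : ℝ) + 2)) ≤ Real.log 4 + Real.log ((k : ℝ) + 1) := by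
      rw [← Real.log_mul (by norm_num) (by linarith)]
      exact Real.log_le_log (by linarith) (by linarith)
    have := Mv.log_four_le
    linarith

end Crest.Agent.R314
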