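import Crest.Agent.R314.LJac
import Crest.Agent.R314.LCount

/-!
# Part D: heavy points, creation of a king, short moves at a heavy point
-/

set_option autoImplicit false

open Finset

namespace Crest.Agent.R314

universe u

variable {Y : Type u} [Fintype Y] [DecidableEq Y] {k m : ℕ} {D : Y → Y → ℝ} {η : ℝ} {ν : Y → ℝ}

omit [DecidableEq Y] in
/-- `bm_le_wide` -/
lemma wide_ge_of_near (c : Ctx k D m η ν) {x : Y} (hx : 1 / 2 ≤ bm D ν x (1 / 1024)) :
    49 / 100 ≤ wide D ν x := by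
  linarith [bm_le_wide c.met c.ν0 x (R := 1 / 1024) (by norm_num)]

omit [DecidableEq Y] in
/-- `wide_le_bm_add` with `R = 1/2048` -/
lemma heavy_ball (c : Ctx k D m η ν) {x : Y} (hx : Heavy D ν x) :
    99 / 100 * wide D ν x ≤ bm D ν x (1 / 2048) := by
  linarith [wide_le_bm_add c.met c.ν0 x (R := 1 / 2048) (by norm_num), hx.2,
    wide_ge_of_near c hx.1]

omit [DecidableEq Y] in
lemma lheavy_bm (μ : Y → ℝ) (x : Y) (R : ℝ) :
    bm D μ x R = ∑ y, μ y * if D x y ≤ R then 1 else 0 := by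
  simp only [bm, bl, sum_filter, mul_ite, mul_one, mul_zero]

omit [DecidableEq Y] in
lemma lheavy_Wk (c : Ctx k D m η ν) (x : Y) : Wk D ν x ≤ 4 * ring D ν x := by
  rw [Wk, ring, mul_sum]
  refine sum_le_sum fun y _ => ?_
  rw [mul_left_comm, c.met.symm y x]
  exact mul_le_mul_of_nonneg_left (wk_le_omega (c.met.nonneg x y)) (c.ν0 y)

omit [DecidableEq Y] in
lemma lheavy_Core (c : Ctx k D m η ν) {x : Y} (hx : Heavy D ν x) :
    99 / 100 * wide D ν x ≤ Core D ν x :=
  (heavy_ball c hx).trans ((bm_le_bm c.met c.ν0 (by rw [c.met.self]; norm_num)).trans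
    (bm_le_Core c x))

omit [DecidableEq Y] in
/-- lower bound of `Wk z` from the mass next to `x` -/
lemma lheavy_Wk_ge (c : Ctx k D m η ν) {x z : Y} {a b : ℝ} (ha : 0 ≤ a) (hb : 0 < b)
    (h1 : a + 1 / 2048 ≤ D x z) (h2 : D x z + 1 / 2048 ≤ b) :
    min (a ^ 2) (1 / b) * bm D ν x (1 / 2048) ≤ Wk D ν z := by
  rw [lheavy_bm, Wk, mul_sum]
  refine sum_le_sum fun y _ => ?_
  rw [mul_left_comm]
  refine mul_le_mul_of_nonneg_left ?_ (c.ν0 y)
  split_ifs with h
  · rw [mul_one]
    exact wk_ge ha (by linarith [c.met.tri x y z]) (by linarith [c.met.tri y x z, c.met.symm x y]) hb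
  · rw [mul_zero]
    exact wk_nonneg (c.met.nonneg y z)

omit [DecidableEq Y] in
/-- `Wk x ≤ 4 ring` (`wk_le_omega`), `Core x ≥ bm ν x (1/512) ≥ 0.99 wide` -/
lemma heavy_ok (c : Ctx k D m η ν) {x : Y} (hx : Heavy D ν x) : OK D ν x := by
  have h := lheavy_Core c hx
  have h1 := wide_ge_of_near c hx.1
  exact ⟨by rw [eps1]; linarith [lheavy_Wk c x, hx.2], by linarith⟩

omit [DecidableEq Y] in
/-- If `1/1024 < D x z < 5`: with `M = bm ν x (1/2048) > 0`, `Wk z ≥ 2^{-22} M` (`wk_ge`), while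
`Core z ≤ bm ν z (1/256) ≤ bm ν x 6 ≤ M + 2100 ring ≤ 1.01 M` (`t/(1+t)² ≥ 1/2100` on
`[1/2048, 6]`); contradiction with `Wk z ≤ 2^{-24} Core z`. -/
lemma heavy_far (c : Ctx k D m η ν) {x : Y} (hx : Heavy D ν x) {z : Y} (hz : OK D ν z) :
    D x z ≤ 1 / 1024 ∨ 5 ≤ D x z := by
  by_contra h
  push Not at h
  have h1 := lheavy_Wk_ge c (x := x) (z := z) (a := 1 / 2048) (b := 6) (by norm_num) (by norm_num)
    (by linarith) (by linarith)
  rw [min_eq_left (by norm_num)] at h1
  have h2 : Core D ν z ≤ bm D ν x (1 / 2048) + 2100 * ring D ν x := by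
    rw [lheavy_bm, Core, ring, mul_sum, ← sum_add_distrib]
    refine sum_le_sum fun y _ => ?_
    rw [mul_left_comm, ← mul_add, core]
    refine mul_le_mul_of_nonneg_left ?_ (c.ν0 y)
    have ht := c.met.nonneg x y
    have h0 : 0 ≤ D x y / (1 + D x y) ^ 2 := by positivity
    have h3 := cl_le_one (2 - 512 * D y z)
    split_ifs with h4
    · linarith
    rcases le_total (D y z) (1 / 256) with h5 | h5
    · have h6 : 1 / 2100 ≤ D x y / (1 + D x y) ^ 2 := by
        have : D x y ≤ 6 := by linarith [c.met.tri x z y, c.met.symm z y]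
        rw [le_div_iff₀ (by positivity)]
        nlinarith [not_le.1 h4]
      linarith
    · rw [cl_of_nonpos (by linarith)]
      linarith
  have h3 := hz.1
  rw [eps1] at h3
  linarith [heavy_ball c hx, hx.2, wide_ge_of_near c hx.1]

/-- New king `b` at `x`.  `tK` decreases, so `Psi` decreases (`psiR, psiL ≥ 0`, `cL, cR` monotone);
`rel ≤ bm ν x (1/2) ≤ (3/2) wide` (`rel_le_bm`); `KK PK x ≤ -2^27 wide`
(`Wk ≤ 4 ring ≤ eps1 wide/16`, `Core ≥ 0.99 wide`, `1/8 ≤ 0.26 wide`). -/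
lemma create_king (c : Ctx k D m η ν) {σ : KD Y} (hσ : KInv D σ) {x : Y} (hx : Heavy D ν x)
    {b : Option Y} (hb : b ∉ σ.alive) (hfar : ∀ a ∈ σ.alive, 5 ≤ D x (σ.cen a)) :
    KInv D ⟨insert b σ.alive, Function.update σ.cen b x, σ.mu⟩ ∧
      rel D m ν σ ⟨insert b σ.alive, Function.update σ.cen b x, σ.mu⟩ +
        Pot D m η ν ⟨insert b σ.alive, Function.update σ.cen b x, σ.mu⟩ ≤ Pot D m η ν σ := by
  have hu : ∀ a ∈ σ.alive, Function.update σ.cen b x a = σ.cen a := fun a ha =>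
    Function.update_of_ne (ne_of_mem_of_not_mem ha hb) _ _
  have hσ' : KInv D ⟨insert b σ.alive, Function.update σ.cen b x, σ.mu⟩ := by
    refine ⟨hσ.pos, fun a ha a' ha' hne => ?_⟩
    dsimp only
    rcases mem_insert.1 ha with e | h <;> rcases mem_insert.1 ha' with e' | h'
    · exact absurd (e.trans e'.symm) hne
    · rw [e, Function.update_self, hu _ h']
      linarith [hfar _ h']
    · rw [e', Function.update_self, hu _ h, c.met.symm]
      linarith [hfar _ h]
    · rw [hu _ h, hu _ h']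
      exact hσ.sep _ h _ h' hne
  refine ⟨hσ', ?_⟩
  have h1 := rel_le_bm c hσ hσ' rfl x (1 / 2) fun y hy i hi => Option.ext fun a => by
    have hr := rad_lt hi
    rw [kingOf_eq_some c.met hσ (by linarith), kingOf_eq_some c.met hσ' (by linarith)]
    refine ⟨fun h => ⟨mem_insert_of_mem h.1, (congrArg (D y) (hu a h.1)).trans_le h.2⟩, fun ⟨h, h'⟩ => ?_⟩
    dsimp only at h h'
    rcases mem_insert.1 h with rfl | h
    · rw [Function.update_self, c.met.symm] at h'
      linarith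
    · exact ⟨h, hu a h ▸ h'⟩
  have h2 : Psi D m η ν ⟨insert b σ.alive, Function.update σ.cen b x, σ.mu⟩ ≤ Psi D m η ν σ := by
    refine sum_le_sum fun y _ => ?_
    have h : tK D ⟨insert b σ.alive, Function.update σ.cen b x, σ.mu⟩ y ≤ tK D σ y :=
      le_tK (tK_le_one _ y) fun a ha => hu a ha ▸ tK_le (D := D)
        (σ := ⟨insert b σ.alive, Function.update σ.cen b x, σ.mu⟩) (mem_insert_of_mem ha) y
    exact add_le_add
      (mul_le_mul_of_nonneg_right (add_le_add_left (mul_le_mul_of_nonneg_right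
        (cl_mono (by linarith)) (c.ν0 y)) _) (psiR_nonneg c.met c.mpos hσ.pos y))
      (mul_le_mul_of_nonneg_right (add_le_add_left (mul_le_mul_of_nonneg_right
        (cl_mono (by linarith)) (c.ν0 y)) _) (psiL_nonneg c.met hσ.pos y))
  rw [Pot, Pot, KK]
  dsimp only
  rw [sum_insert hb, Function.update_self, sum_congr rfl fun a ha => by rw [hu a ha], PK, eps1]
  linarith [bm_le_wide c.met c.ν0 x (R := 1 / 2) (by norm_num), lheavy_Wk c x, hx.2,
    lheavy_Core c hx, wide_ge_of_near c hx.1]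

omit [DecidableEq Y] in
/-- For a king `z` with `t = D x z ≥ 3`: `Wk z ≥ M/(2t)`, `M = bm ν x (1/2048)`, so
`1/t ≤ 4 eps1 Core z / M`; and `∑_z Core z / t_z ≤ 8 ring` since `core (D y z) > 0` forces
`ω (D x y) ≥ 1/(8 t)` and `∑_z core (D y z) ≤ 1`. -/
lemma heavy_sum_inv_sq (c : Ctx k D m η ν) {σ : KD Y} (hσ : KInv D σ)
    (hok : ∀ a ∈ σ.alive, OK D ν (σ.cen a)) {x : Y} (hx : Heavy D ν x) :
    ∑ a ∈ σ.alive.filter (fun a => 3 ≤ D x (σ.cen a)), 1 / D x (σ.cen a) ^ 2 ≤
      ring D ν x / wide D ν x := by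
  set F := σ.alive.filter (fun a => 3 ≤ D x (σ.cen a))
  have h1 : ∑ a ∈ F, 1 / D x (σ.cen a) ^ 2 * bm D ν x (1 / 2048) ≤
      ∑ a ∈ F, ∑ y, ν y * (D x y / (1 + D x y) ^ 2) * (1 / 2 * core (D y (σ.cen a))) := by
    refine sum_le_sum fun a ha => ?_
    obtain ⟨ha, ht⟩ := mem_filter.1 ha
    have h2 := (hok a ha).1
    generalize σ.cen a = z at ht h2 ⊢
    have h0 : 0 < D x z := by linarith
    have h3 := lheavy_Wk_ge c (x := x) (z := z) (a := 1) (b := 2 * D x z) zero_le_one
      (by linarith) (by linarith) (by linarith)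
    rw [min_eq_right (by rw [div_le_iff₀ (by linarith)]; linarith), ← one_div_mul_one_div] at h3
    have h4 : 1 / D x z * Core D ν z ≤
        8 * ∑ y, ν y * (D x y / (1 + D x y) ^ 2) * (1 / 2 * core (D y z)) := by
      rw [Core, mul_sum, mul_sum]
      refine sum_le_sum fun y _ => ?_
      have h5 := mul_nonneg (c.ν0 y) (cl_nonneg (2 - 512 * D y z))
      rw [core]
      rcases le_total (D y z) (1 / 256) with h6 | h6
      · have h7 : 1 / D x z ≤ 4 * (D x y / (1 + D x y) ^ 2) := by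
          have k1 := c.met.tri x y z
          have k2 := c.met.tri x z y
          rw [c.met.symm z y] at k2
          rw [← mul_div_assoc, div_le_div_iff₀ h0 (pow_pos (by linarith) 2), one_mul, sq]
          linarith [mul_le_mul (show 1 + D x y ≤ 2 * D x y by linarith)
            (show 1 + D x y ≤ 2 * D x z by linarith) (by linarith) (by linarith)]
        linarith [mul_le_mul_of_nonneg_right h7 h5]
      · simp only [cl_of_nonpos (show 2 - 512 * D y z ≤ 0 by linarith), mul_zero, le_refl]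
    have h5 := mul_le_mul_of_nonneg_left (h3.trans h2) (one_div_pos.2 h0).le
    have h6 : 0 ≤ 1 / D x z * Core D ν z := mul_nonneg (one_div_pos.2 h0).le
      (sum_nonneg fun y _ => mul_nonneg (c.ν0 y) (cl_nonneg _))
    rw [eps1] at h5
    rw [← one_div_pow, sq]
    linarith
  have h2 : ∑ a ∈ F, ∑ y, ν y * (D x y / (1 + D x y) ^ 2) * (1 / 2 * core (D y (σ.cen a))) ≤
      ring D ν x * (1 / 2) := by
    rw [sum_comm, ring, sum_mul]
    refine sum_le_sum fun y _ => ?_
    rw [← mul_sum, ← mul_sum]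
    have := c.met.nonneg x y
    refine mul_le_mul_of_nonneg_left (mul_le_of_le_one_right (by norm_num) ?_)
      (mul_nonneg (c.ν0 y) (by positivity))
    exact (sum_le_sum_of_subset_of_nonneg (filter_subset _ _) fun _ _ _ => cl_nonneg _).trans
      (sum_core_le_one c.met hσ y)
  have h3 := wide_ge_of_near c hx.1
  rw [← sum_mul] at h1
  rw [le_div_iff₀ (by linarith)]
  linarith [mul_le_mul_of_nonneg_left (heavy_ball c hx)
    (sum_nonneg (s := F) fun a _ => one_div_nonneg.2 (sq_nonneg (D x (σ.cen a)))),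
    ring_nonneg c.met c.ν0 x]

/-- `x`, `y` are within `1/512` of the king `a`: both are captured at every radius, `cL = cR = 0`,
`core = 1` at both, `t_x² - t_y² ≤ 2 t_x d`; the other kings are at distance `≥ 3` from `x`
(cores vanish, `1/t - 1/t' ≤ 2d/t²`, `heavy_sum_inv_sq`). -/
lemma move_heavy (c : Ctx k D m η ν) {σ : KD Y} (hσ : KInv D σ)
    (hok : ∀ a ∈ σ.alive, OK D ν (σ.cen a)) {x : Y} (hx : Heavy D ν x) {a : Option Y}
    (ha : a ∈ σ.alive) (hxa : D x (σ.cen a) ≤ 1 / 1024) {y : Y} (hxy : D x y ≤ 1 / 1024) :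
    lavg D m σ x σ y + pot D m σ x - pot D m σ y ≤
      2 * KK * D x y * (D x (σ.cen a) + ring D ν x / wide D ν x) := by
  have hd := c.met.nonneg x y
  have hl : ∀ z, D y z ≤ D x z + D x y ∧ D x z ≤ D y z + D x y := fun z =>
    ⟨by linarith [c.met.tri y x z, c.met.symm x y], by linarith [c.met.tri x y z]⟩
  have hya : D y (σ.cen a) ≤ 1 / 512 := by linarith [(hl (σ.cen a)).1]
  have h1 : lavg D m σ x σ y = 0 := by
    rw [lavg, sum_eq_zero, zero_div]
    intro i hi
    have hr : rad m i ≤ 1 := by linarith [rad_lt (mem_range.1 hi)]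
    rw [ldist, (kingOf_eq_some c.met hσ hr).2 ⟨ha, by linarith [rad_ge m i]⟩,
      (kingOf_eq_some c.met hσ hr).2 ⟨ha, by linarith [rad_ge m i]⟩, if_pos rfl,
      if_neg (Option.some_ne_none a)]
  have h2 : ∀ w, D w (σ.cen a) ≤ 1 / 512 →
      pot D m σ w = KK * ∑ b ∈ σ.alive, qk (D w (σ.cen b)) := fun w hw => by
    have := tK_le (D := D) ha w
    rw [pot, cR, cL, cl_of_nonpos (by linarith), cl_of_nonpos (by linarith)]
    ring
  have h3 : qk (D x (σ.cen a)) - qk (D y (σ.cen a)) ≤ 2 * (D x y * D x (σ.cen a)) := by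
    have k1 := c.met.nonneg x (σ.cen a)
    have k2 := c.met.nonneg y (σ.cen a)
    rw [qk, qk, wk, wk, core, core, if_pos (by linarith), if_pos (by linarith),
      cl_of_one_le (by linarith), cl_of_one_le (by linarith)]
    rcases le_total (D x (σ.cen a)) (D y (σ.cen a)) with h | h
    · linarith [pow_le_pow_left₀ k1 h 2, mul_nonneg hd k1]
    · linarith [mul_le_mul (sub_le_iff_le_add'.2 (hl (σ.cen a)).2)
        (show D x (σ.cen a) + D y (σ.cen a) ≤ 2 * D x (σ.cen a) by linarith) (by positivity) hd]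
  have h4 : ∀ b ∈ σ.alive.erase a, 3 ≤ D x (σ.cen b) := fun b hb => by
    linarith [hσ.sep a ha b (mem_of_mem_erase hb) (ne_of_mem_erase hb).symm,
      c.met.tri (σ.cen a) x (σ.cen b), c.met.symm x (σ.cen a)]
  have h5 : ∑ b ∈ σ.alive.erase a, (qk (D x (σ.cen b)) - qk (D y (σ.cen b))) ≤
      2 * D x y * ∑ b ∈ σ.alive.erase a, 1 / D x (σ.cen b) ^ 2 := by
    rw [mul_sum]
    refine sum_le_sum fun b hb => ?_
    have k1 := h4 b hb
    obtain ⟨k2, k3⟩ := hl (σ.cen b)
    generalize D x (σ.cen b) = t at k1 k2 k3 ⊢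
    generalize D y (σ.cen b) = t' at k2 k3 ⊢
    have k4 : 0 < t := by linarith
    have k5 : 0 < t' := by linarith
    rw [qk, qk, wk, wk, core, core, if_neg (by linarith), if_neg (by linarith),
      cl_of_nonpos (by linarith), cl_of_nonpos (by linarith), mul_zero, sub_zero, sub_zero,
      div_sub_div _ _ k4.ne' k5.ne', mul_one_div, div_le_div_iff₀ (by positivity) (by positivity)]
    linarith [mul_le_mul (show 1 * t' - t * 1 ≤ D x y by linarith)
      (mul_le_mul_of_nonneg_left (show t ≤ 2 * t' by linarith) k4.le) (by positivity) hd]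
  have h6 := (sum_le_sum_of_subset_of_nonneg
    (fun b hb => mem_filter.2 ⟨mem_of_mem_erase hb, h4 b hb⟩)
    fun b _ _ => one_div_nonneg.2 (sq_nonneg (D x (σ.cen b)))).trans (heavy_sum_inv_sq c hσ hok hx)
  rw [h1, h2 x (by linarith), h2 y hya, zero_add, ← mul_sub, ← sum_sub_distrib,
    ← add_sum_erase _ _ ha, KK]
  linarith [mul_le_mul_of_nonneg_left h6 hd]

end Crest.Agent.R314
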