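import Crest.Agent.R314.LDom
import Crest.Agent.R314.LHeavy

/-!
# Part D: re-centring a king at a nearby point

Throughout `z = σ.cen a`, `s = D x z ∈ (0, 1/1024]`, `ω t = t/(1+t)²`, `σ'` = `σ` with `a` moved to `x`.
-/

set_option autoImplicit false

open Finset

namespace Crest.Agent.R314

universe u

variable {Y : Type u} [Fintype Y] [DecidableEq Y] {k m : ℕ} {D : Y → Y → ℝ} {η : ℝ} {ν : Y → ℝ}

/-- if `|t - t'| ≤ s ≤ 1/1024` then `wk t - wk t' ≤ 10 s ω t` (cases `t, t' ≤ 1` or `> 1`) -/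
lemma wk_sub_le {t t' s : ℝ} (ht : 0 ≤ t) (ht' : 0 ≤ t') (hs : |t - t'| ≤ s) (hs' : s ≤ 1 / 1024) :
    wk t - wk t' ≤ 10 * s * (t / (1 + t) ^ 2) := by
  obtain ⟨h1, h2⟩ := abs_le.1 hs
  have hs0 : 0 ≤ s := (abs_nonneg _).trans hs
  rcases le_total t (1 / 2) with h | h
  · have h3 : t / 4 ≤ t / (1 + t) ^ 2 := div_le_div_of_nonneg_left ht (by positivity) (by nlinarith)
    rw [wk, wk, if_pos (by linarith), if_pos (by linarith)]
    have h4 : t ^ 2 - t' ^ 2 ≤ 2 * (s * t) := by
      rcases le_total t t' with h5 | h5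
      · nlinarith [mul_nonneg hs0 ht]
      · nlinarith [mul_le_mul h2 (show t + t' ≤ 2 * t by linarith) (by positivity) hs0]
    linarith [mul_le_mul_of_nonneg_left h3 hs0, mul_nonneg hs0 ht]
  rcases le_total t 2 with h' | h'
  · have h3 : 1 / 5 ≤ t / (1 + t) ^ 2 := by
      rw [le_div_iff₀ (by positivity)]; nlinarith
    linarith [mul_le_mul_of_nonneg_left h3 hs0, wk_lip ht ht']
  · have h0 : 0 < t' := by linarith
    rw [wk, wk, if_neg (by linarith), if_neg (by linarith), div_sub_div _ _ (by positivity) h0.ne',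
      ← mul_div_assoc, div_le_div_iff₀ (by positivity) (by positivity)]
    have h3 : (1 + t) ^ 2 ≤ 10 * t * (t * t') := by
      nlinarith [mul_le_mul_of_nonneg_left (show 1 ≤ t' by linarith) (sq_nonneg t)]
    linarith [mul_le_mul (show 1 * t' - t * 1 ≤ s by linarith) h3 (by positivity) hs0]

lemma lshift_om {t : ℝ} (h : 1 / 512 ≤ t) (h' : t ≤ 1) : 1 / 530 ≤ t / (1 + t) ^ 2 := by
  rw [le_div_iff₀ (by positivity)]; nlinarith

lemma lshift_qk {t t' s : ℝ} (ht : 0 ≤ t) (ht' : 0 ≤ t') (hs : |t - t'| ≤ s) (hs' : s ≤ 1 / 1024)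
    (h : s ≤ t + t') : wk t - wk t' - eps1 * (core t - core t') ≤
      -(s ^ 2 / 2) * (if t ≤ s / 4 then 1 else 0) + 11 * s * (t / (1 + t) ^ 2) := by
  obtain ⟨h1, h2⟩ := abs_le.1 hs
  have hs0 : 0 ≤ s := (abs_nonneg _).trans hs
  have h0 : 0 ≤ s * (t / (1 + t) ^ 2) := by positivity
  split_ifs with h3
  · rw [wk, wk, core, core, if_pos (by linarith), if_pos (by linarith), cl_of_one_le (by linarith),
      cl_of_one_le (by linarith)]
    linarith [pow_le_pow_left₀ ht h3 2,
      pow_le_pow_left₀ (by positivity) (show 3 * s / 4 ≤ t' by linarith) 2]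
  have h4 : eps1 * (core t' - core t) ≤ s * (t / (1 + t) ^ 2) := by
    rw [eps1, core, core]
    rcases le_total t (1 / 512) with h5 | h5
    · rw [cl_of_one_le (t := 2 - 512 * t) (by linarith)]
      linarith [cl_le_one (2 - 512 * t')]
    rcases le_total t (1 / 128) with h6 | h6
    · have h7 := cl_lip (2 - 512 * t') (2 - 512 * t)
      have h8 : |2 - 512 * t' - (2 - 512 * t)| ≤ 512 * s := abs_le.2 ⟨by linarith, by linarith⟩
      linarith [mul_le_mul_of_nonneg_left (lshift_om h5 (by linarith)) hs0]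
    · rw [cl_of_nonpos (t := 2 - 512 * t') (by linarith)]
      linarith [cl_nonneg (2 - 512 * t)]
  linarith [wk_sub_le ht ht' hs hs']

omit [Fintype Y] [DecidableEq Y] in
lemma lshift_abs (h : IsMet D) (x y z : Y) : |D x y - D y z| ≤ D x z :=
  abs_le.2 ⟨by linarith [h.tri y x z, h.symm x y], by linarith [h.tri x z y, h.symm z y]⟩

omit [DecidableEq Y] in
lemma lshift_bm (μ : Y → ℝ) (x : Y) (R : ℝ) :
    bm D μ x R = ∑ y, μ y * if D x y ≤ R then 1 else 0 := by
  simp only [bm, bl, sum_filter, mul_ite, mul_one, mul_zero]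

omit [DecidableEq Y] in
/-- pointwise: for `D x y ≤ s/4`, `wk (D y x) - wk (D y z) ≤ -s²/2` and both cores are `1`;
otherwise `wk_sub_le` and `eps1 (core t' - core t) ≤ s ω t` (nonzero only for
`1/512 < t ≤ 1/128`, where `ω t ≥ 1/530`) -/
lemma PK_shift (c : Ctx k D m η ν) {x z : Y} (hs : D x z ≤ 1 / 1024) :
    PK D ν x - PK D ν z ≤ -(D x z ^ 2 / 2) * bm D ν x (D x z / 4) + 11 * D x z * ring D ν x := by
  have h := sum_le_sum (s := univ) fun y _ => mul_le_mul_of_nonneg_left
    (lshift_qk (c.met.nonneg x y) (c.met.nonneg y z) (lshift_abs c.met x y z) hs (c.met.tri x y z))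
    (c.ν0 y)
  simp only [PK, Wk, Core, ring, lshift_bm, fun y => c.met.symm y x, mul_sum]
  simp only [mul_add, mul_sub, sum_add_distrib, sum_sub_distrib, fun y => mul_left_comm (ν y)] at h
  simp only [mul_left_comm _ (ν _)] at h ⊢
  linarith

omit [Fintype Y] in
lemma KInv_shift (h : IsMet D) {σ : KD Y} (hσ : KInv D σ) {x : Y} {a : Option Y}
    (hfar : ∀ b ∈ σ.alive, b ≠ a → 5 ≤ D x (σ.cen b)) :
    KInv D ⟨σ.alive, Function.update σ.cen a x, σ.mu⟩ := by
  refine ⟨hσ.pos, fun b hb b' hb' hne => ?_⟩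
  dsimp only
  by_cases h1 : b = a
  · subst h1
    rw [Function.update_self, Function.update_of_ne hne.symm]
    linarith [hfar b' hb' hne.symm]
  by_cases h2 : b' = a
  · subst h2
    rw [Function.update_self, Function.update_of_ne hne, h.symm]
    linarith [hfar b hb hne]
  · rw [Function.update_of_ne h1, Function.update_of_ne h2]
    exact hσ.sep b hb b' hb' hne

/-- the label of `y` changes only if `min (D y x) (D y z) ≤ rad i < max (D y x) (D y z)`
(`kingOf_eq_some`); `card_rad_le` with `d = s` (`c.grid`; `s = 0` is trivial); this needs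
`1/4 - s ≤ D y x ≤ 1/2 + s`, where `ω ≥ 1/7` -/
lemma rel_shift (c : Ctx k D m η ν) {σ : KD Y} (hσ : KInv D σ) {x : Y} {a : Option Y}
    (ha : a ∈ σ.alive) (hs : D x (σ.cen a) ≤ 1 / 1024)
    (hfar : ∀ b ∈ σ.alive, b ≠ a → 5 ≤ D x (σ.cen b)) :
    rel D m ν σ ⟨σ.alive, Function.update σ.cen a x, σ.mu⟩ ≤ 56 * D x (σ.cen a) * ring D ν x := by
  have hσ' := KInv_shift c.met hσ hfar
  have hm : (0 : ℝ) < m := by exact_mod_cast c.mpos
  have hs0 := c.met.nonneg x (σ.cen a)
  rw [rel, ring, mul_sum]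
  refine sum_le_sum fun y _ => ?_
  rw [mul_left_comm]
  refine mul_le_mul_of_nonneg_left ?_ (c.ν0 y)
  have ht := c.met.nonneg x y
  obtain ⟨h1, h2⟩ := abs_le.1 (lshift_abs c.met x y (σ.cen a))
  set F := (range m).filter fun i =>
    min (D x y) (D y (σ.cen a)) ≤ rad m i ∧ rad m i < max (D x y) (D y (σ.cen a)) with hF
  have h3 : lavg D m σ y ⟨σ.alive, Function.update σ.cen a x, σ.mu⟩ y ≤ F.card / m := by
    rw [lavg, hF, card_filter]
    push_cast
    refine div_le_div_of_nonneg_right (sum_le_sum fun i hi => ?_) hm.le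
    split_ifs with h
    · exact ldist_le_one hσ hσ' _ _ _
    have hr : rad m i ≤ 1 := by linarith [rad_lt (mem_range.1 hi)]
    refine (ldist_eq_zero c.met hσ (by linarith [rad_ge m i]) (Option.ext fun b => ?_) (by rfl)).le
    rw [kingOf_eq_some c.met hσ hr, kingOf_eq_some c.met hσ' hr]
    refine and_congr_right fun _ => ?_
    dsimp only
    by_cases hb : b = a
    · rw [hb, Function.update_self, c.met.symm y x]
      rw [min_le_iff, lt_max_iff, ← not_le, ← not_le] at h
      tauto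
    · rw [Function.update_of_ne hb]
  refine h3.trans ?_
  rcases F.eq_empty_or_nonempty with h | ⟨i, hi⟩
  · rw [h, card_empty, Nat.cast_zero, zero_div]
    positivity
  obtain ⟨hi, h4, h5⟩ := mem_filter.1 hi
  have h6 : x ≠ σ.cen a := fun e => by
    rw [← e, c.met.symm y x, min_self] at h4
    rw [← e, c.met.symm y x, max_self] at h5
    linarith
  have h7 : max (D x y) (D y (σ.cen a)) ≤ min (D x y) (D y (σ.cen a)) + D x (σ.cen a) := by
    rcases le_total (D x y) (D y (σ.cen a)) with h | h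
    · rw [max_eq_right h, min_eq_left h]; linarith
    · rw [max_eq_left h, min_eq_right h]; linarith
  have h8 : 1 / 7 ≤ D x y / (1 + D x y) ^ 2 := by
    have k1 := min_le_left (D x y) (D y (σ.cen a))
    have k2 := le_max_left (D x y) (D y (σ.cen a))
    have k3 : 1 / 4 - 1 / 1024 ≤ D x y := by linarith [rad_ge m i]
    have k4 : D x y ≤ 1 / 2 + 1 / 1024 := by linarith [rad_lt (mem_range.1 hi)]
    rw [le_div_iff₀ (by positivity)]
    nlinarith
  have h9 := card_rad_le c.mpos (c.grid _ _ h6) h7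
  rw [← div_le_iff₀ hm] at h9
  linarith [mul_le_mul_of_nonneg_left h8 hs0]

omit [Fintype Y] in
lemma lshift_tK {σ : KD Y} {x : Y} {a : Option Y} (ha : a ∈ σ.alive) (y : Y) :
    tK D ⟨σ.alive, Function.update σ.cen a x, σ.mu⟩ y ≤ tK D σ y ∨
      (tK D σ y = D y (σ.cen a) ∧ tK D ⟨σ.alive, Function.update σ.cen a x, σ.mu⟩ y ≤ D y x) := by
  refine or_iff_not_imp_left.2 fun h => ⟨?_, ?_⟩
  · obtain ⟨b, hb, e⟩ := exists_of_tK_lt ((not_le.1 h).trans_le (tK_le_one _ y))
    by_cases hba : b = a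
    · rw [e, hba]
    · refine absurd ?_ h
      have := tK_le (D := D) (σ := ⟨σ.alive, Function.update σ.cen a x, σ.mu⟩) hb y
      rwa [show KD.cen _ b = σ.cen b from Function.update_of_ne hba _ _, ← e] at this
  · have := tK_le (D := D) (σ := ⟨σ.alive, Function.update σ.cen a x, σ.mu⟩) ha y
    rwa [show KD.cen _ a = x from Function.update_self _ _ _] at this

omit [DecidableEq Y] in
lemma lshift_wide (c : Ctx k D m η ν) {σ : KD Y} {x : Y} {a : Option Y} (ha : a ∈ σ.alive)
    (hs : D x (σ.cen a) ≤ 1 / 1024) :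
    wide D (nuL D η ν σ) (σ.cen a) ≤ 2050 * ring D ν x + η * Fintype.card Y := by
  rw [wide, ring, mul_sum, mul_comm η, ← nsmul_eq_mul, ← card_univ, ← sum_const, ← sum_add_distrib]
  refine sum_le_sum fun y _ => ?_
  obtain ⟨h1, h2⟩ := abs_le.1 (lshift_abs c.met x y (σ.cen a))
  have ht := c.met.nonneg x y
  have ht' := c.met.nonneg y (σ.cen a)
  have hν := c.ν0 y
  rw [nuL, add_div, c.met.symm _ y]
  refine add_le_add ?_ (div_le_self c.ηpos.le (by linarith))
  rcases le_total (D y (σ.cen a)) (1 / 512) with h | h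
  · rw [cL, cl_of_nonpos (by linarith [tK_le (D := D) ha y]), zero_mul, zero_div]
    positivity
  · have h3 : 1 / (1 + D y (σ.cen a)) ≤ 2050 * (D x y / (1 + D x y) ^ 2) := by
      rw [← mul_div_assoc, div_le_div_iff₀ (by positivity) (by positivity), one_mul, sq]
      linarith [mul_le_mul (show 1 + D x y ≤ 1025 * D x y by linarith)
        (show 1 + D x y ≤ 2 * (1 + D y (σ.cen a)) by linarith) (by positivity) (by positivity)]
    rw [mul_left_comm, div_eq_mul_one_div]
    exact mul_le_mul (mul_le_of_le_one_left hν (cl_le_one _)) h3 (by positivity) hν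

/-- `tK' y ≤ tK y + s`.  If `cL` increases at `y` then `1/512 < D y x ≤ 1/128` (`ω ≥ 1/530`):
contribution `≤ 512 s · 2 · 530 ring`.  If `cR` increases at `y` then
`1/256 ≤ D y z < 1/32`, so `ν y ≤ nuL y`, and `psiR_stat` (centre `z`) gives a contribution
`≤ 64 s V (18 + 2 log (L/V)) ≤ 64 s · 19 L`, `V = bm nuL z (1/32) ≤ (33/32) L`, `L = wide nuL z`
(`log u ≤ u - 1`), and `L ≤ 2050 ring + η card Y`. -/
lemma Psi_shift (c : Ctx k D m η ν) {σ : KD Y} (hσ : KInv D σ) {e : ℝ}
    (hS : Stat k D m η ν σ e) {x : Y} {a : Option Y} (ha : a ∈ σ.alive)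
    (hs : D x (σ.cen a) ≤ 1 / 1024) :
    Psi D m η ν ⟨σ.alive, Function.update σ.cen a x, σ.mu⟩ ≤
      Psi D m η ν σ + 2 ^ 22 * D x (σ.cen a) * (ring D ν x + η * Fintype.card Y) := by
  have hs0 := c.met.nonneg x (σ.cen a)
  have hL : ∀ y, 0 < nuL D η ν σ y := fun y =>
    c.ηpos.trans_le ((eta_le_nuR c σ y).trans (nuR_le_nuL c σ y))
  set V := bm D (nuL D η ν σ) (σ.cen a) (1 / 32) with hV
  set L := wide D (nuL D η ν σ) (σ.cen a) with hLL
  have hV0 : 0 < V := bm_pos c.met hL _ (by norm_num)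
  have hL0 : 0 < L := wide_pos c.met hL _
  have hΛ : 0 ≤ 18 + 2 * Real.log (L / V) := (psiR_nonneg c.met c.mpos hσ.pos _).trans
    (psiR_stat c hσ hS (y := σ.cen a) (by rw [c.met.self]; norm_num))
  have h1 : (18 + 2 * Real.log (L / V)) * V ≤ 19 * L := by
    have k1 := mul_le_mul_of_nonneg_right (Real.log_le_sub_one_of_pos (div_pos hL0 hV0)) hV0.le
    rw [sub_mul, div_mul_cancel₀ _ hV0.ne'] at k1
    linarith [bm_le_wide c.met (fun y => (hL y).le) (σ.cen a) (R := 1 / 32) (by norm_num)]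
  have h2 : Psi D m η ν ⟨σ.alive, Function.update σ.cen a x, σ.mu⟩ ≤ Psi D m η ν σ +
      (64 * D x (σ.cen a) * (18 + 2 * Real.log (L / V)) * V +
        542720 * D x (σ.cen a) * ring D ν x) := by
    conv_rhs => rw [Psi, ring]
    nth_rewrite 2 [hV]
    rw [lshift_bm, mul_sum, mul_sum, ← sum_add_distrib, ← sum_add_distrib]
    refine sum_le_sum fun y _ => ?_
    obtain ⟨k1, k2⟩ := abs_le.1 (lshift_abs c.met x y (σ.cen a))
    have hν := c.ν0 y
    have ht := c.met.nonneg x y
    have hR := psiR_nonneg c.met c.mpos hσ.pos y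
    have hP := psiL_nonneg c.met hσ.pos y
    have hT := lshift_tK (D := D) (x := x) ha y
    rw [c.met.symm y x] at hT
    simp only [nuR, nuL]
    generalize tK D ⟨σ.alive, Function.update σ.cen a x, σ.mu⟩ y = t1 at hT ⊢
    have kR : (cR t1 - cR (tK D σ y)) * ν y * psiR D m σ.mu y ≤
        64 * D x (σ.cen a) * (18 + 2 * Real.log (L / V)) *
          ((cL (tK D σ y) * ν y + η) * if D (σ.cen a) y ≤ 1 / 32 then 1 else 0) := by
      by_cases h : cR t1 ≤ cR (tK D σ y)
      · refine (mul_nonpos_of_nonpos_of_nonneg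
          (mul_nonpos_of_nonpos_of_nonneg (sub_nonpos.2 h) hν) hR).trans ?_
        exact mul_nonneg (by positivity) (mul_nonneg (hL y).le (by split_ifs <;> norm_num))
      have k0 : tK D σ y < t1 := lt_of_not_ge fun h' => h (cl_mono (by linarith))
      obtain ⟨e, k3⟩ := hT.resolve_left k0.not_ge
      have k4 : tK D σ y ≤ 1 / 32 := le_of_not_gt fun h' =>
        h ((cl_le_one _).trans_eq (cl_of_one_le (by linarith)).symm)
      have k5 : 1 / 64 ≤ t1 := le_of_not_gt fun h' =>
        h ((cl_of_nonpos (by linarith)).trans_le (cl_nonneg _))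
      have k6 : cR t1 - cR (tK D σ y) ≤ 64 * D x (σ.cen a) :=
        (cl_lip _ _).trans (abs_le.2 ⟨by linarith, by linarith⟩)
      rw [c.met.symm _ y, if_pos (e ▸ k4), cL, cl_of_one_le (by linarith), mul_one, one_mul,
        mul_right_comm]
      refine mul_le_mul (mul_le_mul k6 (psiR_stat c hσ hS ?_) hR (by positivity))
        (by linarith [c.ηpos]) hν (by positivity)
      rw [c.met.symm]; linarith
    have kL : (cL t1 - cL (tK D σ y)) * ν y * psiL D σ.mu y ≤
        542720 * D x (σ.cen a) * (ν y * (D x y / (1 + D x y) ^ 2)) := by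
      by_cases h : cL t1 ≤ cL (tK D σ y)
      · exact (mul_nonpos_of_nonpos_of_nonneg
          (mul_nonpos_of_nonpos_of_nonneg (sub_nonpos.2 h) hν) hP).trans (by positivity)
      have k0 : tK D σ y < t1 := lt_of_not_ge fun h' => h (cl_mono (by linarith))
      obtain ⟨e, k3⟩ := hT.resolve_left k0.not_ge
      have k4 : tK D σ y ≤ 1 / 256 := le_of_not_gt fun h' =>
        h ((cl_le_one _).trans_eq (cl_of_one_le (by linarith)).symm)
      have k5 : 1 / 512 ≤ t1 := le_of_not_gt fun h' =>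
        h ((cl_of_nonpos (by linarith)).trans_le (cl_nonneg _))
      have k6 : cL t1 - cL (tK D σ y) ≤ 512 * D x (σ.cen a) :=
        (cl_lip _ _).trans (abs_le.2 ⟨by linarith, by linarith⟩)
      linarith [mul_le_mul (mul_le_mul_of_nonneg_right k6 hν) (psiL_le_two (D := D) σ.mu y) hP
        (by positivity), mul_le_mul_of_nonneg_left (lshift_om (k5.trans k3) (by linarith))
        (mul_nonneg hs0 hν)]
    linarith
  have h3 := mul_le_mul_of_nonneg_left (h1.trans (mul_le_mul_of_nonneg_left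
    (lshift_wide c ha hs) (by norm_num))) hs0
  have h4 : 0 ≤ D x (σ.cen a) * (η * Fintype.card Y) := mul_nonneg hs0 (by have := c.ηpos; positivity)
  linarith [mul_nonneg hs0 (ring_nonneg c.met c.ν0 x)]

/-- From the threshold, `ring < s wide/48`, so `bm ν x (s/4) ≥ wide/2` (`wide_le_bm_add`) and
`KK (PK z - PK x) ≥ KK s (s wide/4 - 11 ring) ≥ KK s (ring + η card Y + P)`. -/
lemma shift_king (c : Ctx k D m η ν) {σ : KD Y} (hσ : KInv D σ) {e : ℝ}
    (hS : Stat k D m η ν σ e) {x : Y} {a : Option Y} (ha : a ∈ σ.alive)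
    (hs : D x (σ.cen a) ≤ 1 / 1024) (hfar : ∀ b ∈ σ.alive, b ≠ a → 5 ≤ D x (σ.cen b))
    {P : ℝ} (hP : 0 ≤ P)
    (hth : 48 * (ring D ν x + η * Fintype.card Y + P) < D x (σ.cen a) * wide D ν x) :
    rel D m ν σ ⟨σ.alive, Function.update σ.cen a x, σ.mu⟩ + P * D (σ.cen a) x +
      Pot D m η ν ⟨σ.alive, Function.update σ.cen a x, σ.mu⟩ ≤ Pot D m η ν σ := by
  have hs0 := c.met.nonneg x (σ.cen a)
  have hR := ring_nonneg c.met c.ν0 x
  have hE : 0 ≤ η * Fintype.card Y := by have := c.ηpos; positivity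
  have hs1 : 0 < D x (σ.cen a) := hs0.lt_of_ne fun e => by rw [← e] at hth; linarith
  have h1 := mul_le_mul_of_nonneg_left
    (wide_le_bm_add c.met c.ν0 x (R := D x (σ.cen a) / 4) (by positivity)) hs0
  rw [mul_add, ← mul_assoc, mul_add, one_div_div, mul_div_cancel₀ _ hs1.ne'] at h1
  have h2 : 24 * (ring D ν x + η * Fintype.card Y + P) ≤
      D x (σ.cen a) * bm D ν x (D x (σ.cen a) / 4) := by
    linarith [mul_le_mul_of_nonneg_right hs hR]
  have h3 : ∑ b ∈ σ.alive, PK D ν (Function.update σ.cen a x b) =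
      ∑ b ∈ σ.alive, PK D ν (σ.cen b) + (PK D ν x - PK D ν (σ.cen a)) := by
    rw [← add_sum_erase _ _ ha, ← add_sum_erase _ _ ha, Function.update_self,
      sum_congr rfl fun b hb => by rw [Function.update_of_ne (ne_of_mem_erase hb)]]
    ring
  rw [Pot, Pot, c.met.symm _ x, KK]
  dsimp only
  rw [h3]
  linarith [PK_shift c hs, rel_shift c hσ ha hs hfar, Psi_shift c hσ hS ha hs,
    mul_le_mul_of_nonneg_left h2 hs0, mul_nonneg hs0 hR, mul_nonneg hs0 hE, mul_nonneg hs0 hP]

end Crest.Agent.R314
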