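import Crest.Agent.R314.LDestroy
import Crest.Agent.R314.LShift
import Crest.Agent.R314.LMove

/-!
# Part D: assembly of the level statement
-/

set_option autoImplicit false

open Finset

namespace Crest.Agent.R314

universe u

variable {Y : Type u} [Fintype Y] [DecidableEq Y] {k m : ℕ} {D : Y → Y → ℝ} {η : ℝ} {ν : Y → ℝ}

private lemma lm_log_ge (hk : 2 ≤ k) : 1 ≤ Real.log (k + 1) := by
  rw [Real.le_log_iff_exp_le (by positivity)]
  have h1 := Real.exp_one_lt_d9
  have h2 : (2 : ℝ) ≤ k := by exact_mod_cast hk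
  linarith

private lemma lm_log17 (hk : 2 ≤ k) : Real.log (17 * k) ≤ 16 + Real.log (k + 1) := by
  have h2 : (2 : ℝ) ≤ k := by exact_mod_cast hk
  rw [Real.log_mul (by norm_num) (by positivity)]
  have h1 := Real.log_le_sub_one_of_pos (show (0 : ℝ) < 17 by norm_num)
  have h3 := Real.log_le_log (show (0 : ℝ) < k by linarith) (show (k : ℝ) ≤ k + 1 by linarith)
  linarith

/-- the bound for arbitrary moves -/
private lemma lm_any (c : Ctx k D m η ν) {σ : KD Y} (hσ : KInv D σ)
    (hok : ∀ a ∈ σ.alive, OK D ν (σ.cen a)) {x : Y}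
    (hx : cR (tK D σ x) * psiR D m σ.mu x ≤ 20 + 2 * Real.log (k + 1)) (y : Y) :
    1 + pot D m σ x - pot D m σ y ≤ 2 ^ 90 * Real.log (k + 1) := by
  have h1 := move_any c hσ hok x y
  have h2 := lm_log_ge c.hk
  have h3 := lm_log17 c.hk
  unfold KK at h1
  linarith

omit [DecidableEq Y] in
private lemma lm_lam_nonneg (c : Ctx k D m η ν) {x : Y} (hx : 1 / 2 ≤ bm D ν x (1 / 1024)) :
    0 ≤ Real.log (bm D ν x 2 / bm D ν x (1 / 1024)) := by
  refine Real.log_nonneg ?_
  rw [le_div_iff₀ (by linarith), one_mul]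
  exact bm_le_bm c.met c.ν0 (by rw [c.met.self]; norm_num)

omit [Fintype Y] [DecidableEq Y] in
private lemma lm_pnear_nonneg (σ : KD Y) {p : Option Y → ℝ} (hp : ∀ a, 0 ≤ p a) (x : Y) :
    0 ≤ pnear D σ p x := sum_nonneg fun a _ => hp a

/-- the two move bounds at a heavy point with a well centred king -/
private lemma lm_heavy (c : Ctx k D m η ν) {σ σ' : KD Y} (hσ' : KInv D σ')
    (hok : ∀ a ∈ σ'.alive, OK D ν (σ'.cen a)) {x : Y} (hx : Heavy D ν x) {p : Option Y → ℝ}
    (hp : ∀ a, 0 ≤ p a) {a : Option Y} (ha : a ∈ σ'.alive) (hxa : D x (σ'.cen a) ≤ 1 / 1024)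
    (hth : D x (σ'.cen a) * wide D ν x ≤
      48 * (ring D ν x + η * Fintype.card Y + pnear D σ p x)) :
    (∀ y, 1 + pot D m σ' x - pot D m σ' y ≤ 2 ^ 90 * Real.log (k + 1)) ∧
      (1 / 2 ≤ bm D ν x (1 / 1024) → ∀ y, D x y ≤ 1 / 1024 →
        lavg D m σ' x σ' y + pot D m σ' x - pot D m σ' y ≤ 2 ^ 90 * D x y * rate D η ν σ p x) := by
  refine ⟨lm_any c hσ' hok ?_, fun hn y hxy => ?_⟩
  · have h1 : cR (tK D σ' x) = 0 := cl_of_nonpos (by linarith [tK_le (D := D) ha x])
    rw [h1, zero_mul]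
    linarith [lm_log_ge c.hk]
  · have h1 := move_heavy c hσ' hok hx ha hxa hxy
    have hw := wide_ge_of_near c hn
    have hw0 : 0 < wide D ν x := by linarith
    have h2 := lm_lam_nonneg c hn
    have h3 := lm_pnear_nonneg (D := D) σ hp x
    have h4 : 0 ≤ η * Fintype.card Y := mul_nonneg c.ηpos.le (Nat.cast_nonneg _)
    have h5 := ring_nonneg c.met c.ν0 x
    have hd := c.met.nonneg x y
    set A := (ring D ν x + η * Fintype.card Y + pnear D σ p x) / wide D ν x with hA
    have h6 : D x (σ'.cen a) ≤ 48 * A := by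
      rw [hA, ← mul_div_assoc, le_div_iff₀ hw0]
      exact hth
    have h7 : ring D ν x / wide D ν x ≤ A := div_le_div_of_nonneg_right (by linarith) hw0.le
    have h8 : 0 ≤ A := div_nonneg (by linarith) hw0.le
    refine h1.trans ?_
    have h9 : D x (σ'.cen a) + ring D ν x / wide D ν x ≤ 49 * rate D η ν σ p x := by
      rw [rate, ← hA]
      linarith
    have h10 : 0 ≤ rate D η ν σ p x := by
      rw [rate, ← hA]
      linarith
    have h11 := mul_le_mul_of_nonneg_left h9 hd
    have h12 := mul_nonneg hd h10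
    unfold KK
    nlinarith

omit [Fintype Y] in
private lemma lm_drag (h : IsMet D) {σ : KD Y} {p : Option Y → ℝ} {a : Option Y}
    (ha : a ∈ σ.alive) (x : Y) :
    ∑ b ∈ σ.alive, p b * D (σ.cen b) (Function.update σ.cen a x b) = p a * D (σ.cen a) x := by
  rw [sum_eq_single_of_mem a ha, Function.update_self]
  intro b _ hb
  rw [Function.update_of_ne hb, h.self, mul_zero]

theorem levelStmt : ∃ C : ℝ, 1 ≤ C ∧ LevelStmt.{u} C := by
  refine ⟨2 ^ 90, by norm_num, ?_⟩
  intro k hk Y _ _ _ η hη hηc m hm D hD hgrid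
  refine ⟨pot D m, pot0 D m η, fun σ hσ => ⟨pot0_nonneg hD hm hη.le hσ, fun y =>
    le_trans (by norm_num) (pot_lower hD hm hσ y)⟩, ?_⟩
  intro σ hσ ν h0 h1 x p hp e he
  have c : Ctx k D m η ν := ⟨hD, hm, hgrid, hk, hη, hηc, h0, h1⟩
  obtain ⟨e', he', hs, hee⟩ : ∃ e' : ℝ, 0 < e' ∧ e' * (4096 * (k + 1)) < η ^ 2 ∧
      (σ.alive.card + 1) * e' ≤ e := by
    refine ⟨min (e / (σ.alive.card + 1)) (η ^ 2 / (8192 * (k + 1))), by positivity, ?_, ?_⟩
    · have h2 : min (e / (σ.alive.card + 1)) (η ^ 2 / (8192 * (k + 1))) ≤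
          η ^ 2 / (8192 * (k + 1)) := min_le_right _ _
      rw [le_div_iff₀ (by positivity)] at h2
      have h3 : 0 < η ^ 2 := by positivity
      nlinarith
    · have h2 : min (e / (σ.alive.card + 1)) (η ^ 2 / (8192 * (k + 1))) ≤
          e / (σ.alive.card + 1) := min_le_left _ _
      rw [le_div_iff₀ (by positivity)] at h2
      linarith
  obtain ⟨σ1, hσ1, hsub, hcen, hok, hS, hle⟩ := cleanup c he' hs hσ
  have hle1 : rel D m ν σ σ1 + Pot D m η ν σ1 ≤ Pot D m η ν σ + e := by linarith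
  have huc : ∀ σ' : KD Y, ucost D m ν p σ σ' =
      rel D m ν σ σ' + ∑ a ∈ σ.alive, p a * D (σ.cen a) (σ'.cen a) := fun _ => rfl
  have hdrag0 : ∀ σ' : KD Y, (∀ a ∈ σ.alive, σ'.cen a = σ.cen a) →
      ∑ a ∈ σ.alive, p a * D (σ.cen a) (σ'.cen a) = 0 := fun σ' h =>
    sum_eq_zero fun a ha => by rw [h a ha, hD.self, mul_zero]
  have hmv0 : ∀ σ' : KD Y, (∀ a ∈ σ.alive, σ'.cen a = σ.cen a) →
      ∀ a ∈ σ.alive, D (σ.cen a) (σ'.cen a) ≤ 1 / 1024 := fun σ' h a ha => by
    rw [h a ha, hD.self]; norm_num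
  have hcen1 : ∀ a ∈ σ.alive, σ1.cen a = σ.cen a := fun a _ => by rw [hcen]
  simp only [huc, sum_pot]
  by_cases hn : 1 / 2 ≤ bm D ν x (1 / 1024)
  swap
  · -- far scale
    obtain ⟨α, hα, hα1, hα2⟩ := insert_far c hσ1 hS x
    have hσ2 := hσ1.addMu x hα
    refine ⟨addMu σ1 x α, hσ2, hmv0 _ hcen1, ?_, lm_any c hσ2 hok ?_, fun h => absurd h hn⟩
    · rw [hdrag0 (addMu σ1 x α) hcen1, if_neg hn]
      linarith [rel_triangle c hσ hσ1 hσ2]
    · have h2 := psiR_nonneg hD hm hσ2.pos x
      have h3 := mul_le_of_le_one_left h2 (cl_le_one (64 * tK D (addMu σ1 x α) x - 1))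
      have h4 := lm_log_ge hk
      unfold cR
      linarith
  rw [if_pos hn]
  by_cases hh : Heavy D ν x
  swap
  · -- not heavy
    refine ⟨σ1, hσ1, hmv0 _ hcen1, ?_, lm_any c hσ1 hok (cR_psiR_near c hσ1 hS hn),
      fun _ y hxy => (move_general c hσ1 hS hok hn hxy).trans ?_⟩
    · rw [hdrag0 _ hcen1]
      linarith
    · have hw := wide_ge_of_near c hn
      have hw0 : 0 < wide D ν x := by linarith
      have h2 := lm_lam_nonneg c hn
      have h3 := lm_pnear_nonneg (D := D) σ hp x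
      have h4 : 0 ≤ η * Fintype.card Y := mul_nonneg c.ηpos.le (Nat.cast_nonneg _)
      have h5 : wide D ν x / 2 ^ 31 < ring D ν x := not_le.1 fun h => hh ⟨hn, h⟩
      have h6 : 1 / 2 ^ 31 ≤ (ring D ν x + η * Fintype.card Y + pnear D σ p x) / wide D ν x := by
        rw [le_div_iff₀ hw0]
        linarith
      have h7 : 1 + Real.log (bm D ν x 2 / bm D ν x (1 / 1024)) ≤ 2 ^ 31 * rate D η ν σ p x := by
        rw [rate]
        linarith
      have hd := hD.nonneg x y
      have h8 := mul_le_mul_of_nonneg_left h7 hd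
      have h9 := mul_nonneg hd (show 0 ≤ 1 + Real.log (bm D ν x 2 / bm D ν x (1 / 1024)) by linarith)
      nlinarith
  have h3 := lm_pnear_nonneg (D := D) σ hp x
  have h4 : 0 ≤ η * Fintype.card Y := mul_nonneg c.ηpos.le (Nat.cast_nonneg _)
  have h5 := ring_nonneg c.met c.ν0 x
  by_cases hex : ∃ a ∈ σ1.alive, D x (σ1.cen a) ≤ 1 / 1024
  · obtain ⟨a, ha, hxa⟩ := hex
    have hfar : ∀ b ∈ σ1.alive, b ≠ a → 5 ≤ D x (σ1.cen b) := fun b hb hba => by
      refine (heavy_far c hh (hok b hb)).resolve_left fun h => ?_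
      linarith [hσ1.sep a ha b hb hba.symm, hD.tri (σ1.cen a) x (σ1.cen b), hD.symm x (σ1.cen a)]
    have hpa : p a ≤ pnear D σ p x :=
      single_le_sum (f := p) (fun b _ => hp b) (mem_filter.2 ⟨hsub ha, by rwa [← hcen]⟩)
    by_cases hth : 48 * (ring D ν x + η * Fintype.card Y + p a) < D x (σ1.cen a) * wide D ν x
    · -- re-centre
      have hσ2 := KInv_shift hD hσ1 hfar
      have h6 := shift_king c hσ1 hS ha hxa hfar (hp a) hth
      refine ⟨⟨σ1.alive, Function.update σ1.cen a x, σ1.mu⟩, hσ2, fun b hb => ?_, ?_,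
        lm_heavy c hσ2 (fun b hb => ?_) hh hp (a := a) ha ?_ ?_⟩
      · rcases eq_or_ne b a with rfl | hba
        · simp only [Function.update_self]
          rwa [← hcen, hD.symm]
        · simp only [Function.update_of_ne hba]
          rw [hcen, hD.self]; norm_num
      · have h7 := lm_drag hD (p := p) (hsub ha) x
        have h8 := rel_triangle c hσ hσ1 hσ2
        simp only [hcen] at h6 h8 ⊢
        rw [h7]
        linarith
      · rcases eq_or_ne b a with rfl | hba
        · simp only [Function.update_self]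
          exact heavy_ok c hh
        · simp only [Function.update_of_ne hba]
          exact hok b hb
      · simp only [Function.update_self, hD.self]; norm_num
      · simp only [Function.update_self, hD.self]
        linarith
    · refine ⟨σ1, hσ1, hmv0 _ hcen1, ?_, lm_heavy c hσ1 hok hh hp ha hxa ?_⟩
      · rw [hdrag0 _ hcen1]
        linarith
      · linarith [not_lt.1 hth]
  · -- create a king
    have hfar : ∀ b ∈ σ1.alive, 5 ≤ D x (σ1.cen b) := fun b hb =>
      (heavy_far c hh (hok b hb)).resolve_left fun h => hex ⟨b, hb, h⟩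
    obtain ⟨b, hb⟩ := exists_dead hD hσ
    obtain ⟨hσ2, h6⟩ := create_king c hσ1 hh (fun h => hb (hsub h)) hfar
    have hc2 : ∀ a ∈ σ.alive, (⟨insert b σ1.alive, Function.update σ1.cen b x, σ1.mu⟩ : KD Y).cen a =
        σ.cen a := fun a ha => by
      have : a ≠ b := fun h => hb (h ▸ ha)
      simp only [Function.update_of_ne this, hcen]
    refine ⟨⟨insert b σ1.alive, Function.update σ1.cen b x, σ1.mu⟩, hσ2, hmv0 _ hc2, ?_,
      lm_heavy c hσ2 (fun a ha => ?_) hh hp (a := b) (mem_insert_self _ _) ?_ ?_⟩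
    · rw [hdrag0 _ hc2]
      linarith [rel_triangle c hσ hσ1 hσ2]
    · rcases eq_or_ne a b with rfl | hab
      · simp only [Function.update_self]
        exact heavy_ok c hh
      · simp only [Function.update_of_ne hab]
        exact hok a ((mem_insert.1 ha).resolve_left hab)
    · simp only [Function.update_self, hD.self]; norm_num
    · simp only [Function.update_self, hD.self]
      linarith

end Crest.Agent.R314
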