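import Crest.Agent.R314.RDefs

/-!
# R314 part A — a mixture of deterministic algorithms is a behavioural policy

For requests `reqs` and choices `past` let `W reqs past = ∑ i, w i * [a i makes the choices past on the first
|past| prefixes of reqs]`.  Put `prob reqs past j = W reqs (past ++ [j]) / W reqs past` if the denominator is
positive and `|past| + 1 = |reqs|`, uniform otherwise.  By induction on the remaining path,
`W reqs past * pathProb A reqs past rest = W (reqs ++ rest.map fst) (past ++ rest.map snd)` whenever
`|reqs| = |past|` (with the convention that `W` only looks at the first `|past|` requests), hence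
`pathProb A [] [] (σ.zip (ofFn j)) = ∑ i, w i * [detChoices (a i) σ = ofFn j]`; exchange the sums.
-/

set_option autoImplicit false

open Crest.LogicCS.KServer Finset

namespace Crest.Agent.R314

universe u

theorem kuhn_detChoices_concat {X : Type u} {k : ℕ} (a : List X → Fin k) (l : List X) (r : X) :
    detChoices a (l ++ [r]) = detChoices a l ++ [a (l ++ [r])] := by
  induction l generalizing a with
  | nil => simp [detChoices]
  | cons y l ih =>
    have h : ∀ (b : List X → Fin k) (l' : List X),
        detChoices b (y :: l') = b [y] :: detChoices (fun l'' => b (y :: l'')) l' := fun b l' => by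
      simp only [detChoices, List.length_cons, List.ofFn_succ]
      rfl
    rw [List.cons_append, h, h, ih]
    rfl

/-- weight of the algorithms consistent with a history -/
noncomputable def kuhnW {X : Type u} {k m : ℕ} (w : Fin m → ℝ) (a : Fin m → List X → Fin k)
    (reqs : List X) (past : List (Fin k)) : ℝ :=
  ∑ i, w i * if detChoices (a i) reqs = past then 1 else 0

section
variable {X : Type u} {k m : ℕ} {w : Fin m → ℝ}

theorem kuhnW_nonneg (hw : w ∈ stdSimplex ℝ (Fin m)) (a : Fin m → List X → Fin k)
    (reqs : List X) (past : List (Fin k)) : 0 ≤ kuhnW w a reqs past :=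
  sum_nonneg fun i _ => mul_nonneg (hw.1 i) (by split_ifs <;> norm_num)

theorem kuhnW_sum (w : Fin m → ℝ) (a : Fin m → List X → Fin k) (l : List X) (r : X)
    (past : List (Fin k)) : ∑ j, kuhnW w a (l ++ [r]) (past ++ [j]) = kuhnW w a l past := by
  simp only [kuhnW]
  rw [sum_comm]
  refine sum_congr rfl fun i _ => ?_
  rw [← mul_sum]
  congr 1
  simp only [kuhn_detChoices_concat, List.append_singleton_inj]
  by_cases h : detChoices (a i) l = past <;> simp [h]

open Classical in
/-- the behavioural policy -/
noncomputable def kuhnA (hk : 0 < k) (hw : w ∈ stdSimplex ℝ (Fin m))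
    (a : Fin m → List X → Fin k) : Policy X k where
  prob := fun reqs past j => if reqs ≠ [] ∧ kuhnW w a reqs.dropLast past ≠ 0 then
    kuhnW w a reqs (past ++ [j]) / kuhnW w a reqs.dropLast past else 1 / k
  prob_nonneg := fun reqs past j => by
    split_ifs
    · exact div_nonneg (kuhnW_nonneg hw _ _ _) (kuhnW_nonneg hw _ _ _)
    · positivity
  prob_sum := fun reqs past => by
    by_cases h : reqs ≠ [] ∧ kuhnW w a reqs.dropLast past ≠ 0
    · simp only [if_pos h]
      obtain ⟨l, r, rfl⟩ := (List.eq_nil_or_concat reqs).resolve_left h.1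
      rw [List.concat_eq_append, List.dropLast_concat] at h
      rw [← sum_div, List.concat_eq_append, List.dropLast_concat, kuhnW_sum]
      exact div_self h.2
    · simp only [if_neg h]
      have : (k : ℝ) ≠ 0 := by exact_mod_cast hk.ne'
      simp [this]

theorem kuhn_step (hk : 0 < k) (hw : w ∈ stdSimplex ℝ (Fin m)) (a : Fin m → List X → Fin k)
    (l : List X) (r : X) (past : List (Fin k)) (j : Fin k) :
    kuhnW w a l past * (kuhnA hk hw a).prob (l ++ [r]) past j =
      kuhnW w a (l ++ [r]) (past ++ [j]) := by
  by_cases h : kuhnW w a l past = 0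
  · rw [h, zero_mul]
    rw [← kuhnW_sum w a l r past] at h
    exact ((sum_eq_zero_iff_of_nonneg fun j _ => kuhnW_nonneg hw a _ _).1 h j (mem_univ j)).symm
  · simp only [kuhnA, List.dropLast_concat]
    rw [if_pos ⟨by simp, h⟩]
    field_simp

theorem kuhn_path (hk : 0 < k) (hw : w ∈ stdSimplex ℝ (Fin m)) (a : Fin m → List X → Fin k)
    (rest : List (X × Fin k)) : ∀ (reqs : List X) (past : List (Fin k)),
      kuhnW w a reqs past * pathProb (kuhnA hk hw a) reqs past rest =
        kuhnW w a (reqs ++ rest.map Prod.fst) (past ++ rest.map Prod.snd) := by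
  induction rest with
  | nil => intro reqs past; simp [pathProb]
  | cons p rest ih =>
    intro reqs past
    obtain ⟨r, i⟩ := p
    rw [pathProb, ← mul_assoc, kuhn_step, ih]
    simp

end

theorem kuhn {X : Type u} [MetricSpace X] {k m : ℕ} (hk : 0 < k) (w : Fin m → ℝ)
    (hw : w ∈ stdSimplex ℝ (Fin m)) (a : Fin m → List X → Fin k) :
    ∃ A : Policy X k, ∀ (s : Fin k → X) (σ : List X),
      expCost A s σ = ∑ i, w i * detCost (a i) s σ := by
  refine ⟨kuhnA hk hw a, fun s σ => ?_⟩
  have h0 : kuhnW w a ([] : List X) [] = 1 := by simpa [kuhnW, detChoices] using hw.2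
  have h1 : ∀ j : Fin σ.length → Fin k,
      pathProb (kuhnA hk hw a) [] [] (σ.zip (List.ofFn j)) = kuhnW w a σ (List.ofFn j) := by
    intro j
    have h := kuhn_path hk hw a (σ.zip (List.ofFn j)) [] []
    rwa [h0, one_mul, List.nil_append, List.nil_append, List.map_fst_zip (by simp),
      List.map_snd_zip (by simp)] at h
  simp only [expCost, h1, kuhnW, sum_mul]
  rw [sum_comm]
  refine sum_congr rfl fun i _ => ?_
  simp only [mul_assoc, ← mul_sum]
  congr 1
  simp only [detCost, detChoices, List.ofFn_inj]
  simp

end Crest.Agent.R314
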