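import Crest.Agent.R314.RDefs

/-!
# R314 part A — arbitrary metric spaces, and minimax

`strictX_of_strict`: let `Y` be the finite subtype of the points `s i` and of all requests of the `P ω`, `r : X → Y` a
retraction; extend `a` by `l ↦ a (l.map r)`; costs are preserved by the isometric inclusion.

`mix_of_strictX`: let `L` be the finite set of all prefixes of the request lists of the `P ∈ F`; the cost
`detCost a s (P.map fst)` depends only on the restriction of `a` to `L`.  Finite zero-sum game with rows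
`L → Fin k`, columns `F`, payoff `detCost - c log² pathCost`; `Sion.exists_isSaddlePointOn'` on the two standard
simplices (bilinear payoff); `StrictX` applied to the optimal column strategy shows that the value is `≤ 0`.
(`F = ∅` is trivial.)
-/

set_option autoImplicit false

open Crest.LogicCS.KServer Finset

namespace Crest.Agent.R314

universe u

theorem rmix_pathCost_map {X Y : Type u} [MetricSpace X] [MetricSpace Y] {k : ℕ} {ι : Y → X}
    (hι : ∀ y y', dist (ι y) (ι y') = dist y y') (s : Fin k → Y) (P : List (Y × Fin k)) :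
    pathCost (ι ∘ s) (P.map (Prod.map ι id)) = pathCost s P := by
  induction P generalizing s with
  | nil => rfl
  | cons a P ih =>
    obtain ⟨r, i⟩ := a
    simp only [List.map_cons, Prod.map_apply, id_eq, pathCost, Function.comp_apply, hι]
    rw [← Function.comp_update, ih]

theorem rmix_detCost_map {X Y : Type u} [MetricSpace X] [MetricSpace Y] {k : ℕ} {ι : Y → X}
    (hι : ∀ y y', dist (ι y) (ι y') = dist y y') {r : X → Y} (hr : ∀ y, r (ι y) = y)
    (a : List Y → Fin k) (s : Fin k → Y) (σ : List Y) :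
    detCost (fun l => a (l.map r)) (ι ∘ s) (σ.map ι) = detCost a s σ := by
  have h1 : detChoices (fun l => a (l.map r)) (σ.map ι) = detChoices a σ := by
    have h2 : r ∘ ι = id := funext hr
    refine List.ext_getElem (by simp [detChoices]) fun i _ _ => ?_
    simp [detChoices, ← List.map_take, h2]
  unfold detCost
  rw [h1, ← rmix_pathCost_map hι s, List.zip_map_left]

theorem strictX_of_strict (c : ℝ) (h : StrictStmt.{u} c) : StrictX.{u} c := by
  classical
  intro k hk X _ s hs Ω _ π hπ P
  let S : Finset X := univ.image s ∪ univ.biUnion fun ω => ((P ω).map Prod.fst).toFinset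
  have hS : ∀ i, s i ∈ S := fun i => mem_union_left _ (mem_image_of_mem s (mem_univ i))
  let r : X → S := fun x => if hx : x ∈ S then ⟨x, hx⟩ else ⟨s ⟨0, by omega⟩, hS _⟩
  have hr : ∀ y : S, r y.1 = y := fun y => dif_pos y.2
  have hr' : ∀ x ∈ S, (r x).1 = x := fun x hx => congrArg Subtype.val (hr ⟨x, hx⟩)
  have h1 : Subtype.val ∘ (r ∘ s) = s := funext fun i => hr' _ (hS i)
  have h2 : ∀ ω, ((P ω).map (Prod.map r id)).map (Prod.map Subtype.val id) = P ω := by
    intro ω
    rw [List.map_map]
    refine (List.map_congr_left fun p hp => ?_).trans (List.map_id _)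
    refine Prod.ext (hr' _ (mem_union_right _ (mem_biUnion.2 ⟨ω, mem_univ _, ?_⟩))) rfl
    exact List.mem_toFinset.2 (List.mem_map_of_mem hp)
  have hι : ∀ y y' : S, dist y.1 y'.1 = dist y y' := fun _ _ => rfl
  obtain ⟨a, ha⟩ := h k hk S (r ∘ s) (Function.Injective.of_comp (f := Subtype.val) (h1.symm ▸ hs))
    Ω π hπ fun ω => (P ω).map (Prod.map r id)
  refine ⟨fun l => a (l.map r), ?_⟩
  have h3 : ∀ ω, detCost a (r ∘ s) (((P ω).map (Prod.map r id)).map Prod.fst) =
      detCost (fun l => a (l.map r)) s ((P ω).map Prod.fst) := by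
    intro ω
    have h4 : (((P ω).map (Prod.map r id)).map Prod.fst).map Subtype.val = (P ω).map Prod.fst := by
      conv_rhs => rw [← h2 ω]
      simp only [List.map_map]
      rfl
    rw [← rmix_detCost_map hι hr, h1, h4]
  have h5 : ∀ ω, pathCost (r ∘ s) ((P ω).map (Prod.map r id)) = pathCost s (P ω) := fun ω => by
    rw [← rmix_pathCost_map hι, h1, h2]
  simpa only [h3, h5] using ha

/-- finite zero-sum games -/
theorem rmix_game {A B : Type*} [Fintype A] [Fintype B] [Nonempty A] (M : A → B → ℝ)
    (h : ∀ π ∈ stdSimplex ℝ B, ∃ a, ∑ b, π b * M a b ≤ 0) :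
    ∃ w ∈ stdSimplex ℝ A, ∀ b, ∑ a, w a * M a b ≤ 0 := by
  classical
  by_contra hcon
  push Not at hcon
  let f : (A → ℝ) →ₗ[ℝ] (B → ℝ) →ₗ[ℝ] ℝ := Matrix.toLinearMap₂' ℝ (Matrix.of M)
  have hf : ∀ x y, f x y = ∑ a, ∑ b, x a * y b * M a b := fun x y => by
    simp only [f, Matrix.toLinearMap₂'_apply, Matrix.of_apply, smul_eq_mul, mul_assoc]
  obtain ⟨y, hy, h1⟩ := Sion.exists_lt_iInf_of_lt_iInf_of_finite (X := stdSimplex ℝ A)
    (Y := stdSimplex ℝ B) (f := fun x y => f x y)
    ⟨_, single_mem_stdSimplex ℝ (Classical.arbitrary A)⟩ (isCompact_stdSimplex ℝ A)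
    (fun y _ => (f.flip y).continuous_of_finiteDimensional.continuousOn.lowerSemicontinuousOn)
    (fun y _ => ((f.flip y).convexOn (convex_stdSimplex ℝ A)).quasiconvexOn)
    (convex_stdSimplex ℝ B)
    (fun x _ => (f x).continuous_of_finiteDimensional.continuousOn.upperSemicontinuousOn)
    (fun x _ => ((f x).concaveOn (convex_stdSimplex ℝ B)).quasiconcaveOn)
    (convex_stdSimplex ℝ A) (s := Set.range fun b : B => Pi.single b (1 : ℝ)) (Set.finite_range _)
    (by rintro _ ⟨b, rfl⟩; exact single_mem_stdSimplex ℝ b) (t := 0) fun x hx => by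
      obtain ⟨b, hb⟩ := hcon x hx
      refine ⟨_, ⟨b, rfl⟩, ?_⟩
      simpa [hf, Pi.single_apply] using hb
  obtain ⟨a, ha⟩ := h y hy
  have h2 := h1 _ (single_mem_stdSimplex ℝ a)
  simp only [hf, Pi.single_apply, ite_mul, one_mul, zero_mul, sum_ite_irrel, sum_const_zero,
    sum_ite_eq', mem_univ, if_true] at h2
  linarith

theorem rmix_detCost_congr {X : Type u} [MetricSpace X] {k : ℕ} {a a' : List X → Fin k}
    (s : Fin k → X) {σ : List X} (h : ∀ t, a (σ.take t) = a' (σ.take t)) :
    detCost a s σ = detCost a' s σ := by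
  simp only [detCost, detChoices, h]

theorem mix_of_strictX (c : ℝ) (h : StrictX.{u} c) : MixStmt.{u} c := by
  classical
  intro k hk X _ s hs F
  let L : Finset (List X) := F.biUnion fun P => (P.map Prod.fst).inits.toFinset
  have : Nonempty (Fin k) := ⟨⟨0, by omega⟩⟩
  let ex : (L → Fin k) → List X → Fin k := fun g l =>
    if hl : l ∈ L then g ⟨l, hl⟩ else ⟨0, by omega⟩
  obtain ⟨w, hw, h1⟩ := rmix_game (A := L → Fin k) (B := F)
    (fun g P => detCost (ex g) s (P.1.map Prod.fst) - c * Real.log (k + 1) ^ 2 * pathCost s P.1)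
    fun π hπ => by
      obtain ⟨a, ha⟩ := h k hk X s hs F π hπ fun P => P.1
      refine ⟨fun l => a l.1, ?_⟩
      have h2 : ∀ P : F, detCost (ex fun l => a l.1) s (P.1.map Prod.fst) =
          detCost a s (P.1.map Prod.fst) := fun P => rmix_detCost_congr s fun t => by
        have h3 : (P.1.map Prod.fst).take t ∈ L := mem_biUnion.2 ⟨P.1, P.2, List.mem_toFinset.2
          ((List.mem_inits _ _).2 (List.take_prefix _ _))⟩
        exact dif_pos h3
      simp only [h2, mul_sub, sum_sub_distrib, mul_left_comm (π _), ← mul_sum]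
      linarith
  let e := (Fintype.equivFin (L → Fin k)).symm
  refine ⟨_, fun i => w (e i), fun i => ex (e i), ⟨fun i => hw.1 _, ?_⟩, fun P hP => ?_⟩
  · rw [e.sum_comp w]
    exact hw.2
  · have h2 := h1 ⟨P, hP⟩
    simp only [mul_sub, sum_sub_distrib, ← sum_mul, hw.2, one_mul] at h2
    rw [e.sum_comp fun g => w g * detCost (ex g) s (P.map Prod.fst)]
    linarith

end Crest.Agent.R314
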