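import Crest.Agent.R314.RDefs

/-!
# R314 part A — compactness, and non-injective starts

`policy_compact`: the probability tables form the closed subset `{p | ∀ reqs past, p reqs past ∈ stdSimplex}` of the
product space `List X → List (Fin k) → Fin k → ℝ`, compact by Tychonoff (`isCompact_univ_pi`,
`isCompact_stdSimplex`); for fixed `σ` the expected cost is a continuous function of the table (define the path
probability for raw tables); finite intersection property (`IsCompact.inter_iInter_nonempty` or
`IsCompact.nonempty_iInter_of_directed…`).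

`expCost_le_add`: the path probabilities of all choice sequences are non-negative and sum to one;
`pathCost_le_add`.
-/

set_option autoImplicit false

open Crest.LogicCS.KServer Finset

namespace Crest.Agent.R314

universe u

/-- path probability of a raw probability table -/
noncomputable def rawProb {X : Type u} {k : ℕ} (p : List X → List (Fin k) → Fin k → ℝ) :
    List X → List (Fin k) → List (X × Fin k) → ℝ
  | _, _, [] => 1
  | reqs, past, (r, i) :: rest =>
      p (reqs ++ [r]) past i * rawProb p (reqs ++ [r]) (past ++ [i]) rest

theorem rawProb_eq {X : Type u} {k : ℕ} (A : Policy X k) (reqs : List X) (past : List (Fin k))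
    (P : List (X × Fin k)) : rawProb A.prob reqs past P = pathProb A reqs past P := by
  induction P generalizing reqs past with
  | nil => rfl
  | cons a P ih =>
    obtain ⟨r, i⟩ := a
    simp only [rawProb, pathProb, ih]

theorem continuous_rawProb {X : Type u} {k : ℕ} (reqs : List X) (past : List (Fin k))
    (P : List (X × Fin k)) :
    Continuous fun p : List X → List (Fin k) → Fin k → ℝ => rawProb p reqs past P := by
  induction P generalizing reqs past with
  | nil => exact continuous_const
  | cons a P ih =>
    obtain ⟨r, i⟩ := a
    simp only [rawProb]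
    refine Continuous.mul ?_ (ih _ _)
    exact (continuous_apply i).comp ((continuous_apply past).comp (continuous_apply (reqs ++ [r])))

/-- expected cost of a raw probability table -/
noncomputable def rawCost {X : Type u} [MetricSpace X] {k : ℕ} (p : List X → List (Fin k) → Fin k → ℝ)
    (s : Fin k → X) (σ : List X) : ℝ :=
  ∑ j : Fin σ.length → Fin k,
    rawProb p [] [] (σ.zip (List.ofFn j)) * pathCost s (σ.zip (List.ofFn j))

theorem rawCost_eq {X : Type u} [MetricSpace X] {k : ℕ} (A : Policy X k) (s : Fin k → X) (σ : List X) :
    rawCost A.prob s σ = expCost A s σ := by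
  simp only [rawCost, expCost, rawProb_eq]

theorem continuous_rawCost {X : Type u} [MetricSpace X] {k : ℕ} (s : Fin k → X) (σ : List X) :
    Continuous fun p : List X → List (Fin k) → Fin k → ℝ => rawCost p s σ := by
  unfold rawCost
  exact continuous_finsetSum _ fun j _ => (continuous_rawProb _ _ _).mul continuous_const

theorem rt_pathProb_nonneg {X : Type u} {k : ℕ} (A : Policy X k) (reqs : List X) (past : List (Fin k))
    (P : List (X × Fin k)) : 0 ≤ pathProb A reqs past P := by
  induction P generalizing reqs past with
  | nil => exact zero_le_one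
  | cons a P ih =>
    obtain ⟨r, i⟩ := a
    exact mul_nonneg (A.prob_nonneg _ _ _) (ih _ _)

theorem rt_sum_pathProb {X : Type u} {k : ℕ} (A : Policy X k) (σ : List X) (reqs : List X)
    (past : List (Fin k)) :
    ∑ j : Fin σ.length → Fin k, pathProb A reqs past (σ.zip (List.ofFn j)) = 1 := by
  induction σ generalizing reqs past with
  | nil => simp [pathProb]
  | cons r σ ih =>
    have e : ∑ j : Fin (r :: σ).length → Fin k, pathProb A reqs past ((r :: σ).zip (List.ofFn j)) =
        ∑ x : Fin k × (Fin σ.length → Fin k),
          A.prob (reqs ++ [r]) past x.1 *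
            pathProb A (reqs ++ [r]) (past ++ [x.1]) (σ.zip (List.ofFn x.2)) := by
      refine (Fintype.sum_equiv (Fin.consEquiv fun _ : Fin (σ.length + 1) => Fin k) _ _ ?_).symm
      rintro ⟨i, j⟩
      change _ = pathProb A reqs past ((r :: σ).zip
        (List.ofFn (Fin.cons i j : Fin (σ.length + 1) → Fin k)))
      rw [List.ofFn_succ]
      simp [pathProb]
    rw [e, Fintype.sum_prod_type]
    simp only [← mul_sum, ih, mul_one]
    exact A.prob_sum _ _

theorem policy_compact {X : Type u} [MetricSpace X] {k : ℕ} (s : Fin k → X) (b : List (X × Fin k) → ℝ)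
    (h : ∀ F : Finset (List (X × Fin k)), ∃ A : Policy X k, ∀ P ∈ F, expCost A s (P.map Prod.fst) ≤ b P) :
    ∃ A : Policy X k, ∀ P : List (X × Fin k), expCost A s (P.map Prod.fst) ≤ b P := by
  classical
  set K : Set (List X → List (Fin k) → Fin k → ℝ) :=
    Set.pi Set.univ fun _ => Set.pi Set.univ fun _ => stdSimplex ℝ (Fin k) with hK
  have hKc : IsCompact K :=
    isCompact_univ_pi fun _ => isCompact_univ_pi fun _ => isCompact_stdSimplex ℝ (Fin k)
  set C : List (X × Fin k) → Set (List X → List (Fin k) → Fin k → ℝ) :=
    fun P => {p | rawCost p s (P.map Prod.fst) ≤ b P} with hC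
  have hCc : ∀ P, IsClosed (C P) := fun P =>
    isClosed_le (continuous_rawCost s _) continuous_const
  have hne : (K ∩ ⋂ P, C P).Nonempty := by
    refine hKc.inter_iInter_nonempty C hCc fun F => ?_
    obtain ⟨A, hA⟩ := h F
    refine ⟨A.prob, ?_, ?_⟩
    · intro reqs _ past _
      exact ⟨A.prob_nonneg reqs past, A.prob_sum reqs past⟩
    · simp only [Set.mem_iInter]
      intro P hP
      change rawCost A.prob s (P.map Prod.fst) ≤ b P
      rw [rawCost_eq]
      exact hA P hP
  obtain ⟨p, hpK, hpC⟩ := hne
  refine ⟨⟨p, fun reqs past i => (hpK reqs trivial past trivial).1 i,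
    fun reqs past => (hpK reqs trivial past trivial).2⟩, fun P => ?_⟩
  rw [← rawCost_eq]
  exact Set.mem_iInter.1 hpC P

theorem expCost_le_add {X : Type u} [MetricSpace X] {k : ℕ} (A : Policy X k) (s s' : Fin k → X)
    (σ : List X) : expCost A s σ ≤ expCost A s' σ + ∑ a, dist (s a) (s' a) := by
  have h1 := rt_sum_pathProb A σ [] []
  calc expCost A s σ
      ≤ ∑ j : Fin σ.length → Fin k, pathProb A [] [] (σ.zip (List.ofFn j)) *
          (pathCost s' (σ.zip (List.ofFn j)) + ∑ a, dist (s a) (s' a)) :=
        sum_le_sum fun j _ =>
          mul_le_mul_of_nonneg_left (pathCost_le_add _ _ _) (rt_pathProb_nonneg _ _ _ _)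
    _ = expCost A s' σ + ∑ a, dist (s a) (s' a) := by
        simp only [mul_add, sum_add_distrib, ← sum_mul, h1, one_mul, expCost]

end Crest.Agent.R314
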