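import Crest.Agent.R314.RRep
import Crest.Agent.R314.RMix
import Crest.Agent.R314.RKuhn
import Crest.Agent.R314.RTych

/-!
# R314 part A — from the Bayesian statement to the result
-/

set_option autoImplicit false

open Crest.LogicCS.KServer Finset

namespace Crest.Agent.R314

universe u

theorem result_of_bayes (C : ℝ) (h : BayesStmt.{u} C) :
    ∃ C : ℝ, ∀ (k : ℕ), 2 ≤ k → ∀ (X : Type u) [MetricSpace X], Nonempty (Fin (k + 1) ↪ X) →
      ∀ s : Fin k → X, ∃ (A : Policy X k) (B : ℝ), 0 ≤ B ∧ (Function.Injective s → B = 0) ∧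
        ∀ (σ : List X) (j : Fin σ.length → Fin k),
          expCost A s σ ≤ C * Real.log (k + 1) ^ 2 * pathCost s (σ.zip (List.ofFn j)) + B := by
  classical
  have hm := mix_of_strictX _ (strictX_of_strict _ (strict_of_bayes C h))
  refine ⟨2 * max C 0, fun k hk X _ ⟨e⟩ s => ?_⟩
  set c := 2 * max C 0 * Real.log (k + 1) ^ 2 with hc
  have hc0 : 0 ≤ c := mul_nonneg (mul_nonneg zero_le_two (le_max_right _ _)) (sq_nonneg _)
  have key : ∀ s' : Fin k → X, Function.Injective s' → ∃ A : Policy X k, ∀ (σ : List X)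
      (j : Fin σ.length → Fin k), expCost A s' σ ≤ c * pathCost s' (σ.zip (List.ofFn j)) := by
    intro s' hs'
    obtain ⟨A, hA⟩ := policy_compact s' (fun P => c * pathCost s' P) fun F => by
      obtain ⟨m, w, a, hw, ha⟩ := hm k hk X s' hs' F
      obtain ⟨A, hA⟩ := kuhn (by omega) w hw a
      exact ⟨A, fun P hP => by rw [hA]; exact ha P hP⟩
    refine ⟨A, fun σ j => ?_⟩
    have := hA (σ.zip (List.ofFn j))
    rwa [List.map_fst_zip (by simp)] at this
  by_cases hs : Function.Injective s
  · obtain ⟨A, hA⟩ := key s hs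
    exact ⟨A, 0, le_rfl, fun _ => rfl, fun σ j => by simpa using hA σ j⟩
  · let s' : Fin k → X := fun i => e i.castSucc
    obtain ⟨A, hA⟩ := key s' (e.injective.comp (Fin.castSucc_injective k))
    have h0 : 0 ≤ ∑ a, dist (s a) (s' a) := sum_nonneg fun _ _ => dist_nonneg
    refine ⟨A, (c + 1) * ∑ a, dist (s a) (s' a), by positivity, fun h => absurd h hs, fun σ j => ?_⟩
    have h1 := expCost_le_add A s s' σ
    have h2 := hA σ j
    have h3 := pathCost_le_add s' s (σ.zip (List.ofFn j))
    simp only [dist_comm (s' _)] at h3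
    have h4 := mul_le_mul_of_nonneg_left h3 hc0
    nlinarith

end Crest.Agent.R314
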