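import Crest.Agent.R314.Defs

/-! # Sums over the nodes of the label tree (row 314) -/

set_option autoImplicit false

open Finset

namespace Crest.Agent.R314

universe u

variable {Lab : Type u} [Fintype Lab]

/-- inner nodes -/
noncomputable def inner (Lab : Type u) [Fintype Lab] (J : ℕ) : Finset (List Lab) :=
  (nodes Lab J).filter fun v => v.length < J

lemma mem_inner {J : ℕ} {v : List Lab} : v ∈ inner Lab J ↔ v.length < J := by
  simp only [inner, mem_filter, mem_nodes]
  omega

/-- weight of the edges from `v` to its children -/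
noncomputable def wc {Lab : Type u} (J : ℕ) (v : List Lab) : ℝ := 2048 ^ (J - (v.length + 1))

omit [Fintype Lab] in
lemma wt_cons (J : ℕ) (b : Lab) (v : List Lab) : wt J (b :: v) = wc J v := by
  simp [wt, wc]

omit [Fintype Lab] in
lemma wt_eq_wc {J : ℕ} {v : List Lab} (h : v.length < J) : wt J v = 2048 * wc J v := by
  unfold wt wc
  rw [← pow_succ']
  congr 1
  omega

omit [Fintype Lab] in
lemma wt_pos (J : ℕ) (v : List Lab) : 0 < wt J v := by unfold wt; positivity

omit [Fintype Lab] in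
lemma wc_pos (J : ℕ) (v : List Lab) : 0 < wc J v := by unfold wc; positivity

lemma sum_nodes [DecidableEq Lab] (J : ℕ) (f : List Lab → ℝ) :
    ∑ c ∈ nodes Lab J, f c = f [] + ∑ v ∈ inner Lab J, ∑ b, f (b :: v) := by
  have h1 : nodes Lab J = insert [] ((inner Lab J ×ˢ (univ : Finset Lab)).image
      fun p => p.2 :: p.1) := by
    ext c
    simp only [mem_nodes, mem_insert, mem_image, mem_product, mem_inner, mem_univ, and_true,
      Prod.exists]
    constructor
    · intro hc
      cases c with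
      | nil => exact Or.inl rfl
      | cons b v => exact Or.inr ⟨v, b, by simpa using hc, rfl⟩
    · rintro (rfl | ⟨v, b, hv, rfl⟩)
      · simp
      · simpa using hv
  rw [h1, sum_insert (by simp), sum_image, sum_product]
  rintro ⟨v, b⟩ _ ⟨v', b'⟩ _ h
  simp only [List.cons.injEq] at h
  simp [h.1, h.2]

lemma sum_nodes_wt [DecidableEq Lab] (J : ℕ) (X : List Lab → ℝ) (h0 : X [] = 0) :
    ∑ c ∈ nodes Lab J, wt J c * X c = ∑ v ∈ inner Lab J, wc J v * ∑ b, X (b :: v) := by
  rw [sum_nodes, h0, mul_zero, zero_add]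
  refine sum_congr rfl fun v _ => ?_
  rw [mul_sum]
  exact sum_congr rfl fun b _ => by rw [wt_cons]

lemma sum_inner_le (J : ℕ) (X : List Lab → ℝ) (hX : ∀ v : List Lab, v.length ≤ J → 0 ≤ X v) :
    2048 * ∑ v ∈ inner Lab J, wc J v * X v ≤ ∑ c ∈ nodes Lab J, wt J c * X c := by
  rw [mul_sum]
  calc ∑ v ∈ inner Lab J, 2048 * (wc J v * X v) = ∑ v ∈ inner Lab J, wt J v * X v :=
        sum_congr rfl fun v hv => by rw [wt_eq_wc (mem_inner.1 hv)]; ring
    _ ≤ _ := sum_le_sum_of_subset_of_nonneg (filter_subset _ _) fun c hc _ =>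
        mul_nonneg (wt_pos _ _).le (hX c (mem_nodes.1 hc))

/-- geometric summation down the tree -/
lemma geom_tree [DecidableEq Lab] (J : ℕ) (X E : List Lab → ℝ) (α : ℝ) (hα : 0 ≤ α)
    (h0 : X [] = 0) (hX : ∀ v : List Lab, v.length ≤ J → 0 ≤ X v)
    (hrec : ∀ v : List Lab, v.length < J → ∑ b, X (b :: v) ≤ α * X v + E v) :
    (1 - α / 2048) * ∑ c ∈ nodes Lab J, wt J c * X c ≤ ∑ v ∈ inner Lab J, wc J v * E v := by
  have h1 := sum_nodes_wt J X h0
  have h2 := sum_inner_le J X hX
  have h3 : ∑ v ∈ inner Lab J, wc J v * ∑ b, X (b :: v) ≤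
      α * ∑ v ∈ inner Lab J, wc J v * X v + ∑ v ∈ inner Lab J, wc J v * E v := by
    rw [mul_sum, ← sum_add_distrib]
    refine sum_le_sum fun v hv => ?_
    have := mul_le_mul_of_nonneg_left (hrec v (mem_inner.1 hv)) (wc_pos J v).le
    linarith
  have h4 : α * ∑ v ∈ inner Lab J, wc J v * X v ≤
      α / 2048 * ∑ c ∈ nodes Lab J, wt J c * X c := by
    have := mul_le_mul_of_nonneg_left h2 (div_nonneg hα (by norm_num : (0 : ℝ) ≤ 2048))
    calc α * ∑ v ∈ inner Lab J, wc J v * X v
        = α / 2048 * (2048 * ∑ v ∈ inner Lab J, wc J v * X v) := by ring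
      _ ≤ _ := this
  linarith

end Crest.Agent.R314
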