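import Crest.Agent.R314.Round
import Crest.Agent.R314.Nodes

/-! # Rounding on the whole tree (row 314) -/

set_option autoImplicit false

open Finset

namespace Crest.Agent.R314

universe u

theorem rndf_floor {x y : ℝ} (hx : 0 ≤ x) (hy : 0 ≤ y) :
    |((⌊x⌋₊ : ℕ) : ℝ) - (⌊y⌋₊ : ℕ)| ≤ |x - y| + 1 := by
  have h1 := Nat.floor_le hx
  have h2 := Nat.floor_le hy
  have h3 := Nat.lt_floor_add_one x
  have h4 := Nat.lt_floor_add_one y
  have h5 := le_abs_self (x - y)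
  have h6 := neg_abs_le (x - y)
  exact abs_le.2 ⟨by linarith, by linarith⟩

/-- columns defined by recursion down the tree -/
def rndfCol {Lab : Type u} {Q : ℕ} (k : ℕ) (F : List Lab → (Fin Q → ℕ) → Fin Q → Lab → ℕ) :
    List Lab → Fin Q → ℕ
  | [] => fun _ => k
  | b :: v => fun θ => F v (rndfCol k F v) θ b

/-- Define the new columns by recursion on the list: `col [] = fun _ => k`,
`col (b :: v) = fun θ => F v (col v) θ b`, where `F v c'` is (by `Classical.choose`, totalised with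
`dite`) the matrix of `round_star` for `M θ b = n θ (b :: v)`, `c θ = n θ v`, `t b = ⌊Q z' (b :: v)⌋₊`;
induction on `v` gives `Bal (col v)` and `∑ θ, col v θ = ⌊Q z' v⌋₊` for `v.length ≤ J`
(`∑_b ⌊Q z' (b :: v)⌋₊ ≤ ⌊Q z' v⌋₊` by `Feas.super`, `Nat.le_floor`).  With
`X v = ∑ θ, |n' θ v - n θ v|`, `round_star` and `|⌊x⌋₊ - ⌊y⌋₊| ≤ |x - y| + 1` give
`∑_b X (b :: v) ≤ 2 X v + 3 ∑_b (Q |Δz (b :: v)| + 1)`; apply `geom_tree` (`α = 2`) and `sum_nodes`.
`C = 4` works. -/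
theorem roundStmt : ∃ C : ℝ, RoundStmt.{u} C := by
  refine ⟨4, ?_⟩
  intro k Lab _ _ J Q hQ z z' hz hz' n hn
  have hQ0 : (0 : ℝ) ≤ Q := Nat.cast_nonneg _
  have key : ∀ (v : List Lab) (c' : Fin Q → ℕ), ∃ M' : Fin Q → Lab → ℕ, v.length < J → Bal c' →
      ∑ θ, c' θ = ⌊(Q : ℝ) * z' v⌋₊ →
      (∀ b, Bal fun θ => M' θ b) ∧ (∀ b, ∑ θ, M' θ b = ⌊(Q : ℝ) * z' (b :: v)⌋₊) ∧
      (∀ θ, ∑ b, M' θ b ≤ c' θ) ∧
      mdist (fun θ b => n θ (b :: v)) M' ≤
        3 * ∑ b, |((⌊(Q : ℝ) * z' (b :: v)⌋₊ : ℕ) : ℝ) - (∑ θ, n θ (b :: v) : ℕ)| +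
          2 * ∑ θ, |(c' θ : ℝ) - n θ v| := by
    intro v c'
    by_cases h : v.length < J ∧ Bal c' ∧ ∑ θ, c' θ = ⌊(Q : ℝ) * z' v⌋₊
    · obtain ⟨hv, hc, hs⟩ := h
      obtain ⟨M', hM'⟩ := round_star (fun θ b => n θ (b :: v))
        (fun b => hn.bal (b :: v) hv) (fun θ => n θ v) (fun θ => hn.super θ v hv) c' hc
        (fun b => ⌊(Q : ℝ) * z' (b :: v)⌋₊) (by
          rw [hs]
          refine Nat.le_floor ?_
          push_cast
          calc ∑ b, ((⌊(Q : ℝ) * z' (b :: v)⌋₊ : ℕ) : ℝ) ≤ ∑ b, (Q : ℝ) * z' (b :: v) :=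
                sum_le_sum fun b _ => Nat.floor_le (mul_nonneg hQ0 (hz'.nonneg (b :: v) hv))
            _ ≤ Q * z' v := by
                rw [← mul_sum]
                exact mul_le_mul_of_nonneg_left (hz'.super v hv) hQ0)
      exact ⟨M', fun _ _ _ => hM'⟩
    · exact ⟨fun _ _ => 0, fun h1 h2 h3 => absurd ⟨h1, h2, h3⟩ h⟩
  choose F hF using key
  have hcol : ∀ v : List Lab, v.length ≤ J →
      Bal (rndfCol k F v) ∧ ∑ θ, rndfCol k F v θ = ⌊(Q : ℝ) * z' v⌋₊ := by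
    intro v
    induction v with
    | nil =>
      intro _
      refine ⟨fun _ _ => Nat.le_succ _, ?_⟩
      rw [hz'.root, ← Nat.cast_mul, Nat.floor_natCast]
      simp [rndfCol]
    | cons b v ih =>
      intro hv
      have hv' : v.length < J := hv
      obtain ⟨h1, h2⟩ := ih hv'.le
      obtain ⟨a1, a2, -, -⟩ := hF v _ hv' h1 h2
      exact ⟨a1 b, a2 b⟩
  refine ⟨fun θ v => rndfCol k F v θ, ⟨fun _ => rfl, fun θ v hv => ?_, fun v hv => (hcol v hv).2,
    fun v hv => (hcol v hv).1⟩, ?_⟩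
  · exact (hF v _ hv (hcol v hv.le).1 (hcol v hv.le).2).2.2.1 θ
  · have h1 := geom_tree J (fun v => ∑ θ, |(rndfCol k F v θ : ℝ) - n θ v|)
      (fun v => 3 * ∑ b, (Q * |z' (b :: v) - z (b :: v)| + 1)) 2 (by norm_num)
      (by simp [rndfCol, hn.root]) (fun v _ => sum_nonneg fun _ _ => abs_nonneg _) fun v hv => by
        have h2 := (hF v _ hv (hcol v hv.le).1 (hcol v hv.le).2).2.2.2
        have h3 : ∑ b, |((⌊(Q : ℝ) * z' (b :: v)⌋₊ : ℕ) : ℝ) - (∑ θ, n θ (b :: v) : ℕ)| ≤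
            ∑ b, (Q * |z' (b :: v) - z (b :: v)| + 1) := by
          refine sum_le_sum fun b _ => ?_
          rw [hn.avg (b :: v) hv]
          refine (rndf_floor (mul_nonneg hQ0 (hz'.nonneg (b :: v) hv))
            (mul_nonneg hQ0 (hz.nonneg (b :: v) hv))).trans_eq ?_
          rw [← mul_sub, abs_mul, abs_of_nonneg hQ0]
        have h4 : ∑ b, ∑ θ, |(rndfCol k F (b :: v) θ : ℝ) - n θ (b :: v)| =
            mdist (fun θ b => n θ (b :: v)) (F v (rndfCol k F v)) := by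
          rw [sum_comm]
          rfl
        rw [h4]
        linarith
    have h5 := sum_nodes J fun v : List Lab => wt J v * (Q * |z' v - z v| + 1)
    have h6 : ∑ v ∈ inner Lab J, wc J v * (3 * ∑ b, (Q * |z' (b :: v) - z (b :: v)| + 1)) =
        3 * ∑ v ∈ inner Lab J, ∑ b, wt J (b :: v) * (Q * |z' (b :: v) - z (b :: v)| + 1) := by
      rw [mul_sum]
      refine sum_congr rfl fun v _ => ?_
      simp only [wt_cons, ← mul_sum]
      ring
    have h7 : 0 ≤ wt J ([] : List Lab) * (Q * |z' [] - z []| + 1) :=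
      mul_nonneg (wt_pos _ _).le (by positivity)
    have h8 : 0 ≤ ∑ v ∈ inner Lab J, ∑ b, wt J (b :: v) * (Q * |z' (b :: v) - z (b :: v)| + 1) :=
      sum_nonneg fun v _ => sum_nonneg fun b _ => mul_nonneg (wt_pos _ _).le (by positivity)
    rw [sum_comm]
    simp only [← mul_sum]
    rw [h6] at h1
    rw [h5]
    linarith

end Crest.Agent.R314
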