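import Crest.Agent.R314.TMove

/-! # Propagation of parameter changes down the tree (row 314, part B) -/

set_option autoImplicit false
set_option linter.unusedSectionVars false

open Finset

namespace Crest.Agent.R314.T

universe u

variable {Lab : Type u} [Fintype Lab] [DecidableEq Lab] {k : ℕ} {β β' : Base Lab k} {Γ : ℝ}
  {J : ℕ} {s : Prof Lab k} {gh gh' : List Lab → ℝ}

/-- indicator of a change -/
noncomputable def chg (x y : ℝ) : ℝ := if x = y then 0 else 1

lemma chg_nonneg (x y : ℝ) : 0 ≤ chg x y := by unfold chg; split_ifs <;> norm_num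

lemma dirty_chi_cases (v : List Lab) :
    (|β'.chi v - β.chi v| = 0 ∧ (β'.act v ↔ β.act v)) ∨ |β'.chi v - β.chi v| = 1 := by
  by_cases h1 : β.act v <;> by_cases h2 : β'.act v <;>
    simp [Base.chi, h1, h2]

lemma dirty_act_iff {v : List Lab} {b : Lab} (h1 : β'.act v ↔ β.act v)
    (h2 : β'.nh (b :: v) = β.nh (b :: v)) : β'.act (b :: v) ↔ β.act (b :: v) := by
  simp only [Base.act, h1, h2]

lemma dirty_chi_cons (v : List Lab) (b : Lab) :
    |β'.chi (b :: v) - β.chi (b :: v)| ≤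
      |β'.chi v - β.chi v| + chg (β'.nh (b :: v)) (β.nh (b :: v)) := by
  have h0 : |β'.chi (b :: v) - β.chi (b :: v)| ≤ 1 := by
    rcases dirty_chi_cases (β := β) (β' := β') (b :: v) with h | h
    · rw [h.1]; exact zero_le_one
    · exact h.le
  have h1 := chg_nonneg (β'.nh (b :: v)) (β.nh (b :: v))
  have h2 := abs_nonneg (β'.chi v - β.chi v)
  rcases dirty_chi_cases (β := β) (β' := β') v with h | h
  · by_cases e : β'.nh (b :: v) = β.nh (b :: v)
    · have := dirty_act_iff h.2 e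
      have e2 : β'.chi (b :: v) = β.chi (b :: v) := by
        by_cases ha : β.act (b :: v)
        · rw [β.chi_of_act ha, β'.chi_of_act (this.2 ha)]
        · rw [β.chi_of_not ha, β'.chi_of_not fun h => ha (this.1 h)]
      rw [e2, sub_self, abs_zero]; linarith
    · have : chg (β'.nh (b :: v)) (β.nh (b :: v)) = 1 := if_neg e
      linarith
  · linarith

lemma dirty_lam_cons (v : List Lab) (b : Lab) :
    |β'.lam Γ (b :: v) - β.lam Γ (b :: v)| ≤
      |β'.lam Γ v - β.lam Γ v| + 12 * |β'.th Γ b v - β.th Γ b v| := by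
  have h1 := abs_min_sub_min_le_max (1 : ℝ) (β'.lam Γ v + 12 * β'.th Γ b v) 1
    (β.lam Γ v + 12 * β.th Γ b v)
  simp only [sub_self, abs_zero] at h1
  rw [max_eq_right (abs_nonneg _)] at h1
  refine h1.trans ?_
  have : β'.lam Γ v + 12 * β'.th Γ b v - (β.lam Γ v + 12 * β.th Γ b v) =
      (β'.lam Γ v - β.lam Γ v) + 12 * (β'.th Γ b v - β.th Γ b v) := by ring
  rw [this]
  refine (abs_add_le _ _).trans (le_of_eq ?_)
  rw [abs_mul]; norm_num

lemma dirty_th_light {v : List Lab} {b : Lab} (h1 : b ≠ β.h v) (h2 : b ≠ β'.h v)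
    (hle : |β'.th Γ b v - β.th Γ b v| ≤ 1) :
    |β'.th Γ b v - β.th Γ b v| ≤ |β'.chi v - β.chi v| + chg (β'.nh (b :: v)) (β.nh (b :: v)) +
      chg (β'.mh v) (β.mh v) := by
  have t1 := chg_nonneg (β'.nh (b :: v)) (β.nh (b :: v))
  have t2 := chg_nonneg (β'.mh v) (β.mh v)
  have t3 := abs_nonneg (β'.chi v - β.chi v)
  by_cases e1 : β'.nh (b :: v) = β.nh (b :: v)
  · by_cases e2 : β'.mh v = β.mh v
    · rcases dirty_chi_cases (β := β) (β' := β') v with h | h
      · have ha := dirty_act_iff h.2 e1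
        have e3 : β'.th Γ b v = β.th Γ b v := by
          by_cases hb : b ∈ β.lt v
          · have hb' : b ∈ β'.lt v := β'.mem_lt.2 ⟨h2, ha.2 (β.mem_lt.1 hb).2⟩
            rw [β'.th_of_lt hb', β.th_of_lt hb, Base.u, Base.u, e1, e2]
          · have hb' : b ∉ β'.lt v := fun hb' => hb (β.mem_lt.2 ⟨h1, ha.1 (β'.mem_lt.1 hb').2⟩)
            rw [β'.th_of_not h2 hb', β.th_of_not h1 hb]
        rw [e3, sub_self, abs_zero]; linarith
      · linarith
    · have : chg (β'.mh v) (β.mh v) = 1 := if_neg e2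
      linarith
  · have : chg (β'.nh (b :: v)) (β.nh (b :: v)) = 1 := if_neg e1
    linarith

lemma dirty_chg_nh (h' : β'.AccB s) (hs : s ∈ cube Lab k) (hst : StepB β β' s) (c : List Lab) :
    chg (β'.nh c) (β.nh c) * sq (s c) ≤ 5 / 2 * |β'.nh c - β.nh c| := by
  unfold chg
  split_ifs with e
  · have := abs_nonneg (β'.nh c - β.nh c)
    linarith
  · have h1 := ((hst.nh c).resolve_left e).2.1
    have h2 := (near_sq_le (h'.a01 c) (hs c) (h'.near c)).2
    unfold Base.n at h1
    linarith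

lemma dirty_sum_m (h' : β'.AccB s) (hs : s ∈ cube Lab k) (v : List Lab) :
    ∑ b, sq (s (b :: v)) ≤ 5 / 4 * β'.nb v := by
  rw [Base.nb, mul_sum]
  exact sum_le_sum fun b _ => (near_sq_le (h'.a01 _) (hs _) (h'.near _)).2

lemma dirty_chg_mh (h' : β'.AccB s) (hs : s ∈ cube Lab k) (hst : StepB β β' s) (v : List Lab) :
    chg (β'.mh v) (β.mh v) * ∑ b, sq (s (b :: v)) ≤ 5 / 2 * |β'.mh v - β.mh v| := by
  unfold chg
  split_ifs with e
  · have := abs_nonneg (β'.mh v - β.mh v)
    linarith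
  · have h1 := ((hst.mh v).resolve_left e).2
    have h2 := dirty_sum_m h' hs v
    linarith

/-- change of the budget of the heavy child -/
lemma dirty_sigma (hu : β.UOK J) (h' : β'.AccB s) (hst : StepB β β' s)
    {v : List Lab} (hv : v.length < J) (hh : β'.h v = β.h v) {m : ℝ} (hm0 : 0 ≤ m)
    (hm : m ≤ 5 / 4 * β'.nb v) :
    |∑ b ∈ β'.lt v, β'.u b v - ∑ b ∈ β.lt v, β.u b v| * m ≤
      5 / 2 * |β'.mh v - β.mh v| + 5 / 2 * ∑ b, |β'.nh (b :: v) - β.nh (b :: v)| +
        2 * (|β'.chi v - β.chi v| * m) := by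
  have hu' := h'.uok J
  have t1 := abs_nonneg (β'.mh v - β.mh v)
  have t2 : 0 ≤ ∑ b, |β'.nh (b :: v) - β.nh (b :: v)| := sum_nonneg fun _ _ => abs_nonneg _
  have t3 : 0 ≤ |β'.chi v - β.chi v| * m := mul_nonneg (abs_nonneg _) hm0
  have s0 : 0 ≤ ∑ b ∈ β.lt v, β.u b v := sum_nonneg fun b hb => (hu.u_pos v hv b hb).le
  have s0' : 0 ≤ ∑ b ∈ β'.lt v, β'.u b v := sum_nonneg fun b hb => (hu'.u_pos v hv b hb).le
  have s1 := hu.u_sum v hv
  have s1' := hu'.u_sum v hv
  have hle : |∑ b ∈ β'.lt v, β'.u b v - ∑ b ∈ β.lt v, β.u b v| ≤ 1 := by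
    rw [abs_le]; constructor <;> linarith
  have hle' := mul_le_mul_of_nonneg_right hle hm0
  rcases hst.mh v with e | e
  swap
  · linarith [e.2]
  rcases dirty_chi_cases (β := β) (β' := β') v with hc | hc
  swap
  · rw [hc] at *; linarith
  have h1 : ∑ b ∈ β'.lt v, β'.u b v - ∑ b ∈ β.lt v, β.u b v =
      ∑ b, ((if b ∈ β'.lt v then β'.u b v else 0) - (if b ∈ β.lt v then β.u b v else 0)) := by
    rw [sum_sub_distrib, sum_ite_mem, sum_ite_mem, univ_inter, univ_inter]
  have h2 : ∀ b, |(if b ∈ β'.lt v then β'.u b v else 0) - (if b ∈ β.lt v then β.u b v else 0)| * m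
      ≤ 5 / 2 * |β'.nh (b :: v) - β.nh (b :: v)| := by
    intro b
    have t4 := abs_nonneg (β'.nh (b :: v) - β.nh (b :: v))
    rcases hst.nh (b :: v) with e1 | e1
    · have ha := dirty_act_iff hc.2 e1
      have hm : b ∈ β'.lt v ↔ b ∈ β.lt v := by rw [β'.mem_lt, β.mem_lt, hh, ha]
      have : β'.u b v = β.u b v := by rw [Base.u, Base.u, e1, e]
      simp only [hm, this, sub_self, abs_zero, zero_mul]
      linarith
    · have hmm : m ≤ 5 / 2 * β'.mh v := by linarith [(h'.mh v).2]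
      have a1 : 0 ≤ (if b ∈ β'.lt v then β'.u b v else 0) ∧
          (if b ∈ β'.lt v then β'.u b v else 0) * m ≤
            5 / 4 * |β'.nh (b :: v) - β.nh (b :: v)| := by
        split_ifs with hb
        · refine ⟨(hu'.u_pos v hv b hb).le, ?_⟩
          have hp := hu'.mh_pos hv hb
          have := mul_le_mul_of_nonneg_left hmm (hu'.u_pos v hv b hb).le
          have e2 : β'.u b v * (5 / 2 * β'.mh v) = 5 / 8 * β'.nh (b :: v) := by
            unfold Base.u; field_simp; ring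
          linarith [e1.1, e1.2.1]
        · exact ⟨le_rfl, by linarith⟩
      have a2 : 0 ≤ (if b ∈ β.lt v then β.u b v else 0) ∧
          (if b ∈ β.lt v then β.u b v else 0) * m ≤
            5 / 4 * |β'.nh (b :: v) - β.nh (b :: v)| := by
        split_ifs with hb
        · refine ⟨(hu.u_pos v hv b hb).le, ?_⟩
          have hp := hu.mh_pos hv hb
          rw [e] at hmm
          have := mul_le_mul_of_nonneg_left hmm (hu.u_pos v hv b hb).le
          have e2 : β.u b v * (5 / 2 * β.mh v) = 5 / 8 * β.nh (b :: v) := by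
            unfold Base.u; field_simp; ring
          linarith [e1.2.2]
        · exact ⟨le_rfl, by linarith⟩
      have a3 : |(if b ∈ β'.lt v then β'.u b v else 0) - (if b ∈ β.lt v then β.u b v else 0)| ≤
          (if b ∈ β'.lt v then β'.u b v else 0) + (if b ∈ β.lt v then β.u b v else 0) := by
        rw [abs_le]; constructor <;> linarith [a1.1, a2.1]
      have := mul_le_mul_of_nonneg_right a3 hm0
      linarith [a1.2, a2.2]
  have h3 : |∑ b ∈ β'.lt v, β'.u b v - ∑ b ∈ β.lt v, β.u b v| * m ≤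
      5 / 2 * ∑ b, |β'.nh (b :: v) - β.nh (b :: v)| := by
    rw [h1, mul_sum]
    refine (mul_le_mul_of_nonneg_right (abs_sum_le_sum_abs _ _) hm0).trans ?_
    rw [sum_mul]
    exact sum_le_sum fun b _ => h2 b
  linarith

theorem TM_le (hΓ : 1000 ≤ Γ) (h : β.Good Γ J gh) (hg' : β'.Good Γ J gh') (h' : β'.AccB s)
    (hs : IsProf J s) (hst : StepB β β' s) {v : List Lab} (hv : v.length < J) :
    TM Γ β β' s v ≤ 15 * (Tt Γ β β' v * sq (s v)) + 70 * Ev β β' v := by
  have hΓ0 : 0 < Γ := by linarith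
  set X := |β'.chi v - β.chi v| with hX
  set Λ := |β'.lam Γ v - β.lam Γ v| with hΛ
  set M := |β'.mh v - β.mh v| with hM
  set H := ∑ b, |β'.nh (b :: v) - β.nh (b :: v)| with hH
  set S := β'.n (β'.h v :: v) - β'.n (β.h v :: v) with hS
  have hX0 : 0 ≤ X := abs_nonneg _
  have hΛ0 : 0 ≤ Λ := abs_nonneg _
  have hM0 : 0 ≤ M := abs_nonneg _
  have hH0 : 0 ≤ H := sum_nonneg fun _ _ => abs_nonneg _
  have hS0 : 0 ≤ S := by
    rcases hst.h v with e | e
    · rw [hS, e, sub_self]
    · linarith [β'.n_nonneg (β.h v :: v)]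
  have hsup := sq_super hs hv
  have hm0 : ∀ b, 0 ≤ sq (s (b :: v)) := fun b => sq_nonneg' _
  have hmv : ∀ b, sq (s (b :: v)) ≤ sq (s v) := fun b =>
    (single_le_sum (f := fun b => sq (s (b :: v))) (fun b _ => hm0 b) (mem_univ b)).trans hsup
  have hmn : ∀ b, sq (s (b :: v)) ≤ 5 / 4 * β'.n (b :: v) := fun b =>
    (near_sq_le (h'.a01 _) (hs.mem _) (h'.near _)).2
  have hθ1 : ∀ b, |β'.th Γ b v - β.th Γ b v| ≤ 1 := by
    intro b
    have a1 := h.th_le_one (by linarith) hv b
    have a2 := hg'.th_le_one (by linarith) hv b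
    have a3 := h.uok.th_nonneg hΓ0 hv b
    have a4 := hg'.uok.th_nonneg hΓ0 hv b
    rw [abs_le]; constructor <;> linarith
  set Q := 30 * S + M + H + X * sq (s v) with hQ
  have hXm : 0 ≤ X * sq (s v) := mul_nonneg hX0 (sq_nonneg' _)
  have hQ0 : 0 ≤ Q := by positivity
  -- the heavy children
  have hheavy : ∀ b, (b = β.h v ∨ b = β'.h v) →
      12 * (|β'.th Γ b v - β.th Γ b v| * sq (s (b :: v))) ≤ Q := by
    intro b hb
    rcases hst.h v with e | e
    · have hb' : b = β.h v := by rcases hb with hb | hb; exacts [hb, hb.trans e]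
      have h1 := dirty_sigma h.uok h' hst hv e (hm0 b)
        ((hmn b).trans (by linarith [β'.n_le_nb v b]))
      have h2 : |β'.th Γ b v - β.th Γ b v| =
          |∑ b ∈ β'.lt v, β'.u b v - ∑ b ∈ β.lt v, β.u b v| / Γ := by
        have e1 : β'.th Γ b v = (∑ b ∈ β'.lt v, β'.u b v) / Γ := by
          rw [hb', ← e, β'.th_h]
        have e2 : β.th Γ b v = (∑ b ∈ β.lt v, β.u b v) / Γ := by rw [hb', β.th_h]
        rw [e1, e2, ← sub_div, abs_div, abs_of_pos hΓ0]
      have h3 : |∑ b ∈ β'.lt v, β'.u b v - ∑ b ∈ β.lt v, β.u b v| / Γ ≤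
          |∑ b ∈ β'.lt v, β'.u b v - ∑ b ∈ β.lt v, β.u b v| / 1000 :=
        div_le_div_of_nonneg_left (abs_nonneg _) (by norm_num) hΓ
      have h4 := mul_le_mul_of_nonneg_right h3 (hm0 b)
      have h5 := mul_le_mul_of_nonneg_left (hmv b) hX0
      rw [h2]
      rw [← hX, ← hM, ← hH] at h1
      have h6 : |∑ b ∈ β'.lt v, β'.u b v - ∑ b ∈ β.lt v, β.u b v| / 1000 * sq (s (b :: v)) =
          |∑ b ∈ β'.lt v, β'.u b v - ∑ b ∈ β.lt v, β.u b v| * sq (s (b :: v)) / 1000 := by ring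
      linarith
    · have h1 := mul_le_mul_of_nonneg_right (hθ1 b) (hm0 b)
      have h2 : β'.n (b :: v) ≤ 2 * S := by
        rcases hb with hb | hb <;> rw [hb] <;> linarith [β'.n_nonneg (β.h v :: v)]
      linarith [hmn b]
  have hone : ∀ b, Tt Γ β β' (b :: v) * sq (s (b :: v)) ≤
      (Λ + 13 * X) * sq (s (b :: v)) + 33 * |β'.nh (b :: v) - β.nh (b :: v)| +
        12 * (chg (β'.mh v) (β.mh v) * sq (s (b :: v))) +
        ((if b = β.h v then Q else 0) + (if b = β'.h v then Q else 0)) := by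
    intro b
    have h1 := dirty_chi_cons (β := β) (β' := β') v b
    have h2 := dirty_lam_cons (β := β) (β' := β') (Γ := Γ) v b
    have h3 := dirty_chg_nh h' hs.mem hst (b :: v)
    have h4 : Tt Γ β β' (b :: v) ≤ Λ + X + chg (β'.nh (b :: v)) (β.nh (b :: v)) +
        12 * |β'.th Γ b v - β.th Γ b v| := by unfold Tt; linarith
    have h5 := mul_le_mul_of_nonneg_right h4 (hm0 b)
    have t1 : 0 ≤ (if b = β.h v then Q else 0) := by split_ifs <;> linarith
    have t2 : 0 ≤ (if b = β'.h v then Q else 0) := by split_ifs <;> linarith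
    have t3 := mul_nonneg (chg_nonneg (β'.mh v) (β.mh v)) (hm0 b)
    have t4 := mul_nonneg hX0 (hm0 b)
    have t5 := abs_nonneg (β'.nh (b :: v) - β.nh (b :: v))
    by_cases e1 : b = β.h v
    · have := hheavy b (Or.inl e1)
      rw [if_pos e1]
      nlinarith
    · by_cases e2 : b = β'.h v
      · have := hheavy b (Or.inr e2)
        rw [if_pos e2]
        nlinarith
      · have h6 := mul_le_mul_of_nonneg_right (dirty_th_light e1 e2 (hθ1 b)) (hm0 b)
        nlinarith
  have hsum := sum_le_sum fun b (_ : b ∈ univ) => hone b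
  rw [sum_add_distrib, sum_add_distrib, sum_add_distrib, sum_add_distrib, ← mul_sum, ← mul_sum,
    ← mul_sum, ← mul_sum] at hsum
  simp only [sum_ite_eq', mem_univ, if_true] at hsum
  have h7 := dirty_chg_mh h' hs.mem hst v
  have h8 := mul_le_mul_of_nonneg_left hsup (by positivity : 0 ≤ Λ + 13 * X)
  have h9 := mul_nonneg hΛ0 (sq_nonneg' (s v))
  unfold TM Ev
  have e1 : Tt Γ β β' v = Λ + X := rfl
  rw [e1, ← hH, ← hM, ← hS]
  rw [← hH] at hsum
  rw [← hM] at h7
  nlinarith

end Crest.Agent.R314.T
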