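import Crest.Agent.R314.TDefs

/-! # Allocation at one node and the ratio potential (row 314, part B) -/

set_option autoImplicit false

open Finset

namespace Crest.Agent.R314.T

/-- From `|g - y| ≤ θ/7 (max g y + δ)`, `0 ≤ θ ≤ 1`: first `|g - y| ≤ θ/6 (y + δ)` (if `g ≥ y` then
`(g - y)(1 - θ/7) ≤ θ/7 (y + δ)`), then the three bounds. -/
theorem star_one {θ δ g y : ℝ} (hθ0 : 0 ≤ θ) (hθ1 : θ ≤ 1) (hδ : 0 ≤ δ) (hy : 0 ≤ y)
    (hg : |g - y| ≤ θ / 7 * (max g y + δ)) :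
    max 0 ((1 + θ / 2) * g - θ * δ) ≤ (1 + θ) * y ∧
    (1 + θ / 4) * y - 2 * (θ * δ) ≤ max 0 ((1 + θ / 2) * g - θ * δ) ∧
    g ≤ 7 / 6 * y + δ / 6 := by
  have key : |g - y| ≤ θ / 6 * (y + δ) := by
    have h0 : 0 ≤ θ * (y + δ) := by positivity
    rcases le_total g y with h | h
    · rw [max_eq_right h] at hg
      linarith
    · rw [max_eq_left h] at hg
      rw [abs_of_nonneg (sub_nonneg.2 h)] at hg ⊢
      nlinarith [mul_le_mul_of_nonneg_right hθ1 (sub_nonneg.2 h)]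
  obtain ⟨h1, h2⟩ := abs_le.1 key
  have h3 : 0 ≤ θ * y := by positivity
  have h4 : 0 ≤ θ * δ := by positivity
  have h5 : θ * (θ * (y + δ)) ≤ 1 * (θ * (y + δ)) :=
    mul_le_mul_of_nonneg_right hθ1 (by positivity)
  have h6 : 0 ≤ 1 + θ / 2 := by positivity
  refine ⟨max_le (by positivity) ?_, le_max_of_le_right ?_, ?_⟩
  · nlinarith [mul_le_mul_of_nonneg_left h2 h6]
  · nlinarith [mul_le_mul_of_nonneg_left h1 h6]
  · nlinarith [mul_le_mul_of_nonneg_right hθ1 (add_nonneg hy hδ)]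

/-- Allocation of the deficiency `D`.  With `T = ∑ Λ`, `y b = Λ b / T` (if `T = 0` then `D = 0` and
all `y b = 0`): `D * gl b ≤ T (1+θ b) y b`; `∑_{b ∈ L} y b ≤ 1`;
`T (1 - ∑ gl) ≤ T - ∑_L (1 + θ b/4) Λ b + θh T / 4 = Λ h (1 + θh/4) + ∑_L (θh/4 - θ b/4) Λ b`
using `T = Λ h + ∑_L Λ b`. -/
theorem star_alloc {ι : Type*} [Fintype ι] [DecidableEq ι] (L : Finset ι) (h : ι) (hh : h ∉ L)
    (Λ θ δ g : ι → ℝ) (D θh : ℝ) (hΛ : ∀ b, 0 ≤ Λ b) (hΛ0 : ∀ b, b ∉ L → b ≠ h → Λ b = 0)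
    (hD0 : 0 ≤ D) (hD : D ≤ ∑ b, Λ b) (hθh : 0 ≤ θh) (hθ : ∀ b ∈ L, θh ≤ θ b ∧ θ b ≤ 1)
    (hδ : ∀ b ∈ L, 0 ≤ δ b) (hδs : ∑ b ∈ L, δ b ≤ 1 / 8) (hθδ : ∑ b ∈ L, θ b * δ b ≤ θh / 8)
    (hg : ∀ b ∈ L, |g b - Λ b / ∑ b', Λ b'| ≤ θ b / 7 * (max (g b) (Λ b / ∑ b', Λ b') + δ b))
    (gl : ι → ℝ)
    (hgl : ∀ b, gl b = if b ∈ L then max 0 ((1 + θ b / 2) * g b - θ b * δ b) else 0) :
    (∀ b ∈ L, D * gl b ≤ (1 + θ b) * Λ b) ∧ D * max 0 (1 - ∑ b, gl b) ≤ (1 + θh) * Λ h ∧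
      ∑ b ∈ L, g b ≤ 2 ∧ ∑ b, gl b ≤ 2 := by
  set T := ∑ b, Λ b with hT
  have hT0 : 0 ≤ T := hD0.trans hD
  have hy : ∀ b, 0 ≤ Λ b / T := fun b => div_nonneg (hΛ b) hT0
  have hTy : ∀ b, T * (Λ b / T) = Λ b := fun b => by
    rcases hT0.eq_or_lt with h0 | h0
    · rw [← h0, zero_mul]
      exact ((sum_eq_zero_iff_of_nonneg fun b _ => hΛ b).1 h0.symm b (mem_univ b)).symm
    · field_simp
  have hTs : T = Λ h + ∑ b ∈ L, Λ b := by
    rw [← sum_insert hh]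
    refine (sum_subset (subset_univ _) fun b _ hb => ?_).symm
    rw [mem_insert, not_or] at hb
    exact hΛ0 b hb.2 hb.1
  have hys : ∑ b ∈ L, Λ b / T ≤ 1 := by
    rw [← sum_div]
    exact div_le_one_of_le₀ (by linarith [hΛ h]) hT0
  have hs := fun b (hb : b ∈ L) =>
    star_one (hθh.trans (hθ b hb).1) (hθ b hb).2 (hδ b hb) (hy b) (hg b hb)
  have hgl' : ∀ b ∈ L, gl b = max 0 ((1 + θ b / 2) * g b - θ b * δ b) := fun b hb => by
    rw [hgl, if_pos hb]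
  have hsum : ∑ b, gl b = ∑ b ∈ L, gl b :=
    (sum_subset (subset_univ _) fun b _ hb => by rw [hgl, if_neg hb]).symm
  refine ⟨fun b hb => ?_, ?_, ?_, ?_⟩
  · have h1 := (hs b hb).1
    rw [← hgl' b hb] at h1
    have h2 : 0 ≤ gl b := hgl' b hb ▸ le_max_left _ _
    calc D * gl b ≤ T * ((1 + θ b) * (Λ b / T)) := mul_le_mul hD h1 h2 hT0
      _ = (1 + θ b) * Λ b := by rw [mul_left_comm, hTy]
  · have h1 : ∑ b ∈ L, ((1 + θh / 4) * Λ b - 2 * T * (θ b * δ b)) ≤ ∑ b ∈ L, T * gl b := by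
      refine sum_le_sum fun b hb => ?_
      have h2 := mul_le_mul_of_nonneg_left (hs b hb).2.1 hT0
      rw [← hgl' b hb, mul_sub, mul_left_comm, hTy] at h2
      have h3 := mul_le_mul_of_nonneg_right (hθ b hb).1 (hΛ b)
      linarith
    rw [sum_sub_distrib, ← mul_sum, ← mul_sum, ← mul_sum, ← hsum] at h1
    have h2 := mul_le_mul_of_nonneg_left hθδ hT0
    have h3 := mul_nonneg hθh (hΛ h)
    have h4 : ∑ b ∈ L, Λ b = T - Λ h := by linarith
    rw [h4] at h1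
    refine (mul_le_mul_of_nonneg_right hD (le_max_left _ _)).trans ?_
    rw [mul_max_of_nonneg _ _ hT0]
    refine max_le ?_ ?_
    · rw [mul_zero]
      exact mul_nonneg (by linarith) (hΛ h)
    · linarith
  · have h1 : ∑ b ∈ L, g b ≤ ∑ b ∈ L, (7 / 6 * (Λ b / T) + δ b / 6) :=
      sum_le_sum fun b hb => (hs b hb).2.2
    rw [sum_add_distrib, ← mul_sum, ← sum_div L δ] at h1
    linarith
  · have h1 : ∑ b ∈ L, gl b ≤ ∑ b ∈ L, 2 * (Λ b / T) := by
      refine sum_le_sum fun b hb => ?_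
      rw [hgl' b hb]
      exact (hs b hb).1.trans (mul_le_mul_of_nonneg_right (by linarith [(hθ b hb).2]) (hy b))
    rw [← mul_sum] at h1
    linarith

/-- `a log (a/b) - a + b ≥ (a-b)² / (2 max a b)` for `a, b > 0`.  (E.g. with `t = b/a`:
`-log t - 1 + t ≥ (1-t)²/2` for `t ≤ 1`, and `≥ (t-1)²/(2t)` for `t ≥ 1`; use
`Real.log_le_sub_one_of_pos`-type series bounds or monotonicity of the difference via `deriv`;
for `t ≥ 1` the claim is `log t ≤ (t - 1/t)/2`, i.e. `Real.log_le_...sinh`: `x ≤ sinh x`.) -/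
theorem kl_quad {a b : ℝ} (ha : 0 < a) (hb : 0 < b) :
    (a - b) ^ 2 / (2 * max a b) ≤ a * Real.log (a / b) - a + b := by
  rcases le_total b a with h | h
  · rw [max_eq_left h]
    have h1 := Real.le_log_one_add_of_nonneg (div_nonneg (sub_nonneg.2 h) hb.le)
    have e1 : 1 + (a - b) / b = a / b := by field_simp; ring
    have e2 : 2 * ((a - b) / b) / ((a - b) / b + 2) = 2 * (a - b) / (a + b) := by
      have : (a - b) / b + 2 = (a + b) / b := by field_simp; ring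
      rw [this]
      field_simp
    rw [e1, e2] at h1
    have h2 := mul_le_mul_of_nonneg_left h1 ha.le
    have h3 : (a - b) ^ 2 / (2 * a) ≤ (a - b) ^ 2 / (a + b) :=
      div_le_div_of_nonneg_left (sq_nonneg _) (by positivity) (by linarith)
    have e3 : (a - b) ^ 2 / (a + b) = a * (2 * (a - b) / (a + b)) - a + b := by
      field_simp
      ring
    linarith
  · rw [max_eq_right h]
    have h1 := Real.self_le_sinh_iff.2 (Real.log_nonneg ((one_le_div ha).2 h))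
    rw [Real.sinh_log (div_pos hb ha)] at h1
    have h2 := mul_le_mul_of_nonneg_left h1 ha.le
    have e1 : Real.log (a / b) = -Real.log (b / a) := by rw [← Real.log_inv, inv_div]
    have e2 : (a - b) ^ 2 / (2 * b) = -(a * ((b / a - (b / a)⁻¹) / 2)) - a + b := by
      field_simp
      ring
    rw [e1, e2]
    linarith

/-- moving an inaccurate tracker onto `y = Λb / T` gains `(100/14) T |g - y|`:
`Pt g - Pt y = 100/θ * T * ((y+δ) log ((y+δ)/(g+δ)) - (y+δ) + (g+δ))`. -/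
theorem Pt_gain {θ δ g Λb T : ℝ} (hθ : 0 < θ) (hδ : 0 < δ) (hg : 0 ≤ g) (hΛ : 0 ≤ Λb)
    (hT : Λb ≤ T) (hin : θ / 7 * (max g (Λb / T) + δ) ≤ |g - Λb / T|) :
    Pt θ δ (Λb / T) Λb T + 7 * T * |g - Λb / T| ≤ Pt θ δ g Λb T := by
  have hT0 : 0 ≤ T := hΛ.trans hT
  rcases hT0.eq_or_lt with h0 | h0
  · subst h0
    have : Λb = 0 := le_antisymm hT hΛ
    simp [Pt, this]
  obtain ⟨y, rfl⟩ : ∃ y, Λb = T * y := ⟨Λb / T, by field_simp⟩
  have hy : 0 ≤ y := by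
    by_contra hn
    push Not at hn
    linarith [mul_neg_of_pos_of_neg h0 hn]
  rw [mul_div_cancel_left₀ y h0.ne'] at hin ⊢
  have h1 := kl_quad (a := y + δ) (b := g + δ) (by positivity) (by positivity)
  rw [max_add_add_right, max_comm y g] at h1
  have hm : 0 < max g y + δ := add_pos_of_nonneg_of_pos (hg.trans (le_max_left _ _)) hδ
  have h2 : θ / 14 * |g - y| ≤ (y + δ - (g + δ)) ^ 2 / (2 * (max g y + δ)) := by
    rw [le_div_iff₀ (by positivity), show y + δ - (g + δ) = -(g - y) by ring, neg_sq, ← sq_abs]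
    nlinarith [mul_le_mul_of_nonneg_right hin (abs_nonneg (g - y))]
  have e : Pt θ δ g (T * y) T = Pt θ δ y (T * y) T + 100 / θ * T *
      ((y + δ) * Real.log ((y + δ) / (g + δ)) - (y + δ) + (g + δ)) := by
    unfold Pt
    rw [Real.log_div two_ne_zero (by positivity), Real.log_div two_ne_zero (by positivity),
      Real.log_div (by positivity) (by positivity)]
    ring
  have h3 := mul_le_mul_of_nonneg_left (h2.trans h1) (show 0 ≤ 100 / θ * T by positivity)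
  have e2 : 100 / θ * T * (θ / 14 * |g - y|) = 100 / 14 * (T * |g - y|) := by field_simp
  have h4 : 0 ≤ T * |g - y| := by positivity
  rw [e]
  linarith

/-- lower bound: the logarithm is nonnegative as `g + δ ≤ 2`, and `1/θ ≥ 1` -/
theorem Pt_lower {θ δ g Λb T : ℝ} (hθ : 0 < θ) (hθ1 : θ ≤ 1) (hδ : 0 < δ) (hδ1 : δ ≤ 1)
    (hg : g ∈ Set.Icc (0 : ℝ) 1) (hΛ : 0 ≤ Λb) (hT : 0 ≤ T) : 100 * (T * g) ≤ Pt θ δ g Λb T := by
  have h0 := hg.1
  have h1 : 0 ≤ Real.log (2 / (g + δ)) :=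
    Real.log_nonneg ((one_le_div (by positivity)).2 (by linarith [hg.2]))
  have h2 : 100 ≤ 100 / θ := by
    rw [le_div_iff₀ hθ]
    linarith
  unfold Pt
  exact mul_le_mul h2 (le_add_of_nonneg_left (by positivity)) (by positivity) (by positivity)

/-- `log (2/(g+δ)) ≤ log (16/u²) ≤ 3 (1 - log u)` (`log 16 ≤ 3`) -/
theorem log_coef {Γ u g : ℝ} (hΓ : 0 < Γ) (hu : 0 < u) (hu1 : u ≤ 1) (hg : 0 ≤ g) :
    100 / ((1 - Real.log u) / Γ) * Real.log (2 / (g + u ^ 2 / 8)) ≤ 300 * Γ ∧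
      100 / ((1 - Real.log u) / Γ) ≤ 100 * Γ := by
  have h1 : Real.log u ≤ 0 := Real.log_nonpos hu.le hu1
  have hL : 0 < 1 - Real.log u := by linarith
  have h2 : Real.log (2 / (g + u ^ 2 / 8)) ≤ 3 * (1 - Real.log u) := by
    have h3 : 2 / (g + u ^ 2 / 8) ≤ 2 ^ 4 / u ^ 2 := by
      rw [div_le_div_iff₀ (by positivity) (by positivity)]
      linarith
    have h4 := Real.log_le_log (by positivity) h3
    rw [Real.log_div (x := 2 ^ 4) (by positivity) (by positivity), Real.log_pow, Real.log_pow] at h4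
    have h5 := Real.log_two_lt_d9
    push_cast at h4
    linarith
  constructor
  · refine (mul_le_mul_of_nonneg_left h2 (by positivity)).trans_eq ?_
    field_simp
    ring
  · rw [div_div_eq_mul_div]
    exact div_le_self (by positivity) (by linarith)

/-- upper bound after a reset -/
theorem Pt_upper {Γ u Λb T : ℝ} (hΓ : 0 < Γ) (hu : 0 < u) (hu1 : u ≤ 1) (hΛ : 0 ≤ Λb)
    (hT : Λb ≤ T) :
    Pt ((1 - Real.log u) / Γ) (u ^ 2 / 8) (Λb / T) Λb T ≤
      100 * Γ * (4 * Λb + 3 * (u ^ 2 / 8 * T)) := by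
  have hT0 : 0 ≤ T := hΛ.trans hT
  obtain ⟨h1, h2⟩ := log_coef hΓ hu hu1 (div_nonneg hΛ hT0)
  have h3 : T * (Λb / T) ≤ Λb := by
    rcases hT0.eq_or_lt with h0 | h0
    · rw [← h0, zero_mul]
      exact hΛ
    · exact (mul_div_cancel₀ _ h0.ne').le
  have h4 := mul_le_mul_of_nonneg_right h1 (show 0 ≤ Λb + u ^ 2 / 8 * T by positivity)
  have h5 := mul_le_mul h2 h3 (by positivity) (by positivity)
  unfold Pt
  linarith

/-- `u (1 - log u) ≤ 1` -/
theorem mul_one_sub_log_le {u : ℝ} (hu : 0 < u) : u * (1 - Real.log u) ≤ 1 := by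
  have h := mul_le_mul_of_nonneg_left (Real.one_sub_inv_le_log_of_pos hu) hu.le
  rw [mul_sub, mul_inv_cancel₀ hu.ne'] at h
  linarith

end Crest.Agent.R314.T
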