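import Crest.Agent.R314.TMove
import Crest.Agent.R314.TStar

/-! # The ratio potential pays for the movement of the shares (row 314, part B) -/

set_option autoImplicit false
set_option linter.unusedSectionVars false

open Finset

namespace Crest.Agent.R314.T

universe u

variable {Lab : Type u} [Fintype Lab] [DecidableEq Lab] {k : ℕ} {β β' : Base Lab k} {Γ : ℝ}
  {J : ℕ} {s : Prof Lab k} {gh gh' : List Lab → ℝ}

lemma pn_abs_max_sub (x y : ℝ) : |max 0 x - max 0 y| ≤ |x - y| := by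
  have := abs_max_sub_max_le_max (0 : ℝ) x 0 y
  simpa using this

lemma pn_gam_le (v : List Lab) :
    ∑ b, |β'.gam Γ gh' v b - β.gam Γ gh v b| ≤ 2 * ∑ b, |β'.gl Γ gh' v b - β.gl Γ gh v b| +
      if β'.h v = β.h v then 0 else 2 * max 0 (1 - ∑ b, β'.gl Γ gh' v b) := by
  set r := max 0 (1 - ∑ b, β.gl Γ gh v b) with hr
  set r' := max 0 (1 - ∑ b, β'.gl Γ gh' v b) with hr'
  have hr0 : 0 ≤ r := le_max_left _ _
  have hr0' : 0 ≤ r' := le_max_left _ _
  have h1 : |r' - r| ≤ ∑ b, |β'.gl Γ gh' v b - β.gl Γ gh v b| := by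
    refine (pn_abs_max_sub _ _).trans ?_
    have : 1 - ∑ b, β'.gl Γ gh' v b - (1 - ∑ b, β.gl Γ gh v b) =
        -∑ b, (β'.gl Γ gh' v b - β.gl Γ gh v b) := by rw [sum_sub_distrib]; ring
    rw [this, abs_neg]
    exact abs_sum_le_sum_abs _ _
  have h2 : ∑ b, |β'.gam Γ gh' v b - β.gam Γ gh v b| ≤
      ∑ b, |β'.gl Γ gh' v b - β.gl Γ gh v b| +
        ∑ b, |(if b = β'.h v then r' else 0) - (if b = β.h v then r else 0)| := by
    rw [← sum_add_distrib]
    refine sum_le_sum fun b _ => ?_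
    unfold Base.gam
    rw [← hr, ← hr']
    refine le_trans (le_of_eq ?_) (abs_add_le _ _)
    congr 1; ring
  split_ifs with hh
  · have : ∑ b, |(if b = β'.h v then r' else 0) - (if b = β.h v then r else 0)| = |r' - r| := by
      rw [hh, sum_eq_single (β.h v)]
      · simp
      · intro b _ hb; simp [hb]
      · simp
    linarith
  · have : ∑ b, |(if b = β'.h v then r' else 0) - (if b = β.h v then r else 0)| ≤ r' + r := by
      calc _ ≤ ∑ b, ((if b = β'.h v then r' else 0) + (if b = β.h v then r else 0)) := by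
            refine sum_le_sum fun b _ => (abs_sub _ _).trans (le_of_eq ?_)
            rw [abs_of_nonneg (by split_ifs <;> simp [hr0']),
              abs_of_nonneg (by split_ifs <;> simp [hr0])]
        _ = r' + r := by simp [sum_add_distrib]
    have h3 := neg_abs_le (r' - r)
    linarith

lemma pn_th_kept {v : List Lab} {b : Lab} (hk : Kept β β' v b) :
    β'.th Γ b v = β.th Γ b v ∧ β'.del b v = β.del b v := by
  refine ⟨?_, ?_⟩
  · rw [β'.th_of_lt hk.2.1, β.th_of_lt hk.1, hk.2.2]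
  · unfold Base.del; rw [hk.2.2]

lemma pn_gl_le (hΓ : 1000 ≤ Γ) (h : β.Good Γ J gh) {v : List Lab} (hv : v.length < J) {b : Lab}
    (hb : b ∈ β.lt v) : β.gl Γ gh v b ≤ 3 / 2 * gh (b :: v) := by
  have hΓ0 : 0 < Γ := by linarith
  have h1 := h.th_le v hv b hb
  have h2 := h.uok.th_pos hΓ0 hv hb
  have h3 := h.uok.del_pos hv hb
  have h4 := (h.gh01 v hv b hb).1
  unfold Base.gl
  rw [if_pos hb]
  refine max_le (by linarith) ?_
  nlinarith [mul_pos h2 h3]

open Classical in
lemma pn_one (hΓ : 1000 ≤ Γ) (h : β.Good Γ J gh) (h' : β'.AccB s)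
    (hsg : StepG Γ β β' gh gh' s) {v : List Lab} (hv : v.length < J)
    (hi : β'.Inv Γ gh' s v) (b : Lab) :
    (if b ∈ β'.lt v then Pt (β'.th Γ b v) (β'.del b v) (gh' (b :: v)) (β'.Lam Γ s v b)
        (∑ b', β'.Lam Γ s v b') else 0) -
      (if b ∈ β.lt v then Pt (β.th Γ b v) (β.del b v) (gh (b :: v)) (β'.Lam Γ s v b)
        (∑ b', β'.Lam Γ s v b') else 0) +
      4 * (β'.D Γ gh' v * |β'.gl Γ gh' v b - β.gl Γ gh v b|) ≤
    if b ∈ β'.lt v ∧ ¬ Kept β β' v b then 1201 * Γ * β'.n (b :: v) else 0 := by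
  have hΓ0 : 0 < Γ := by linarith
  set T := ∑ b', β'.Lam Γ s v b' with hT
  have hΛ0 := hi.Lam_nonneg b
  have hΛT : β'.Lam Γ s v b ≤ T := single_le_sum (f := fun b => β'.Lam Γ s v b)
    (fun b _ => hi.Lam_nonneg b) (mem_univ b)
  have hT0 : 0 ≤ T := hΛ0.trans hΛT
  have hD0 := β'.D_nonneg (Γ := Γ) gh' v
  have hDT : β'.D Γ gh' v ≤ T := hi.D_le
  have hn0 := β'.n_nonneg (b :: v)
  have hgl0 := β.gl_nonneg (Γ := Γ) gh v b
  have hgl0' := β'.gl_nonneg (Γ := Γ) gh' v b
  -- the old term pays for the old share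
  have hold : 4 * (β'.D Γ gh' v * β.gl Γ gh v b) ≤
      (if b ∈ β.lt v then Pt (β.th Γ b v) (β.del b v) (gh (b :: v)) (β'.Lam Γ s v b) T else 0) := by
    split_ifs with hb
    · have h1 := Pt_lower (h.uok.th_pos hΓ0 hv hb) (h.th_le v hv b hb) (h.uok.del_pos hv hb)
        ((h.uok.del_le hv hb).trans (by linarith [h.uok.u_le hv hb])) (h.gh01 v hv b hb) hΛ0 hT0
      have h2 := pn_gl_le hΓ h hv hb
      have h3 := (h.gh01 v hv b hb).1
      have h4 : β'.D Γ gh' v * β.gl Γ gh v b ≤ T * (3 / 2 * gh (b :: v)) :=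
        mul_le_mul hDT h2 hgl0 hT0
      nlinarith [mul_nonneg hT0 h3]
    · rw [β.gl_of_not gh hb]; simp
  by_cases hb' : b ∈ β'.lt v
  · rw [if_pos hb']
    by_cases hk : Kept β β' v b
    · rw [if_pos hk.1, if_neg (show ¬ (b ∈ β'.lt v ∧ ¬ Kept β β' v b) from fun h => h.2 hk)]
      obtain ⟨e1, e2⟩ := pn_th_kept (Γ := Γ) hk
      have hθ1 := h.th_le v hv b hk.1
      have hθ0 := h.uok.th_pos hΓ0 hv hk.1
      have hgl : |β'.gl Γ gh' v b - β.gl Γ gh v b| ≤ 3 / 2 * |gh' (b :: v) - gh (b :: v)| := by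
        unfold Base.gl
        rw [if_pos hb', if_pos hk.1, e1, e2]
        refine (pn_abs_max_sub _ _).trans ?_
        have : (1 + β.th Γ b v / 2) * gh' (b :: v) - β.th Γ b v * β.del b v -
            ((1 + β.th Γ b v / 2) * gh (b :: v) - β.th Γ b v * β.del b v) =
            (1 + β.th Γ b v / 2) * (gh' (b :: v) - gh (b :: v)) := by ring
        rw [this, abs_mul, abs_of_pos (by linarith)]
        exact mul_le_mul_of_nonneg_right (by linarith) (abs_nonneg _)
      rcases hsg v b hb' with ⟨_, e3⟩ | ⟨e3, hin⟩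
      · rw [e3, sub_self, abs_zero, mul_zero] at hgl
        have : |β'.gl Γ gh' v b - β.gl Γ gh v b| = 0 := le_antisymm hgl (abs_nonneg _)
        rw [this, e1, e2, e3]; simp
      · have hin' := hin hk
        rw [e1, e2] at hin'
        have hgain := Pt_gain hθ0 (h.uok.del_pos hv hk.1) (h.gh01 v hv b hk.1).1 hΛ0 hΛT hin'
        rw [e1, e2, e3]
        rw [e3, abs_sub_comm (β'.yy Γ s v b)] at hgl
        have h4 : β'.D Γ gh' v * |β'.gl Γ gh' v b - β.gl Γ gh v b| ≤
            T * (3 / 2 * |gh (b :: v) - β'.yy Γ s v b|) := mul_le_mul hDT hgl (abs_nonneg _) hT0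
        have h5 : 0 ≤ T * |gh (b :: v) - β'.yy Γ s v b| := mul_nonneg hT0 (abs_nonneg _)
        unfold Base.yy at *
        rw [← hT] at *
        nlinarith
    · rw [if_pos (show b ∈ β'.lt v ∧ ¬ Kept β β' v b from ⟨hb', hk⟩)]
      have e3 : gh' (b :: v) = β'.yy Γ s v b := by
        rcases hsg v b hb' with ⟨hk', _⟩ | ⟨e3, _⟩
        · exact absurd hk' hk
        · exact e3
      have hu := h'.uok J
      have hup := Pt_upper hΓ0 (hu.u_pos v hv b hb') (hu.u_le hv hb') hΛ0 hΛT
      have hTle : T ≤ 2 * β'.nb v := by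
        rw [hT, Base.nb, mul_sum]; exact sum_le_sum fun b _ => hi.Lam_le b
      have hm := hu.mh_pos hv hb'
      have hδT : β'.u b v ^ 2 / 8 * T ≤ β'.n (b :: v) / 4 := by
        have h1 : β'.u b v ^ 2 / 8 ≤ β'.u b v / 8 := hu.del_le hv hb'
        have h2 : β'.u b v * T ≤ β'.nh (b :: v) := by
          have h3 : T ≤ 4 * β'.mh v := by linarith [(h'.mh v).2]
          calc β'.u b v * T ≤ β'.u b v * (4 * β'.mh v) :=
                mul_le_mul_of_nonneg_left h3 (hu.u_pos v hv b hb').le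
            _ = β'.nh (b :: v) := by unfold Base.u; field_simp
        have h4 := mul_le_mul_of_nonneg_right h1 hT0
        linarith [(h'.nh (b :: v)).1]
      have hnew : Pt (β'.th Γ b v) (β'.del b v) (gh' (b :: v)) (β'.Lam Γ s v b) T ≤
          875 * Γ * β'.n (b :: v) := by
        rw [β'.th_of_lt hb', e3]
        refine hup.trans ?_
        have := hi.Lam_le b
        nlinarith
      have h6 : |β'.gl Γ gh' v b - β.gl Γ gh v b| ≤ β'.gl Γ gh' v b + β.gl Γ gh v b := by
        rw [abs_le]; constructor <;> linarith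
      have h7 := mul_le_mul_of_nonneg_left h6 hD0
      have h8 := hi.gl_le b
      have h9 := hi.Lam_le b
      nlinarith [mul_le_mul_of_nonneg_right hΓ hn0]
  · rw [if_neg hb', if_neg (show ¬ (b ∈ β'.lt v ∧ ¬ Kept β β' v b) from fun h => hb' h.1),
      β'.gl_of_not gh' hb', zero_sub (β.gl Γ gh v b), abs_neg, abs_of_nonneg hgl0]
    linarith

open Classical in
lemma pn_reset (h' : β'.AccB s) (hs : s ∈ cube Lab k) (hst : StepB β β' s) (v : List Lab) :
    ∑ b, (if b ∈ β'.lt v ∧ ¬ Kept β β' v b then β'.n (b :: v) else 0) ≤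
      2 * Ev β β' v + 2 * TM Γ β β' s v := by
  set S := β'.n (β'.h v :: v) - β'.n (β.h v :: v) with hS
  have hS0 : (β'.h v = β.h v ∧ S = 0) ∨ (β'.n (β.h v :: v) ≤ S) := by
    rcases hst.h v with e | e
    · left; exact ⟨e, by rw [hS, e, sub_self]⟩
    · right; linarith
  have hS1 : 0 ≤ S := by
    rcases hS0 with e | e
    · exact e.2.ge
    · exact (β'.n_nonneg _).trans e
  have hone : ∀ b, (if b ∈ β'.lt v ∧ ¬ Kept β β' v b then β'.n (b :: v) else 0) ≤
      2 * |β'.nh (b :: v) - β.nh (b :: v)| + (if β'.mh v = β.mh v then 0 else β'.n (b :: v)) +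
        (if b = β.h v then S else 0) + 2 * (Tt Γ β β' (b :: v) * sq (s (b :: v))) := by
    intro b
    have hn0 := β'.n_nonneg (b :: v)
    have t1 : 0 ≤ |β'.nh (b :: v) - β.nh (b :: v)| := abs_nonneg _
    have t2 : 0 ≤ (if β'.mh v = β.mh v then 0 else β'.n (b :: v)) := by split_ifs <;> linarith
    have t3 : 0 ≤ (if b = β.h v then S else 0) := by split_ifs <;> linarith
    have t4 : 0 ≤ Tt Γ β β' (b :: v) * sq (s (b :: v)) :=
      mul_nonneg (add_nonneg (abs_nonneg _) (abs_nonneg _)) (sq_nonneg' _)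
    by_cases hc : b ∈ β'.lt v ∧ ¬ Kept β β' v b
    · rw [if_pos hc]
      obtain ⟨hb', hk⟩ := hc
      by_cases hb : b ∈ β.lt v
      · have hu : β'.u b v ≠ β.u b v := fun e => hk ⟨hb, hb', e⟩
        by_cases hm : β'.mh v = β.mh v
        · rcases hst.nh (b :: v) with e | e
          · exact absurd (by unfold Base.u; rw [e, hm]) hu
          · linarith [e.2.1]
        · rw [if_neg hm]; linarith
      · by_cases hh : b = β.h v
        · rw [if_pos hh]
          rcases hS0 with e | e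
          · exact absurd (hh.trans e.1.symm) (β'.mem_lt.1 hb').1
          · rw [← hh] at e; linarith
        · have hna : ¬ β.act (b :: v) := fun ha => hb (β.mem_lt.2 ⟨hh, ha⟩)
          have h1 : 1 ≤ Tt Γ β β' (b :: v) := by
            unfold Tt
            rw [β'.chi_of_act (β'.mem_lt.1 hb').2, β.chi_of_not hna]
            have := abs_nonneg (β'.lam Γ (b :: v) - β.lam Γ (b :: v))
            simp only [sub_zero, abs_one]
            linarith
          have h2 := (near_sq_le (h'.a01 (b :: v)) (hs (b :: v)) (h'.near (b :: v))).1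
          have h3 := mul_le_mul_of_nonneg_right h1 (sq_nonneg' (s (b :: v)))
          have h4 := sq_nonneg' (s (b :: v))
          unfold Base.n at *
          linarith
    · rw [if_neg hc]; linarith
  refine (sum_le_sum fun b _ => hone b).trans ?_
  rw [sum_add_distrib, sum_add_distrib, sum_add_distrib, ← mul_sum, ← mul_sum]
  have e1 : ∑ b, (if b = β.h v then S else 0) = S := by simp
  have e2 : ∑ b, (if β'.mh v = β.mh v then 0 else β'.n (b :: v)) ≤ 2 * |β'.mh v - β.mh v| := by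
    rcases hst.mh v with e | e
    · simp [e]
    · refine le_trans (sum_le_sum fun b _ => ?_) e.2
      split_ifs
      · exact β'.n_nonneg _
      · exact le_rfl
  unfold Ev TM
  rw [e1, ← hS]
  linarith

theorem Pn_step (hΓ : 1000 ≤ Γ) (h : β.Good Γ J gh) (h' : β'.AccB s) (hs : s ∈ cube Lab k)
    (hst : StepB β β' s) (hsg : StepG Γ β β' gh gh' s) {v : List Lab} (hv : v.length < J)
    (hi : β'.Inv Γ gh' s v) :
    β'.Pn Γ gh' v (β'.Lam Γ s v) - β.Pn Γ gh v (β'.Lam Γ s v) +
        2 * (β'.D Γ gh' v * ∑ b, |β'.gam Γ gh' v b - β.gam Γ gh v b|) ≤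
      Γ * (4805 * Ev β β' v + 2402 * TM Γ β β' s v) := by
  classical
  have hΓ0 : 0 < Γ := by linarith
  have hD0 := β'.D_nonneg (Γ := Γ) gh' v
  have h1 := mul_le_mul_of_nonneg_left (pn_gam_le (β := β) (β' := β') (Γ := Γ) (gh := gh)
    (gh' := gh') v) hD0
  have h2 := sum_le_sum fun b (_ : b ∈ univ) => pn_one hΓ h h' hsg hv hi b
  rw [sum_add_distrib, sum_sub_distrib, ← mul_sum, ← mul_sum, sum_ite_mem, sum_ite_mem,
    univ_inter, univ_inter] at h2
  have h3 : ∑ b, (if b ∈ β'.lt v ∧ ¬ Kept β β' v b then 1201 * Γ * β'.n (b :: v) else 0) =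
      1201 * Γ * ∑ b, (if b ∈ β'.lt v ∧ ¬ Kept β β' v b then β'.n (b :: v) else 0) := by
    rw [mul_sum]; exact sum_congr rfl fun b _ => by split_ifs <;> simp
  have h4 := mul_le_mul_of_nonneg_left (pn_reset (Γ := Γ) h' hs hst v)
    (by positivity : 0 ≤ 1201 * Γ)
  have hEv := Ev_nonneg hst v
  have h5 : β'.D Γ gh' v * (if β'.h v = β.h v then 0 else 2 * max 0 (1 - ∑ b, β'.gl Γ gh' v b)) ≤
      16 * Ev β β' v := by
    split_ifs with hh
    · linarith
    · have e1 := hi.rest_le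
      have e2 := hi.Lam_le (β'.h v)
      have e3 : 2 * β'.n (β.h v :: v) ≤ β'.n (β'.h v :: v) := (hst.h v).resolve_left hh
      have e4 : β'.n (β'.h v :: v) - β'.n (β.h v :: v) ≤ Ev β β' v := by
        unfold Ev
        have := sum_nonneg fun b (_ : b ∈ univ) => abs_nonneg (β'.nh (b :: v) - β.nh (b :: v))
        have := abs_nonneg (β'.mh v - β.mh v)
        linarith
      linarith
  have h6 := mul_le_mul_of_nonneg_right hΓ hEv
  unfold Base.Pn
  rw [h3] at h2
  nlinarith

end Crest.Agent.R314.T
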