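import Crest.Agent.R314.TBasic
import Crest.Agent.R314.TStar

/-! # Concavity, Lipschitz bound and boundedness of the potential (row 314, part B) -/

set_option autoImplicit false
set_option linter.unusedSectionVars false

open Finset

namespace Crest.Agent.R314.T

universe u

variable {Lab : Type u} [Fintype Lab] [DecidableEq Lab] {k : ℕ} {β : Base Lab k} {Γ : ℝ} {J : ℕ}
  {gh : List Lab → ℝ}

/-- `Pn` is linear in `Λ` with coefficients in `[0, 600 Γ]`. -/
theorem Pn_coef (hΓ : 0 < Γ) (h : β.Good Γ J gh) {v : List Lab} (hv : v.length < J) :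
    ∃ c : Lab → ℝ, (∀ b, c b ∈ Set.Icc 0 (600 * Γ)) ∧ ∀ Λ, β.Pn Γ gh v Λ = ∑ b, c b * Λ b := by
  have hu := h.uok
  set A : Lab → ℝ := fun b => 100 / β.th Γ b v * Real.log (2 / (gh (b :: v) + β.del b v)) with hA
  set B : Lab → ℝ := fun b => 100 / β.th Γ b v with hB
  have hb : ∀ b ∈ β.lt v, 0 ≤ A b ∧ A b ≤ 300 * Γ ∧ 0 ≤ B b ∧ B b ≤ 100 * Γ := by
    intro b hb
    have h1 := log_coef hΓ (hu.u_pos v hv b hb) (hu.u_le hv hb) (h.gh01 v hv b hb).1
    have h2 := hu.th_pos hΓ hv hb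
    have h3 := hu.del_pos hv hb
    have h4 := hu.del_le hv hb
    have h5 := hu.u_le hv hb
    have h6 := h.gh01 v hv b hb
    have h7 : 0 ≤ Real.log (2 / (gh (b :: v) + β.del b v)) := by
      refine Real.log_nonneg ?_
      rw [le_div_iff₀ (by linarith [h6.1])]
      linarith [h6.2]
    refine ⟨mul_nonneg (by positivity) h7, ?_, by positivity, ?_⟩
    · simp only [hA]; rw [β.th_of_lt hb]; exact h1.1
    · simp only [hB]; rw [β.th_of_lt hb]; exact h1.2
  set S := ∑ b ∈ β.lt v, (β.del b v * A b + B b * gh (b :: v)) with hS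
  have hS0 : 0 ≤ S := sum_nonneg fun b hb' => add_nonneg
    (mul_nonneg (hu.del_pos hv hb').le (hb b hb').1)
    (mul_nonneg (hb b hb').2.2.1 (h.gh01 v hv b hb').1)
  have hS1 : S ≤ 300 * Γ := by
    have h1 : S ≤ ∑ b ∈ β.lt v, (300 * Γ / 8 * β.u b v + 100 * Γ * gh (b :: v)) := by
      refine sum_le_sum fun b hb' => add_le_add ?_
        (mul_le_mul_of_nonneg_right (hb b hb').2.2.2 (h.gh01 v hv b hb').1)
      have := mul_le_mul (hu.del_le hv hb') (hb b hb').2.1 (hb b hb').1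
        (by linarith [hu.u_pos v hv b hb'])
      linarith
    rw [sum_add_distrib, ← mul_sum, ← mul_sum] at h1
    have h2 := mul_le_mul_of_nonneg_left (h.u_sum v hv) (by positivity : 0 ≤ 300 * Γ / 8)
    have h3 := mul_le_mul_of_nonneg_left (h.gh_sum v hv) (by positivity : 0 ≤ 100 * Γ)
    linarith
  refine ⟨fun b => (if b ∈ β.lt v then A b else 0) + S, fun b => ?_, fun Λ => ?_⟩
  · simp only [Set.mem_Icc]
    split_ifs with hb'
    · constructor <;> linarith [(hb b hb').1, (hb b hb').2.1]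
    · constructor <;> linarith
  · simp only [add_mul, sum_add_distrib, ite_mul, zero_mul, sum_ite_mem, univ_inter, ← mul_sum]
    rw [hS, sum_mul, ← sum_add_distrib]
    unfold Base.Pn Pt
    exact sum_congr rfl fun b _ => by simp only [hA, hB]; ring

theorem Pn_lip (hΓ : 0 < Γ) (h : β.Good Γ J gh) {v : List Lab} (hv : v.length < J)
    (Λ Λ' : Lab → ℝ) : β.Pn Γ gh v Λ' ≤ β.Pn Γ gh v Λ + 600 * Γ * ∑ b, |Λ' b - Λ b| := by
  obtain ⟨c, hc, e⟩ := Pn_coef hΓ h hv
  rw [e, e, mul_sum, ← sum_add_distrib]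
  refine sum_le_sum fun b _ => ?_
  have h1 := mul_le_mul_of_nonneg_left (le_abs_self (Λ' b - Λ b)) (hc b).1
  have h2 := mul_le_mul_of_nonneg_right (hc b).2 (abs_nonneg (Λ' b - Λ b))
  linarith

lemma cube_convex : Convex ℝ (cube Lab k) := by
  intro x hx y hy p q hp hq hpq v i
  have h1 := hx v i
  have h2 := hy v i
  simp only [Pi.add_apply, Pi.smul_apply, smul_eq_mul, Set.mem_Icc]
  constructor
  · exact add_nonneg (mul_nonneg hp h1.1) (mul_nonneg hq h2.1)
  · nlinarith [h1.2, h2.2]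

/-- `Lam` is concave in `s`, `An` is affine; the cube is convex. -/
theorem Phi_concave (hΓ : 0 < Γ) (h : β.Good Γ J gh) :
    ConcaveOn ℝ (cube Lab k) (β.Phi Γ J gh) := by
  refine ⟨cube_convex, fun x hx y hy p q hp hq hpq => ?_⟩
  simp only [smul_eq_mul]
  unfold Base.Phi
  rw [mul_sum, mul_sum, ← sum_add_distrib]
  refine sum_le_sum fun v hv => ?_
  have hv' := mem_inner.1 hv
  obtain ⟨c, hc, e⟩ := Pn_coef hΓ h hv'
  have hl := h.uok.lam_mem hΓ v hv'.le
  have h1 : p * β.Pn Γ gh v (β.Lam Γ x v) + q * β.Pn Γ gh v (β.Lam Γ y v) ≤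
      β.Pn Γ gh v (β.Lam Γ (p • x + q • y) v) := by
    rw [e, e, e, mul_sum, mul_sum, ← sum_add_distrib]
    refine sum_le_sum fun b _ => ?_
    have h2 := Gf_convex (x := x (b :: v)) (y := y (b :: v)) (hx _) (hy _) hl hp hq hpq
    have h3 : p * β.Lam Γ x v b + q * β.Lam Γ y v b ≤ β.Lam Γ (p • x + q • y) v b := by
      unfold Base.Lam
      have h4 := mul_le_mul_of_nonneg_left h2 (β.chi_nonneg (b :: v))
      have h5 : (p • x + q • y) (b :: v) = p • x (b :: v) + q • y (b :: v) := rfl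
      rw [h5]
      have h6 : β.chi (b :: v) * β.R (b :: v) = (p + q) * (β.chi (b :: v) * β.R (b :: v)) := by
        rw [hpq, one_mul]
      nlinarith
    have := mul_le_mul_of_nonneg_left h3 (hc b).1
    linarith
  have h2 : β.An (p • x + q • y) v = p * β.An x v + q * β.An y v := by
    unfold Base.An
    rw [mul_sum, mul_sum, ← sum_add_distrib]
    refine sum_congr rfl fun b _ => ?_
    rw [mul_sum, mul_sum, ← sum_add_distrib]
    refine sum_congr rfl fun j _ => ?_
    simp only [Pi.add_apply, Pi.smul_apply, smul_eq_mul]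
    have : β.a (b :: v) j ^ 2 = (p + q) * β.a (b :: v) j ^ 2 := by rw [hpq, one_mul]
    linarith
  have h3 : β.Hn v = p * β.Hn v + q * β.Hn v := by rw [← add_mul, hpq, one_mul]
  have key : p * (β.Pn Γ gh v (β.Lam Γ x v) + 400000 * Γ * β.Hn v + 25000000 * Γ * β.An x v) +
      q * (β.Pn Γ gh v (β.Lam Γ y v) + 400000 * Γ * β.Hn v + 25000000 * Γ * β.An y v) ≤
      β.Pn Γ gh v (β.Lam Γ (p • x + q • y) v) + 400000 * Γ * β.Hn v +
        25000000 * Γ * β.An (p • x + q • y) v := by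
    rw [h2]
    have h4 : 400000 * Γ * β.Hn v = 400000 * Γ * (p * β.Hn v + q * β.Hn v) := by rw [← h3]
    linarith
  have := mul_le_mul_of_nonneg_left key (wc_pos J v).le
  linarith

theorem Phi_lip (hΓ : 0 < Γ) (h : β.Good Γ J gh) {s s' : Prof Lab k} (hs : s ∈ cube Lab k)
    (hs' : s' ∈ cube Lab k) : β.Phi Γ J gh s' ≤ β.Phi Γ J gh s +
      51000000 * Γ * ∑ v ∈ nodes Lab J, wt J v * ∑ i, |s' v i - s v i| := by
  have h0 : ∑ v ∈ inner Lab J, wc J v * ∑ b, ∑ i, |s' (b :: v) i - s (b :: v) i| ≤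
      ∑ v ∈ nodes Lab J, wt J v * ∑ i, |s' v i - s v i| := by
    rw [sum_nodes]
    have h1 : 0 ≤ wt J ([] : List Lab) * ∑ i, |s' [] i - s [] i| :=
      mul_nonneg (wt_pos _ _).le (sum_nonneg fun _ _ => abs_nonneg _)
    have h2 : ∑ v ∈ inner Lab J, wc J v * ∑ b, ∑ i, |s' (b :: v) i - s (b :: v) i| =
        ∑ v ∈ inner Lab J, ∑ b, wt J (b :: v) * ∑ i, |s' (b :: v) i - s (b :: v) i| := by
      refine sum_congr rfl fun v _ => ?_
      rw [mul_sum]
      exact sum_congr rfl fun b _ => by rw [wt_cons]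
    linarith
  refine le_trans ?_ (add_le_add_right (mul_le_mul_of_nonneg_left h0 (by positivity)) _)
  unfold Base.Phi
  rw [mul_sum, ← sum_add_distrib]
  refine sum_le_sum fun v hv => ?_
  have hv' := mem_inner.1 hv
  have hl := h.uok.lam_mem hΓ v hv'.le
  set X := ∑ b, ∑ i, |s' (b :: v) i - s (b :: v) i| with hX
  have hX0 : 0 ≤ X := sum_nonneg fun _ _ => sum_nonneg fun _ _ => abs_nonneg _
  have h1 := Pn_lip hΓ h hv' (β.Lam Γ s v) (β.Lam Γ s' v)
  have h2 : ∑ b, |β.Lam Γ s' v b - β.Lam Γ s v b| ≤ 3 * X := by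
    rw [hX, mul_sum]
    refine sum_le_sum fun b _ => ?_
    have h3 := abs_Gf_sub (x := s (b :: v)) (x' := s' (b :: v)) (hs _) (hs' _) hl
    have h4 : β.Lam Γ s' v b - β.Lam Γ s v b =
        -(β.chi (b :: v) * (Gf (β.lam Γ v) (s' (b :: v)) - Gf (β.lam Γ v) (s (b :: v)))) := by
      unfold Base.Lam; ring
    rw [h4, abs_neg, abs_mul, abs_of_nonneg (β.chi_nonneg _)]
    exact (mul_le_of_le_one_left (abs_nonneg _) (β.chi_le_one _)).trans h3
  have h3 : β.An s' v ≤ β.An s v + 2 * X := by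
    unfold Base.An
    rw [hX, mul_sum, ← sum_add_distrib]
    refine sum_le_sum fun b _ => ?_
    rw [mul_sum, ← sum_add_distrib]
    refine sum_le_sum fun j _ => ?_
    have ha := h.a01 (b :: v) j
    have h4 := mul_le_mul_of_nonneg_left (neg_abs_le (s' (b :: v) j - s (b :: v) j)) ha.1
    have h5 := mul_le_mul_of_nonneg_right ha.2 (abs_nonneg (s' (b :: v) j - s (b :: v) j))
    linarith
  have h2' := mul_le_mul_of_nonneg_left h2 (by positivity : 0 ≤ 600 * Γ)
  have h3' := mul_le_mul_of_nonneg_left h3 (by positivity : 0 ≤ 25000000 * Γ)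
  have h4 := mul_nonneg hΓ.le hX0
  have key : β.Pn Γ gh v (β.Lam Γ s' v) + 400000 * Γ * β.Hn v + 25000000 * Γ * β.An s' v ≤
      β.Pn Γ gh v (β.Lam Γ s v) + 400000 * Γ * β.Hn v + 25000000 * Γ * β.An s v +
        51000000 * Γ * X := by linarith
  have := mul_le_mul_of_nonneg_left key (wc_pos J v).le
  linarith

theorem Phi_zero_nonneg (hΓ : 0 < Γ) (h : β.Good Γ J gh) : 0 ≤ β.Phi Γ J gh 0 := by
  unfold Base.Phi
  refine sum_nonneg fun v hv => mul_nonneg (wc_pos J v).le ?_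
  have hv' := mem_inner.1 hv
  obtain ⟨c, hc, e⟩ := Pn_coef hΓ h hv'
  have h1 : 0 ≤ β.Pn Γ gh v (β.Lam Γ 0 v) := by
    rw [e]
    refine sum_nonneg fun b _ => mul_nonneg (hc b).1 ?_
    unfold Base.Lam
    have : Gf (β.lam Γ v) ((0 : Prof Lab k) (b :: v)) = 0 := Gf_zero_vec _
    rw [this, sub_zero]
    exact mul_nonneg (β.chi_nonneg _) (β.R_nonneg _)
  have h2 : 0 ≤ β.Hn v := by
    unfold Base.Hn
    have := β.n_le_nb v (β.h v)
    have := abs_nonneg (β.mh v - β.nb v)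
    have := sum_nonneg fun b (_ : b ∈ univ) => abs_nonneg (β.nh (b :: v) - β.n (b :: v))
    linarith
  have h3 : 0 ≤ β.An 0 v := by
    unfold Base.An
    refine sum_nonneg fun b _ => sum_nonneg fun j _ => ?_
    simp only [Pi.zero_apply, mul_zero, sub_zero]
    positivity
  positivity

end Crest.Agent.R314.T
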