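import Crest.Agent.R314.TAcc
import Crest.Agent.R314.TPot
import Crest.Agent.R314.TPn
import Crest.Agent.R314.TDirty

/-! # Part B: the fractional tree algorithm (row 314) -/

set_option autoImplicit false
set_option linter.unusedSectionVars false

open Finset

namespace Crest.Agent.R314

universe u

namespace T

variable {Lab : Type u} [Fintype Lab] [DecidableEq Lab] {k : ℕ} {β β' : Base Lab k} {Γ : ℝ}
  {J : ℕ} {s : Prof Lab k} {gh gh' : List Lab → ℝ}

lemma Tt_nonneg (c : List Lab) : 0 ≤ Tt Γ β β' c := add_nonneg (abs_nonneg _) (abs_nonneg _)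

lemma Tt_nil : Tt Γ β β' [] = 0 := by
  simp [Tt, Base.lam, Base.chi_nil]

lemma Aev_nonneg (v : List Lab) : 0 ≤ Aev β β' v := sum_nonneg fun _ _ => dsq_nonneg _ _

theorem step_le (hΓ : 1000 ≤ Γ) (h : β.Good Γ J gh) (hg' : β'.Good Γ J gh') (h' : β'.AccB s)
    (hs : IsProf J s) (hst : StepB β β' s) (hsg : StepG Γ β β' gh gh' s)
    (hi : ∀ v : List Lab, v.length < J → β'.Inv Γ gh' s v) :
    ∑ c ∈ nodes Lab J, wt J c * |β'.z Γ gh' c - β.z Γ gh c| + β'.Phi Γ J gh' s ≤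
      β.Phi Γ J gh s := by
  have hΓ0 : 0 < Γ := by linarith
  set E := ∑ v ∈ inner Lab J, wc J v * Ev β β' v with hE
  set A := ∑ v ∈ inner Lab J, wc J v * Aev β β' v with hA
  set Y := ∑ v ∈ inner Lab J, wc J v * TM Γ β β' s v with hY
  set X := ∑ v ∈ inner Lab J, wc J v * (Tt Γ β β' v * sq (s v)) with hX
  have hE0 : 0 ≤ E := sum_nonneg fun v _ => mul_nonneg (wc_pos J v).le (Ev_nonneg hst v)
  have hA0 : 0 ≤ A := sum_nonneg fun v _ => mul_nonneg (wc_pos J v).le (Aev_nonneg v)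
  have hTm : ∀ v : List Lab, 0 ≤ Tt Γ β β' v * sq (s v) := fun v =>
    mul_nonneg (Tt_nonneg v) (sq_nonneg' _)
  have hY1 : ∑ c ∈ nodes Lab J, wt J c * (Tt Γ β β' c * sq (s c)) = Y :=
    sum_nodes_wt J (fun c => Tt Γ β β' c * sq (s c)) (by simp [Tt_nil])
  have hX1 : 2048 * X ≤ Y := hY1 ▸ sum_inner_le J (fun c => Tt Γ β β' c * sq (s c))
    fun v _ => hTm v
  have hY2 := geom_tree J (fun c => Tt Γ β β' c * sq (s c)) (fun v => 70 * Ev β β' v) 15
    (by norm_num) (by simp [Tt_nil]) (fun v _ => hTm v)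
    (fun v hv => TM_le hΓ h hg' h' hs hst hv)
  have hE70 : ∑ v ∈ inner Lab J, wc J v * (70 * Ev β β' v) = 70 * E := by
    rw [hE, mul_sum]; exact sum_congr rfl fun v _ => by ring
  rw [hY1, hE70] at hY2
  have hY3 : Y ≤ 71 * E := by linarith
  have hX2 : X ≤ E := by linarith
  have hmove := move_le (β' := β') (gh' := gh') h
  have hloc : ∀ v ∈ inner Lab J,
      2 * (wc J v * (3 * ∑ b, |β'.chi (b :: v) * β'.R (b :: v) - β.chi (b :: v) * β.R (b :: v)| +
          β'.D Γ gh' v * ∑ b, |β'.gam Γ gh' v b - β.gam Γ gh v b|)) +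
        wc J v * (β'.Pn Γ gh' v (β'.Lam Γ s v) + 400000 * Γ * β'.Hn v +
          25000000 * Γ * β'.An s v) ≤
      wc J v * (β.Pn Γ gh v (β.Lam Γ s v) + 400000 * Γ * β.Hn v + 25000000 * Γ * β.An s v) +
        Γ * (-395195 * (wc J v * Ev β β' v) + 4203 * (wc J v * TM Γ β β' s v) +
          600 * (wc J v * (Tt Γ β β' v * sq (s v)))) := by
    intro v hv
    have hv' := mem_inner.1 hv
    have h1 := Pn_step hΓ h h' hs.mem hst hsg hv' (hi v hv')
    have h2 := Pn_lip hΓ0 h hv' (β.Lam Γ s v) (β'.Lam Γ s v)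
    have h3 := dLam_le (β := β) hΓ0 h' hs hv'
    have h4 := dchiR_le (β := β) (Γ := Γ) h' hs.mem v
    have h5 := dHn_le hst v
    have h6 := dAn_le h.a01 hst hs.mem v
    have hA1 := Aev_nonneg (β := β) (β' := β') v
    have hT1 : 0 ≤ TM Γ β β' s v := sum_nonneg fun b _ => hTm _
    have h3' := mul_le_mul_of_nonneg_left h3 (by positivity : 0 ≤ 600 * Γ)
    have h5' := mul_le_mul_of_nonneg_left h5 (by positivity : 0 ≤ 400000 * Γ)
    have h6' := mul_le_mul_of_nonneg_left h6 (by positivity : 0 ≤ 25000000 * Γ)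
    have hA2 := mul_le_mul_of_nonneg_right hΓ hA1
    have hT2 := mul_le_mul_of_nonneg_right hΓ hT1
    have key : 2 * (3 * ∑ b, |β'.chi (b :: v) * β'.R (b :: v) - β.chi (b :: v) * β.R (b :: v)| +
          β'.D Γ gh' v * ∑ b, |β'.gam Γ gh' v b - β.gam Γ gh v b|) +
        (β'.Pn Γ gh' v (β'.Lam Γ s v) + 400000 * Γ * β'.Hn v + 25000000 * Γ * β'.An s v) ≤
      (β.Pn Γ gh v (β.Lam Γ s v) + 400000 * Γ * β.Hn v + 25000000 * Γ * β.An s v) +
        Γ * (-395195 * Ev β β' v + 4203 * TM Γ β β' s v + 600 * (Tt Γ β β' v * sq (s v))) := by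
      nlinarith
    have := mul_le_mul_of_nonneg_left key (wc_pos J v).le
    linarith
  have hsum := sum_le_sum hloc
  rw [sum_add_distrib, sum_add_distrib, ← mul_sum, ← mul_sum, sum_add_distrib, sum_add_distrib,
    ← mul_sum, ← mul_sum, ← mul_sum] at hsum
  unfold Base.Phi
  have hneg : Γ * (-395195 * E + 4203 * Y + 600 * X) ≤ 0 :=
    mul_nonpos_of_nonneg_of_nonpos hΓ0.le (by linarith)
  linarith

/-- the initial state -/
noncomputable def base0 (Lab : Type u) [Nonempty Lab] (k : ℕ) : Base Lab k :=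
  ⟨fun _ _ => 0, fun _ => 0, fun _ => 0, fun _ => Classical.arbitrary Lab⟩

omit [Fintype Lab] [DecidableEq Lab] in
lemma base0_not_act [Nonempty Lab] (b : Lab) (v : List Lab) : ¬ (base0 Lab k).act (b :: v) := by
  intro h
  have := h.2
  simp only [base0] at this
  norm_num at this

lemma base0_lt [Nonempty Lab] (v : List Lab) : (base0 Lab k).lt v = ∅ := by
  ext b
  simp [Base.mem_lt, base0_not_act]

lemma base0_z [Nonempty Lab] (g : List Lab → ℝ) :
    ∀ v : List Lab, 0 ≤ (base0 Lab k).z Γ g v ∧ (v ≠ [] → (base0 Lab k).z Γ g v = 0)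
  | [] => ⟨by simp [Base.z], fun h => absurd rfl h⟩
  | b :: v => by
    have h1 := (base0_z g v).1
    have h2 : (base0 Lab k).z Γ g (b :: v) = 0 := by
      rw [Base.z_cons, Base.D]
      simp only [Base.chi_of_not _ (base0_not_act _ _), zero_mul, sum_const_zero, zero_sub]
      rw [max_eq_left (by linarith)]
      simp
    exact ⟨h2.ge, fun _ => h2⟩

lemma base0_good [Nonempty Lab] : (base0 Lab k).Good Γ J fun _ => 0 where
  a01 := fun c j => by simp [base0]
  u_pos := fun v _ b hb => by simp [base0_lt] at hb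
  u_sum := fun v _ => by simp [base0_lt]
  th_le := fun v _ b hb => by simp [base0_lt] at hb
  gh01 := fun v _ b hb => by simp [base0_lt] at hb
  gh_sum := fun v _ => by simp
  gl_sum := fun v _ => by simp [Base.gl, base0_lt]
  feas := ⟨rfl, fun v _ => (base0_z _ v).1, fun v _ => by
    rw [sum_eq_zero fun b _ => (base0_z _ (b :: v)).2 (List.cons_ne_nil _ _)]
    exact (base0_z _ v).1⟩

lemma gam_facts (hk : 2 ≤ k) : 1000 ≤ 1000 * Real.log (k + 1) ∧
    300 * Real.log (10 * k) ≤ 1000 * Real.log (k + 1) := by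
  have hk' : (2 : ℝ) ≤ k := by exact_mod_cast hk
  have h1 : 1 ≤ Real.log (k + 1) := by
    rw [Real.le_log_iff_exp_le (by linarith)]
    have := Real.exp_one_lt_d9
    linarith
  have h2 : Real.log (10 * k) ≤ 3 * Real.log (k + 1) := by
    have : (3 : ℝ) * Real.log (k + 1) = Real.log ((k + 1) ^ 3) := by
      rw [Real.log_pow]; norm_num
    rw [this]
    refine Real.log_le_log (by positivity) ?_
    nlinarith [sq_nonneg ((k : ℝ) - 2), mul_nonneg (sub_nonneg.2 hk') (sq_nonneg ((k : ℝ) - 2))]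
  constructor <;> linarith

lemma zero_mem_cube : (0 : Prof Lab k) ∈ cube Lab k := fun _ _ => by simp

lemma cube_dist_le {s s' : Prof Lab k} (hs : s ∈ cube Lab k) (hs' : s' ∈ cube Lab k) :
    ∑ v ∈ nodes Lab J, wt J v * ∑ i, |s' v i - s v i| ≤ ∑ v ∈ nodes Lab J, wt J v * k := by
  refine sum_le_sum fun v _ => mul_le_mul_of_nonneg_left ?_ (wt_pos J v).le
  calc ∑ i, |s' v i - s v i| ≤ ∑ _i : Fin k, (1 : ℝ) := sum_le_sum fun i _ => by
        have h1 := hs v i
        have h2 := hs' v i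
        rw [abs_le]; constructor <;> linarith [h1.1, h1.2, h2.1, h2.2]
    _ = k := by simp

end T

open T in
theorem treeStmt : ∃ C : ℝ, 1 ≤ C ∧ TreeStmt.{u} C := by
  refine ⟨51000000 * 1000, by norm_num, fun k hk Lab _ _ _ J => ?_⟩
  obtain ⟨hΓ, hΓk⟩ := gam_facts hk
  set Γ := 1000 * Real.log (k + 1) with hΓdef
  have hΓ0 : 0 < Γ := by linarith
  set W := 51000000 * Γ * ∑ v ∈ nodes Lab J, wt J v * k with hW
  have hW0 : 0 ≤ W := mul_nonneg (by positivity)
    (sum_nonneg fun v _ => mul_nonneg (wt_pos J v).le (Nat.cast_nonneg k))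
  have hlip : ∀ (β : Base Lab k) (gh : List Lab → ℝ), β.Good Γ J gh → ∀ s ∈ cube Lab k,
      ∀ s' ∈ cube Lab k, β.Phi Γ J gh s' ≤ β.Phi Γ J gh s + W := by
    intro β gh h s hs s' hs'
    have h1 := Phi_lip hΓ0 h hs hs'
    have h2 := mul_le_mul_of_nonneg_left (cube_dist_le (J := J) hs hs')
      (by positivity : 0 ≤ 51000000 * Γ)
    linarith
  refine ⟨{p : Base Lab k × (List Lab → ℝ) // p.1.Good Γ J p.2},
    fun σ => σ.1.1.z Γ σ.1.2, fun σ => σ.1.1.Phi Γ J σ.1.2,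
    ⟨(base0 Lab k, fun _ => 0), base0_good⟩, (base0 Lab k).Phi Γ J (fun _ => 0) 0 + W,
    fun σ => σ.2.feas, fun v hv => (base0_z _ v).2 hv, fun s hs => ?_, fun σ s hs => ?_,
    fun σ => Phi_concave hΓ0 σ.2, fun σ s hs s' hs' => ?_, fun σ s hs => ?_⟩
  · exact hlip _ _ base0_good 0 zero_mem_cube s hs.mem
  · have h1 := hlip _ _ σ.2 s hs.mem 0 zero_mem_cube
    have h2 := Phi_zero_nonneg hΓ0 σ.2
    have h3 := Phi_zero_nonneg hΓ0 (base0_good (Lab := Lab) (k := k) (Γ := Γ) (J := J))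
    simp only
    linarith
  · have h1 := Phi_lip hΓ0 σ.2 hs hs'
    have : (51000000 : ℝ) * 1000 * Real.log (k + 1) = 51000000 * Γ := by rw [hΓdef]; ring
    rw [this]
    exact h1
  · obtain ⟨⟨β, gh⟩, h⟩ := σ
    obtain ⟨β', hst, h'⟩ := exists_stepB (β := β) h.a01 hs.mem
    obtain ⟨gh', hsg, hg⟩ := exists_stepG hΓ0 h h' hs.mem
    obtain ⟨hg', hi, hcap, hone⟩ := acc_main hk (by linarith) hΓk h' hg hs
    refine ⟨⟨(β', gh'), hg'⟩, step_le hΓ h hg' h' hs hst hsg hi, fun v hv hv' => ?_, hone⟩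
    refine (hcap v hv hv').trans (mul_le_mul_of_nonneg_right (by norm_num) ?_)
    exact sum_nonneg fun i _ => (hs.mem v i).1

end Crest.Agent.R314
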