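import Crest.Agent.R314.GMain
import Crest.Agent.R314.LMain
import Crest.Agent.R314.Tree
import Crest.Agent.R314.RoundFin
import Crest.Agent.R314.Reduce

/-!
# Row 314: assembly of the Bayesian statement
-/

set_option autoImplicit false

open Finset

namespace Crest.Agent.R314

universe u

lemma RoundStmt.mono {C C' : ℝ} (h : RoundStmt.{u} C) (hC : C ≤ C') : RoundStmt.{u} C' := by
  intro k Lab _ _ J Q hQ z z' hz hz' n hn
  obtain ⟨n', h1, h2⟩ := h k Lab J Q hQ z z' hz hz' n hn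
  refine ⟨n', h1, h2.trans (mul_le_mul_of_nonneg_right hC (sum_nonneg fun v _ => ?_))⟩
  exact mul_nonneg (wt_pos _ _).le (by positivity)

theorem bayes : ∃ C : ℝ, BayesStmt.{u} C := by
  obtain ⟨CT, hCT, hT⟩ := treeStmt.{u}
  obtain ⟨CR, hR⟩ := roundStmt.{u}
  obtain ⟨CL, hCL, hL⟩ := levelStmt.{u}
  exact ⟨_, bayes_of hCT hT (le_max_right CR 1) (hR.mono (le_max_left CR 1)) hCL hL⟩

end Crest.Agent.R314
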