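import Crest.Agent.R314.GDefs
import Crest.Agent.R314.Nodes

/-!
# Part E: posterior measure and posterior profiles
-/

set_option autoImplicit false

open Finset

namespace Crest.Agent.R314

universe u

variable {k : ℕ} {Y Ω Lab : Type u} [Fintype Y] [DecidableEq Y] [Fintype Ω] [Fintype Lab]
  [DecidableEq Lab]

omit [Fintype Y] [Fintype Lab] [DecidableEq Lab] in
lemma gp_nu (π : Ω → ℝ) (cfg : Ω → Fin k → Y) (y : Y) :
    nu π cfg y = ∑ ω, π ω * ∑ l, if cfg ω l = y then (1 : ℝ) else 0 := by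
  simp only [nu, card_filter, Nat.cast_sum, Nat.cast_ite, Nat.cast_one, Nat.cast_zero]

omit [Fintype Y] [Fintype Lab] [DecidableEq Lab] in
lemma gp_sum_nu (π : Ω → ℝ) (cfg : Ω → Fin k → Y) (B : Finset Y) :
    ∑ y ∈ B, nu π cfg y = ∑ ω, π ω * ∑ l, if cfg ω l ∈ B then (1 : ℝ) else 0 := by
  simp only [gp_nu]
  rw [sum_comm]
  refine sum_congr rfl fun ω _ => ?_
  rw [← mul_sum, sum_comm]
  simp only [sum_ite_eq]

omit [Fintype Lab] in
lemma gp_cnt (pos : Fin k → List Lab) (v : List Lab) :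
    (cnt pos v : ℝ) = ∑ l, if v <:+ pos l then (1 : ℝ) else 0 := by
  simp only [cnt, card_filter, Nat.cast_sum, Nat.cast_ite, Nat.cast_one, Nat.cast_zero]

omit [Fintype Lab] in
lemma gp_cnt_le (pos : Fin k → List Lab) (v : List Lab) : cnt pos v ≤ k :=
  (card_filter_le _ _).trans (by simp)

lemma gp_sum_lt {n : ℕ} (h : n ≤ k) : ∑ i : Fin k, (if (i : ℕ) < n then (1 : ℝ) else 0) = n := by
  rw [sum_boole, Fin.card_filter_val_lt, min_eq_right h]

lemma gp_sum_abs {n n' : ℕ} (h : n ≤ k) (h' : n' ≤ k) :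
    ∑ i : Fin k, |(if (i : ℕ) < n' then (1 : ℝ) else 0) - if (i : ℕ) < n then 1 else 0| =
      |(n' : ℝ) - n| := by
  wlog hn : n ≤ n' generalizing n n'
  · simp only [abs_sub_comm (ite ((_ : ℕ) < n') _ _), abs_sub_comm (n' : ℝ)]
    exact this h' h (not_le.1 hn).le
  rw [abs_of_nonneg (sub_nonneg.2 (by exact_mod_cast hn)), ← gp_sum_lt h, ← gp_sum_lt h',
    ← sum_sub_distrib]
  refine sum_congr rfl fun i _ => abs_of_nonneg ?_
  split_ifs with h1 h2 h2
  · simp
  · simp
  · omega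
  · simp

lemma gp_geom (j n : ℕ) :
    ∑ i ∈ range n, (if i ≤ j then (2048 : ℝ) ^ i else 0) ≤ 2 * 2048 ^ j := by
  have h : ∀ j : ℕ, ∑ i ∈ range (j + 1), (2048 : ℝ) ^ i ≤ 2 * 2048 ^ j := by
    intro j
    induction j with
    | zero => simp
    | succ j ih =>
      rw [sum_range_succ, pow_succ]
      have : (0 : ℝ) < 2048 ^ j := by positivity
      linarith
  rw [← sum_filter]
  refine le_trans (sum_le_sum_of_subset_of_nonneg (fun i hi => ?_) fun _ _ _ => by positivity) (h j)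
  exact mem_range.2 (Nat.lt_succ_of_le (mem_filter.1 hi).2)

lemma gp_half (J : ℕ) (f g : ℕ → Lab) :
    ∑ v ∈ nodes Lab J, wt J v *
        (if v <:+ (List.range J).map f ∧ ¬ v <:+ (List.range J).map g then (1 : ℝ) else 0) ≤
      2 * ∑ j ∈ range J, (2048 : ℝ) ^ j * (if f j = g j then 0 else 1) := by
  set p := (List.range J).map f with hp
  set p' := (List.range J).map g with hp'
  have hl : p.length = J := by simp [hp]
  let c : ℕ → ℝ := fun j => (2048 : ℝ) ^ j * if p.drop j = p'.drop j then 0 else 1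
  have hc : ∀ j, 0 ≤ c j := fun j => mul_nonneg (by positivity) (by split_ifs <;> norm_num)
  have h1 : ∀ v, wt J v * (if v <:+ p ∧ ¬ v <:+ p' then (1 : ℝ) else 0) ≤
      ∑ j ∈ range (J + 1), if v = p.drop j then c j else 0 := by
    intro v
    have hn : ∀ j ∈ range (J + 1), 0 ≤ if v = p.drop j then c j else 0 := fun j _ => by
      split_ifs
      · exact hc j
      · exact le_rfl
    split_ifs with h
    · have e := List.suffix_iff_eq_drop.1 h.1
      rw [hl] at e
      refine le_trans ?_ (single_le_sum hn (mem_range.2 (show J - v.length < J + 1 by omega)))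
      rw [if_pos e]
      simp only [c]
      rw [if_neg fun h' => h.2 (by rw [e, h']; exact List.drop_suffix _ _)]
      exact le_rfl
    · rw [mul_zero]
      exact sum_nonneg hn
  have h2 : ∀ j, c j ≤ ∑ j' ∈ range J,
      (if j ≤ j' then (2048 : ℝ) ^ j else 0) * (if f j' = g j' then 0 else 1) := by
    intro j
    have hn : ∀ j' ∈ range J, 0 ≤
        (if j ≤ j' then (2048 : ℝ) ^ j else 0) * (if f j' = g j' then 0 else 1) := fun j' _ =>
      mul_nonneg (by split_ifs <;> positivity) (by split_ifs <;> norm_num)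
    by_cases h : p.drop j = p'.drop j
    · simp only [c, if_pos h, mul_zero]
      exact sum_nonneg hn
    · have : ∃ j' ∈ range J, j ≤ j' ∧ f j' ≠ g j' := by
        by_contra hne
        push Not at hne
        refine h (List.ext_getElem (by simp [hp, hp']) fun i h1 h2 => ?_)
        have hi : j + i < J := by
          rw [List.length_drop, hl] at h1
          omega
        simp only [hp, hp', List.getElem_drop, List.getElem_map, List.getElem_range]
        exact hne _ (mem_range.2 hi) (Nat.le_add_right _ _)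
      obtain ⟨j', hj', h3, h4⟩ := this
      refine le_trans ?_ (single_le_sum hn hj')
      simp only [c, if_neg h, if_pos h3, if_neg h4, le_refl]
  calc _ ≤ ∑ v ∈ nodes Lab J, ∑ j ∈ range (J + 1), if v = p.drop j then c j else 0 :=
        sum_le_sum fun v _ => h1 v
    _ ≤ ∑ j ∈ range (J + 1), c j := by
        rw [sum_comm]
        refine sum_le_sum fun j _ => ?_
        rw [sum_ite_eq']
        split_ifs
        · exact le_rfl
        · exact hc j
    _ ≤ _ := by
        refine (sum_le_sum fun j _ => h2 j).trans ?_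
        rw [sum_comm, mul_sum]
        refine sum_le_sum fun j' _ => ?_
        rw [← sum_mul, ← mul_assoc]
        exact mul_le_mul_of_nonneg_right (gp_geom j' _) (by split_ifs <;> norm_num)

omit [Fintype Y] [Fintype Lab] [DecidableEq Lab] in
lemma nu_nonneg {π : Ω → ℝ} (hπ : ∀ ω, 0 ≤ π ω) (cfg : Ω → Fin k → Y) (y : Y) :
    0 ≤ nu π cfg y := by
  exact sum_nonneg fun ω _ => mul_nonneg (hπ ω) (Nat.cast_nonneg _)

omit [Fintype Lab] [DecidableEq Lab] in
lemma sum_nu_mul (π : Ω → ℝ) (cfg : Ω → Fin k → Y) (f : Y → ℝ) :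
    ∑ y, nu π cfg y * f y = ∑ ω, π ω * ∑ l, f (cfg ω l) := by
  simp only [gp_nu, sum_mul]
  rw [sum_comm]
  refine sum_congr rfl fun ω _ => ?_
  simp only [mul_assoc, ← mul_sum, sum_mul]
  rw [sum_comm]
  simp

omit [Fintype Lab] [DecidableEq Lab] in
lemma sum_nu {π : Ω → ℝ} (hπ : π ∈ stdSimplex ℝ Ω) (cfg : Ω → Fin k → Y) :
    ∑ y, nu π cfg y = k := by
  have h := sum_nu_mul π cfg fun _ => 1
  simp only [mul_one, sum_const, card_univ, Fintype.card_fin, nsmul_eq_mul, ← sum_mul, hπ.2,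
    one_mul] at h
  exact h

omit [Fintype Lab] [DecidableEq Lab] in
lemma sum_nu_update (π : Ω → ℝ) (cfg : Ω → Fin k → Y) (jj : Ω → Fin k) (x : Y) (f : Y → ℝ) :
    ∑ y, nu π (fun ω => Function.update (cfg ω) (jj ω) x) y * f y =
      ∑ y, nu π cfg y * f y + ∑ ω, π ω * (f x - f (cfg ω (jj ω))) := by
  rw [sum_nu_mul, sum_nu_mul, ← sum_add_distrib]
  refine sum_congr rfl fun ω _ => ?_
  rw [← mul_add, ← add_sum_erase _ _ (mem_univ (jj ω)),
    ← add_sum_erase _ (fun l => f (cfg ω l)) (mem_univ (jj ω)), Function.update_self,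
    sum_congr rfl fun l hl => by rw [Function.update_of_ne (ne_of_mem_erase hl)]]
  ring

omit [Fintype Y] [Fintype Lab] [DecidableEq Lab] in
lemma nu_add_smul (π π' : Ω → ℝ) (a b : ℝ) (cfg : Ω → Fin k → Y) (y : Y) :
    nu (a • π + b • π') cfg y = a * nu π cfg y + b * nu π' cfg y := by
  simp only [nu, Pi.add_apply, Pi.smul_apply, smul_eq_mul, add_mul, sum_add_distrib, mul_sum,
    mul_assoc]

omit [Fintype Y] [Fintype Lab] [DecidableEq Lab] in
/-- the moving server alone puts this much mass into `B` -/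
lemma sum_mem_le_nu {π : Ω → ℝ} (hπ : ∀ ω, 0 ≤ π ω) (cfg : Ω → Fin k → Y) (jj : Ω → Fin k)
    (B : Finset Y) :
    ∑ ω, π ω * (if cfg ω (jj ω) ∈ B then (1 : ℝ) else 0) ≤ ∑ y ∈ B, nu π cfg y := by
  rw [gp_sum_nu]
  refine sum_le_sum fun ω _ => mul_le_mul_of_nonneg_left ?_ (hπ ω)
  exact single_le_sum (f := fun l => if cfg ω l ∈ B then (1 : ℝ) else 0)
    (fun l _ => by split_ifs <;> norm_num) (mem_univ (jj ω))

omit [Fintype Y] [DecidableEq Y] [Fintype Lab] in
lemma prof_add_smul (π π' : Ω → ℝ) (a b : ℝ) (cfg : Ω → Fin k → Y) (path : Y → List Lab) :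
    prof (a • π + b • π') cfg path = a • prof π cfg path + b • prof π' cfg path := by
  funext v i
  simp only [prof, Pi.add_apply, Pi.smul_apply, smul_eq_mul, add_mul, sum_add_distrib, mul_sum,
    mul_assoc]

omit [Fintype Y] [DecidableEq Y] [Fintype Lab] in
/-- `∑_{i<k} 1[i < n] = n` for `n ≤ k` -/
lemma sum_prof (π : Ω → ℝ) (cfg : Ω → Fin k → Y) (path : Y → List Lab) (v : List Lab) :
    ∑ i, prof π cfg path v i = ∑ ω, π ω * (cnt (fun l => path (cfg ω l)) v : ℝ) := by
  simp only [prof]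
  rw [sum_comm]
  refine sum_congr rfl fun ω _ => ?_
  rw [← mul_sum, gp_sum_lt (gp_cnt_le _ _)]

omit [Fintype Y] [DecidableEq Y] [Fintype Lab] in
lemma exists_of_sum_prof_ne_zero {π : Ω → ℝ} {cfg : Ω → Fin k → Y} {path : Y → List Lab}
    {v : List Lab} (h : ∑ i, prof π cfg path v i ≠ 0) : ∃ y, v <:+ path y := by
  rw [sum_prof] at h
  obtain ⟨ω, -, hω⟩ := exists_ne_zero_of_sum_ne_zero h
  have h1 : cnt (fun l => path (cfg ω l)) v ≠ 0 := fun h0 => hω (by rw [h0]; simp)
  obtain ⟨l, hl⟩ := card_ne_zero.1 h1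
  exact ⟨_, (mem_filter.1 hl).2⟩

omit [Fintype Y] [DecidableEq Y] [Fintype Lab] in
lemma prof_leaf {π : Ω → ℝ} (hπ : π ∈ stdSimplex ℝ Ω) {cfg : Ω → Fin k → Y} {jj : Ω → Fin k}
    {x : Y} (hx : ∀ ω, cfg ω (jj ω) = x) (path : Y → List Lab) (hk : 0 < k) :
    prof π cfg path (path x) ⟨0, hk⟩ = 1 := by
  simp only [prof]
  refine (sum_congr rfl fun ω _ => ?_).trans hπ.2
  rw [if_pos, mul_one]
  exact card_pos.2 ⟨jj ω, mem_filter.2 ⟨mem_univ _, by simp only [hx]; exact List.suffix_refl _⟩⟩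

omit [Fintype Y] [Fintype Lab] in
/-- distinct lists of the same length are not both suffixes of one list -/
lemma sum_prof_le_nu {π : Ω → ℝ} (hπ : ∀ ω, 0 ≤ π ω) (cfg : Ω → Fin k → Y) (path : Y → List Lab)
    (U : Finset (List Lab)) (n : ℕ) (hU : ∀ v ∈ U, v.length = n) (B : Finset Y)
    (hB : ∀ v ∈ U, ∀ y, v <:+ path y → y ∈ B) :
    ∑ v ∈ U, ∑ i, prof π cfg path v i ≤ ∑ y ∈ B, nu π cfg y := by
  simp only [sum_prof, gp_cnt]
  rw [gp_sum_nu, sum_comm]
  refine sum_le_sum fun ω _ => ?_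
  rw [← mul_sum, sum_comm]
  refine mul_le_mul_of_nonneg_left (sum_le_sum fun l _ => ?_) (hπ ω)
  by_cases h : ∃ v ∈ U, v <:+ path (cfg ω l)
  · obtain ⟨v, hv, hv'⟩ := h
    rw [if_pos (hB v hv _ hv'), sum_eq_single_of_mem v hv, if_pos hv']
    intro w hw hne
    refine if_neg fun hw' => hne ?_
    rw [List.suffix_iff_eq_drop.1 hw', List.suffix_iff_eq_drop.1 hv', hU w hw]
    congr 2
    exact (hU v hv).symm
  · push Not at h
    rw [sum_eq_zero fun v hv => if_neg (h v hv)]
    split_ifs <;> norm_num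

omit [Fintype Y] [DecidableEq Y] in
/-- `∑_i |1[i<n'] - 1[i<n]| = |n' - n| ≤ ∑_l |1[v <:+ p' l] - 1[v <:+ p l]|` -/
lemma prof_dist {π : Ω → ℝ} (hπ : ∀ ω, 0 ≤ π ω) (J : ℕ) (cfg cfg' : Ω → Fin k → Y)
    (path path' : Y → List Lab) :
    ∑ v ∈ nodes Lab J, wt J v * ∑ i, |prof π cfg' path' v i - prof π cfg path v i| ≤
      ∑ ω, π ω * ∑ l, pd J (path' (cfg' ω l)) (path (cfg ω l)) := by
  have h1 : ∀ v, ∑ i, |prof π cfg' path' v i - prof π cfg path v i| ≤ ∑ ω, π ω * ∑ l,
      |(if v <:+ path' (cfg' ω l) then (1 : ℝ) else 0) -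
        if v <:+ path (cfg ω l) then 1 else 0| := by
    intro v
    simp only [prof, ← sum_sub_distrib, ← mul_sub]
    refine (sum_le_sum fun i _ => abs_sum_le_sum_abs _ _).trans ?_
    rw [sum_comm]
    refine sum_le_sum fun ω _ => ?_
    simp only [abs_mul, abs_of_nonneg (hπ ω), ← mul_sum]
    refine mul_le_mul_of_nonneg_left ?_ (hπ ω)
    rw [gp_sum_abs (gp_cnt_le _ _) (gp_cnt_le _ _), gp_cnt, gp_cnt, ← sum_sub_distrib]
    exact abs_sum_le_sum_abs _ _
  refine (sum_le_sum fun v _ => mul_le_mul_of_nonneg_left (h1 v) (wt_pos J v).le).trans_eq ?_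
  simp only [pd, mul_sum]
  rw [sum_comm]
  refine sum_congr rfl fun ω _ => ?_
  rw [sum_comm]
  exact sum_congr rfl fun l _ => sum_congr rfl fun v _ => by ring

/-- Only the suffixes `p.drop j`, `p'.drop j` (`j ≤ J`, weight `2048^j`) contribute, and only if
`f j' ≠ g j'` for some `j ≤ j' < J`; `∑_{j ≤ j'} 2048^j ≤ 2 · 2048^j'`. -/
lemma pd_le (J : ℕ) (f g : ℕ → Lab) :
    pd J ((List.range J).map f) ((List.range J).map g) ≤
      4 * ∑ j ∈ range J, (2048 : ℝ) ^ j * (if f j = g j then 0 else 1) := by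
  have h1 := gp_half J f g
  have h2 := gp_half J g f
  simp only [eq_comm (a := g _)] at h2
  have h3 : pd J ((List.range J).map f) ((List.range J).map g) = ∑ v ∈ nodes Lab J, wt J v *
      (if v <:+ (List.range J).map f ∧ ¬ v <:+ (List.range J).map g then (1 : ℝ) else 0) +
      ∑ v ∈ nodes Lab J, wt J v *
      (if v <:+ (List.range J).map g ∧ ¬ v <:+ (List.range J).map f then (1 : ℝ) else 0) := by
    rw [← sum_add_distrib]
    refine sum_congr rfl fun v _ => ?_
    rw [← mul_add]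
    by_cases a : v <:+ (List.range J).map f <;> by_cases b : v <:+ (List.range J).map g <;>
      simp [a, b]
  linarith

end Crest.Agent.R314
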