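import Crest.Agent.R314.GMicro
import Crest.Agent.R314.GProf

/-!
# Part E: the parked mass next to the request is capped; the cost of dragging it
-/

set_option autoImplicit false

open Finset MeasureTheory

namespace Crest.Agent.R314

universe u

variable {k : ℕ} {Y : Type u} [Fintype Y] [DecidableEq Y] [MetricSpace Y]

namespace Base

variable (G : Base k Y) {Q : ℕ} {Ω : Type u} [Fintype Ω]

lemma pbar_nonneg (u : G.Ξ → Fin G.m → G.Mic Q) (j : ℕ) (a : Option Y) : 0 ≤ G.pbar u j a := by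
  unfold pbar
  exact div_nonneg (integral_nonneg fun ξ => div_nonneg
    (sum_nonneg fun _ _ => Nat.cast_nonneg _) (Nat.cast_nonneg _)) G.L_pos.le

lemma gc_parked (pos : Fin k → List (Lb Y)) (j : ℕ) (a : Option Y) :
    (G.parked pos j a : ℝ) = ∑ l,
      if (pos l).length + j = G.J ∧ (pos l).head? = some (Sum.inl a) then (1 : ℝ) else 0 := by
  unfold parked
  rw [card_filter]
  push_cast
  rfl

lemma gc_r_mono {j j' : ℕ} (h : j' ≤ j) : G.r j' ≤ G.r j :=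
  mul_le_mul_of_nonneg_left (pow_le_pow_right₀ (by norm_num) h) G.hδ.le

lemma gc_anc {σ : ℕ → KD Y} (hσ : ∀ j < G.J, KInv (G.D j) (σ j)) {i : ℕ} (hi : i < G.m)
    (ξ : G.Ξ) {x y : Y} {v : List (Lb Y)} (hy : v <:+ G.path σ i ξ y) {j j' : ℕ} (hj : j < G.J)
    (hj' : j' ≤ j) {a : Option Y} (ha : G.D j' x ((σ j').cen a) ≤ 1 / 1024)
    (h1 : v.length + j' = G.J) (h2 : v.head? = some (Sum.inl a)) {y' : Y}
    (hy' : v.drop (j - j') <:+ G.path σ i ξ y') : y' ∈ bl (G.D j) x 2 := by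
  have hl : (v.drop (j - j')).length = G.J - j := by rw [List.length_drop]; omega
  have hne : v.drop (j - j') ≠ [] := List.ne_nil_of_length_pos (by omega)
  have e1 := G.dist_loc hσ hi hne hy'
  have e2 := G.dist_loc hσ hi hne ((List.drop_suffix _ _).trans hy)
  rw [hl, show G.J - (G.J - j) = j by omega] at e1 e2
  obtain ⟨t, rfl⟩ : ∃ t, v = Sum.inl a :: t := by
    cases v with
    | nil => simp at h2
    | cons b t => exact ⟨t, by simpa using h2⟩
  have e3 := G.dist_loc hσ hi (List.cons_ne_nil _ _) hy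
  have e0 : G.J - (t.length + 1) = j' := by rw [List.length_cons] at h1; omega
  have e4 : G.loc σ (Sum.inl a :: t) = (σ j').cen a := by
    rw [← e0]; rfl
  rw [e4, List.length_cons, e0] at e3
  have e5 : dist x ((σ j').cen a) ≤ G.r j' * (1 / 1024) := by
    rw [G.dist_eq j']
    exact mul_le_mul_of_nonneg_left ha (G.r_pos _).le
  have e6 := G.gc_r_mono hj'
  have e7 := G.r_pos j'
  have e8 := dist_triangle_right x y ((σ j').cen a)
  have e9 := dist_triangle_right y y' (G.loc σ ((Sum.inl a :: t).drop (j - j')))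
  have e10 := dist_triangle x y y'
  rw [mem_bl]
  refine (div_le_iff₀ (G.r_pos j)).2 ?_
  linarith

omit [Fintype Y] [MetricSpace Y] in
lemma gc_one (v : List (Lb Y)) (J : ℕ) (R : Finset ℕ) (A : ℕ → Finset (Option Y)) (c : ℝ)
    (hc : 0 ≤ c)
    (h : ∀ j ∈ R, ∀ a ∈ A j, v.length + j = J → v.head? = some (Sum.inl a) → 1 ≤ c) :
    ∑ j ∈ R, ∑ a ∈ A j, (if v.length + j = J ∧ v.head? = some (Sum.inl a) then (1 : ℝ) else 0) ≤
      c := by
  by_cases hex : ∃ j ∈ R, ∃ a ∈ A j, v.length + j = J ∧ v.head? = some (Sum.inl a)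
  · obtain ⟨j, hj, a, ha, h1, h2⟩ := hex
    refine le_trans (le_of_eq ?_) (h j hj a ha h1 h2)
    rw [sum_eq_single_of_mem j hj, sum_eq_single_of_mem a ha, if_pos ⟨h1, h2⟩]
    · intro b _ hb
      rw [if_neg]
      rintro ⟨-, h3⟩
      rw [h2] at h3
      exact hb (Sum.inl.inj (Option.some.inj h3)).symm
    · intro j' _ hj'
      refine sum_eq_zero fun b _ => if_neg ?_
      rintro ⟨h3, -⟩
      omega
  · refine le_trans (le_of_eq ?_) hc
    exact sum_eq_zero fun j hj => sum_eq_zero fun a ha => if_neg fun h1 => hex ⟨j, hj, a, ha, h1⟩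

/-- Let `U` be the set of nodes of length `J - j` all of whose points lie in `bl (D j) x 2`.  A server
counted on the left sits at a node `v` (level `j' ≤ j`, king `a` within `1/1024` of `x`) with
`cnt ≠ 0`, so `z ≠ 0`, `∑ prof ≠ 0`, `v <:+ path y` for some `y`, `dist x y ≤ r j` (`dist_loc`), and its
ancestor `v.drop (j - j')` lies in `U` (two points below it are within `r j`).  Each server is
counted at most once.  So the left side is `≤ ∑_θ ∑_{u ∈ U} cnt ≤ Q ∑_U z ≤ Q CT ∑_U ∑ prof`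
(`avg_cnt_le`, `sum_prof_le_nu`). -/
lemma parked_le {σ : ℕ → KD Y} (hσ : ∀ j < G.J, KInv (G.D j) (σ j)) {i : ℕ} (hi : i < G.m)
    (ξ : G.Ξ) {u : G.Mic Q} (hu : G.MicOK u) {π : Ω → ℝ} (hπ : ∀ ω, 0 ≤ π ω)
    (cfg : Ω → Fin k → Y)
    (hcap : ∀ v : List (Lb Y), v.length ≤ G.J → v ≠ [] →
      G.z u.1 v ≤ G.CT * ∑ l, prof π cfg (G.path σ i ξ) v l)
    (x : Y) {j : ℕ} (hj : j < G.J) :
    ∑ θ, ∑ j' ∈ range (j + 1),
        ∑ a ∈ (σ j').alive.filter (fun a => G.D j' x ((σ j').cen a) ≤ 1 / 1024),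
          (G.parked (u.2 θ) j' a : ℝ) ≤ Q * G.CT * bm (G.D j) (nu π cfg) x 2 := by
  classical
  set U := (nodes (Lb Y) G.J).filter fun w => w.length = G.J - j ∧
    ∀ y, w <:+ G.path σ i ξ y → y ∈ bl (G.D j) x 2 with hU
  have hU1 : ∀ w ∈ U, w.length = G.J - j := fun w hw => (mem_filter.1 hw).2.1
  have h1 : ∀ θ, ∑ j' ∈ range (j + 1),
      ∑ a ∈ (σ j').alive.filter (fun a => G.D j' x ((σ j').cen a) ≤ 1 / 1024),
        (G.parked (u.2 θ) j' a : ℝ) ≤ ∑ w ∈ U, (cnt (u.2 θ) w : ℝ) := by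
    intro θ
    have e1 : ∑ w ∈ U, (cnt (u.2 θ) w : ℝ) =
        ∑ l, ∑ w ∈ U, if w <:+ u.2 θ l then (1 : ℝ) else 0 := by
      rw [sum_comm]
      refine sum_congr rfl fun w _ => ?_
      unfold cnt
      rw [card_filter]
      push_cast
      rfl
    simp only [gc_parked]
    rw [e1, sum_congr rfl fun j' _ => sum_comm, sum_comm]
    refine sum_le_sum fun l _ => gc_one _ _ _ _ _
      (sum_nonneg fun _ _ => by split_ifs <;> norm_num) fun j' hj' a ha h2 h3 => ?_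
    have hj'' : j' ≤ j := Nat.lt_succ_iff.1 (mem_range.1 hj')
    have hne : u.2 θ l ≠ [] := List.ne_nil_of_length_pos (by omega)
    have hc : cnt (u.2 θ) (u.2 θ l) ≠ 0 :=
      card_ne_zero.2 ⟨l, mem_filter.2 ⟨mem_univ _, List.suffix_refl _⟩⟩
    have hz := G.z_ne_zero_of_cnt hu (hu.len θ l) hc
    have hz' := (G.feas u.1).nonneg _ (hu.len θ l)
    have h4 := hcap _ (hu.len θ l) hne
    obtain ⟨y, hy⟩ : ∃ y, u.2 θ l <:+ G.path σ i ξ y := by
      refine exists_of_sum_prof_ne_zero (π := π) (cfg := cfg) fun h0 => hz ?_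
      rw [h0, mul_zero] at h4
      exact le_antisymm h4 hz'
    have hw : (u.2 θ l).drop (j - j') ∈ U := by
      refine mem_filter.2 ⟨mem_nodes.2 ?_, ?_, fun y' hy' =>
        G.gc_anc hσ hi ξ hy hj hj'' (mem_filter.1 ha).2 h2 h3 hy'⟩
      · rw [List.length_drop]; omega
      · rw [List.length_drop]; omega
    refine le_trans (le_of_eq ?_) (single_le_sum
      (f := fun w => if w <:+ u.2 θ l then (1 : ℝ) else 0)
      (fun _ _ => by split_ifs <;> norm_num) hw)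
    rw [if_pos (List.drop_suffix _ _)]
  refine (sum_le_sum fun θ _ => h1 θ).trans ?_
  rw [sum_comm]
  have h2 := sum_prof_le_nu hπ cfg (G.path σ i ξ) U _ hU1 (bl (G.D j) x 2)
    fun w hw => (mem_filter.1 hw).2.2
  have h3 : 0 ≤ (Q : ℝ) * G.CT := mul_nonneg (Nat.cast_nonneg _) (zero_le_one.trans G.hCT)
  refine le_trans ?_ (mul_le_mul_of_nonneg_left h2 h3)
  rw [mul_sum]
  refine sum_le_sum fun w hw => ?_
  have h4 : w.length ≤ G.J := by rw [hU1 w hw]; omega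
  refine (G.avg_cnt_le hu h4).trans ?_
  rw [mul_assoc]
  exact mul_le_mul_of_nonneg_left
    (hcap w h4 (List.ne_nil_of_length_pos (by rw [hU1 w hw]; omega))) (Nat.cast_nonneg _)

lemma gc_int {u : G.Ξ → Fin G.m → G.Mic Q} (hs : Simple u) (F : (Fin G.m → G.Mic Q) → ℝ) :
    Integrable (fun ξ => F (u ξ)) G.P := (hs.comp F).integrable _

lemma gc_sum {u : G.Ξ → Fin G.m → G.Mic Q} (hs : Simple u) (R : Finset ℕ)
    (A : ℕ → Finset (Option Y)) (c : ℕ → Option Y → ℝ) :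
    G.L * ∑ j ∈ R, ∑ a ∈ A j, G.pbar u j a * c j a =
      ∫ ξ, (∑ ι : Fin G.m × Fin Q, ∑ j ∈ R, ∑ a ∈ A j,
        (G.parked ((u ξ ι.1).2 ι.2) j a : ℝ) * c j a) / Fintype.card (Fin G.m × Fin Q) ∂G.P := by
  have e : ∀ ξ, (∑ ι : Fin G.m × Fin Q, ∑ j ∈ R, ∑ a ∈ A j,
      (G.parked ((u ξ ι.1).2 ι.2) j a : ℝ) * c j a) / Fintype.card (Fin G.m × Fin Q) =
      ∑ j ∈ R, ∑ a ∈ A j, (∑ ι : Fin G.m × Fin Q, (G.parked ((u ξ ι.1).2 ι.2) j a : ℝ)) /
        Fintype.card (Fin G.m × Fin Q) * c j a := by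
    intro ξ
    rw [sum_comm, sum_div]
    refine sum_congr rfl fun j _ => ?_
    rw [sum_comm, sum_div]
    refine sum_congr rfl fun a _ => ?_
    rw [← sum_mul]; ring
  simp only [e]
  rw [integral_finsetSum _ fun j _ => G.gc_int hs fun w => ∑ a ∈ A j,
    (∑ ι : Fin G.m × Fin Q, (G.parked ((w ι.1).2 ι.2) j a : ℝ)) /
        Fintype.card (Fin G.m × Fin Q) * c j a, mul_sum]
  refine sum_congr rfl fun j _ => ?_
  rw [integral_finsetSum _ fun a _ => G.gc_int hs fun w =>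
    (∑ ι : Fin G.m × Fin Q, (G.parked ((w ι.1).2 ι.2) j a : ℝ)) /
        Fintype.card (Fin G.m × Fin Q) * c j a, mul_sum]
  refine sum_congr rfl fun a _ => ?_
  rw [integral_mul_const, pbar, ← mul_assoc, mul_div_cancel₀ _ G.L_pos.ne']

/-- integrate `parked_le`; `CT ≤ L` -/
lemma pnear_cap (hQ : 0 < Q) {σ : ℕ → KD Y} (hσ : ∀ j < G.J, KInv (G.D j) (σ j))
    {u : G.Ξ → Fin G.m → G.Mic Q} (hs : Simple u) (hu : ∀ ξ i, G.MicOK (u ξ i)) {π : Ω → ℝ}
    (hπ : ∀ ω, 0 ≤ π ω) (cfg : Ω → Fin k → Y)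
    (hcap : ∀ ξ (i : Fin G.m) (v : List (Lb Y)), v.length ≤ G.J → v ≠ [] →
      G.z (u ξ i).1 v ≤ G.CT * ∑ l, prof π cfg (G.path σ i ξ) v l)
    (x : Y) {j : ℕ} (hj : j < G.J) :
    ∑ j' ∈ range (j + 1), pnear (G.D j') (σ j') (G.pbar u j') x ≤ bm (G.D j) (nu π cfg) x 2 := by
  have h1 := G.gc_sum hs (range (j + 1))
    (fun j' => (σ j').alive.filter (fun a => G.D j' x ((σ j').cen a) ≤ 1 / 1024)) fun _ _ => 1
  simp only [mul_one] at h1
  have hb : 0 ≤ bm (G.D j) (nu π cfg) x 2 := bm_nonneg (nu_nonneg hπ cfg) _ _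
  have h2 : ∀ ξ, (∑ ι : Fin G.m × Fin Q, ∑ j' ∈ range (j + 1),
      ∑ a ∈ (σ j').alive.filter (fun a => G.D j' x ((σ j').cen a) ≤ 1 / 1024),
        (G.parked ((u ξ ι.1).2 ι.2) j' a : ℝ)) / Fintype.card (Fin G.m × Fin Q) ≤
      G.CT * bm (G.D j) (nu π cfg) x 2 := by
    intro ξ
    have hm : (0 : ℝ) < G.m := by exact_mod_cast G.m_pos
    have hQ' : (0 : ℝ) < Q := by exact_mod_cast hQ
    rw [Fintype.sum_prod_type, Fintype.card_prod, Fintype.card_fin, Fintype.card_fin, Nat.cast_mul,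
      div_le_iff₀ (mul_pos hm hQ')]
    refine (sum_le_sum fun i _ => G.parked_le hσ i.2 ξ (hu ξ i) hπ cfg (hcap ξ i) x hj).trans ?_
    rw [sum_const, card_univ, Fintype.card_fin, nsmul_eq_mul]
    exact le_of_eq (by ring)
  refine le_of_mul_le_mul_left ?_ G.L_pos
  unfold pnear
  rw [h1]
  refine le_trans ?_ (mul_le_mul_of_nonneg_right G.CT_le_L hb)
  refine (integral_mono (G.gc_int hs fun w => (∑ ι : Fin G.m × Fin Q, ∑ j' ∈ range (j + 1),
      ∑ a ∈ (σ j').alive.filter (fun a => G.D j' x ((σ j').cen a) ≤ 1 / 1024),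
        (G.parked ((w ι.1).2 ι.2) j' a : ℝ)) / Fintype.card (Fin G.m × Fin Q))
      (integrable_const _) h2).trans (le_of_eq ?_)
  simp

/-- `loc_drag` for every server (its node is the root or occupied: `z_ne_zero_of_cnt`, `hocc`),
then exchange sums and integral -/
lemma drag_le (hQ : 0 < Q) {σ : ℕ → KD Y} (hσ : ∀ j < G.J, KInv (G.D j) (σ j)) (σ' : ℕ → KD Y)
    {u : G.Ξ → Fin G.m → G.Mic Q} (hs : Simple u) (hu : ∀ ξ i, G.MicOK (u ξ i))
    (hocc : ∀ ξ (i : Fin G.m) (v : List (Lb Y)), v.length ≤ G.J → v ≠ [] → G.z (u ξ i).1 v ≠ 0 →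
      ∃ y, v <:+ G.path σ i ξ y) :
    ∫ ξ, (∑ ι : Fin G.m × Fin Q, ∑ l, dist (G.loc σ ((u ξ ι.1).2 ι.2 l))
        (G.loc σ' ((u ξ ι.1).2 ι.2 l))) / Fintype.card (Fin G.m × Fin Q) ∂G.P ≤
      G.L * ∑ j ∈ range G.J, G.r j * ∑ a ∈ (σ j).alive,
        G.pbar u j a * G.D j ((σ j).cen a) ((σ' j).cen a) := by
  have h1 := G.gc_sum hs (range G.J) (fun j => (σ j).alive)
    fun j a => G.r j * G.D j ((σ j).cen a) ((σ' j).cen a)
  have h2 : ∑ j ∈ range G.J, G.r j * ∑ a ∈ (σ j).alive,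
      G.pbar u j a * G.D j ((σ j).cen a) ((σ' j).cen a) = ∑ j ∈ range G.J, ∑ a ∈ (σ j).alive,
      G.pbar u j a * (G.r j * G.D j ((σ j).cen a) ((σ' j).cen a)) := by
    refine sum_congr rfl fun j _ => ?_
    rw [mul_sum]
    exact sum_congr rfl fun a _ => by ring
  rw [h2, h1]
  refine integral_mono (G.gc_int hs fun w => (∑ ι : Fin G.m × Fin Q, ∑ l,
      dist (G.loc σ ((w ι.1).2 ι.2 l)) (G.loc σ' ((w ι.1).2 ι.2 l))) /
        Fintype.card (Fin G.m × Fin Q))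
    (G.gc_int hs fun w => (∑ ι : Fin G.m × Fin Q, ∑ j ∈ range G.J, ∑ a ∈ (σ j).alive,
      (G.parked ((w ι.1).2 ι.2) j a : ℝ) * (G.r j * G.D j ((σ j).cen a) ((σ' j).cen a))) /
        Fintype.card (Fin G.m × Fin Q)) fun ξ => ?_
  refine div_le_div_of_nonneg_right (sum_le_sum fun ι _ => ?_) (Nat.cast_nonneg _)
  simp only [gc_parked, sum_mul]
  rw [sum_congr rfl fun j _ => sum_comm, sum_comm]
  refine sum_le_sum fun l _ => ?_
  refine (G.loc_drag hσ σ' ι.1.2 (ξ := ξ) ?_).trans (le_of_eq ?_)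
  · by_cases hne : (u ξ ι.1).2 ι.2 l = []
    · exact Or.inl hne
    · refine Or.inr (hocc ξ ι.1 _ ((hu ξ ι.1).len _ _) hne
        (G.z_ne_zero_of_cnt (hu ξ ι.1) ((hu ξ ι.1).len _ _) (θ := ι.2) ?_))
      exact card_ne_zero.2 ⟨l, mem_filter.2 ⟨mem_univ _, List.suffix_refl _⟩⟩
  · refine sum_congr rfl fun j _ => ?_
    rw [mul_sum]
    exact sum_congr rfl fun a _ => by ring

end Base

end Crest.Agent.R314
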