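import Crest.Agent.R314.Defs

/-!
# Part E (glue): data and definitions

`Base k Y` bundles the finite metric space data (minimal distance `δ`, number of levels `J`),
the race, the tree algorithm on labels `Option Y ⊕ Y`, the rounding/transport/profile facts and the
level potentials.  Level `j < J` has scale `r j = δ 2048^j`.
-/

set_option autoImplicit false

open Finset MeasureTheory

namespace Crest.Agent.R314

universe u

/-- labels: kings (`inl`) and atoms (`inr`) -/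
abbrev Lb (Y : Type u) := Option Y ⊕ Y

/-- distance normalised by the scale of level `j` -/
noncomputable def Dj {Y : Type u} [MetricSpace Y] (δ : ℝ) (j : ℕ) (x y : Y) : ℝ :=
  dist x y / (δ * 2048 ^ j)

/-- the statement of `LevelStmt` for given data -/
def LevelAt {Y : Type u} [Fintype Y] [DecidableEq Y] (C : ℝ) (k : ℕ) (η : ℝ) (m : ℕ)
    (D : Y → Y → ℝ) (pot : KD Y → Y → ℝ) (pot0 : KD Y → ℝ) : Prop :=
  (∀ σ, KInv D σ → 0 ≤ pot0 σ ∧ ∀ y, -C ≤ pot σ y) ∧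
  ∀ σ, KInv D σ → ∀ ν : Y → ℝ, (∀ y, 0 ≤ ν y) → ∑ y, ν y = k →
    ∀ (x : Y) (p : Option Y → ℝ), (∀ a, 0 ≤ p a) → ∀ e : ℝ, 0 < e →
      ∃ σ', KInv D σ' ∧ (∀ a ∈ σ.alive, D (σ.cen a) (σ'.cen a) ≤ 1 / 1024) ∧
        ucost D m ν p σ σ' + (∑ y, ν y * pot σ' y + pot0 σ') ≤
          (∑ y, ν y * pot σ y + pot0 σ) + e +
            (if 1 / 2 ≤ bm D ν x (1 / 1024) then 0 else C) ∧
        (∀ y, 1 + pot σ' x - pot σ' y ≤ C * Real.log (k + 1)) ∧
        (1 / 2 ≤ bm D ν x (1 / 1024) → ∀ y, D x y ≤ 1 / 1024 →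
          lavg D m σ' x σ' y + pot σ' x - pot σ' y ≤ C * D x y * rate D η ν σ p x)

structure Base (k : ℕ) (Y : Type u) [Fintype Y] [DecidableEq Y] [MetricSpace Y] where
  hk : 2 ≤ k
  y0 : Y
  δ : ℝ
  J : ℕ
  hδ : 0 < δ
  hsep : ∀ x y : Y, x ≠ y → δ ≤ dist x y
  hJ : 0 < J
  hdiam : ∀ x y : Y, dist x y ≤ δ * 2048 ^ J
  CT : ℝ
  CR : ℝ
  CL : ℝ
  hCT : 1 ≤ CT
  hCR : 1 ≤ CR
  hCL : 1 ≤ CL
  -- the race
  Ξ : Type u
  ms : MeasurableSpace Ξ
  P : Measure Ξ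
  prob : IsProbabilityMeasure P
  win : (Y → ℝ) → Finset Y → Ξ → Y
  win_simple : ∀ μ A, Simple (win μ A)
  win_mem : ∀ μ A ξ, A.Nonempty → win μ A ξ ∈ A
  win_jac : ∀ (μ μ' : Y → ℝ) (A A' : Finset Y), (∀ w, 0 < μ w) → (∀ w, 0 < μ' w) →
    A.Nonempty → A'.Nonempty →
    ∫ ξ, (if win μ A ξ = win μ' A' ξ then (0 : ℝ) else 1) ∂P ≤ jac (rstr μ A) (rstr μ' A')
  -- the tree algorithm
  S : Type u
  z : S → List (Lb Y) → ℝ
  Φ : S → Prof (Lb Y) k → ℝ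
  τ0 : S
  BT : ℝ
  feas : ∀ τ, Feas k J (z τ)
  z0 : ∀ v : List (Lb Y), v ≠ [] → z τ0 v = 0
  Φ0 : ∀ s, IsProf J s → Φ τ0 s ≤ BT
  Φlow : ∀ τ s, IsProf J s → -BT ≤ Φ τ s
  Φconc : ∀ τ, ConcaveOn ℝ (cube (Lb Y) k) (Φ τ)
  Φlip : ∀ τ, ∀ s ∈ cube (Lb Y) k, ∀ s' ∈ cube (Lb Y) k, Φ τ s' ≤ Φ τ s +
    CT * Real.log (k + 1) * ∑ v ∈ nodes (Lb Y) J, wt J v * ∑ i, |s' v i - s v i|
  Φupd : ∀ τ s, IsProf J s → ∃ τ',
    ∑ v ∈ nodes (Lb Y) J, wt J v * |z τ' v - z τ v| + Φ τ' s ≤ Φ τ s ∧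
    (∀ v : List (Lb Y), v.length ≤ J → v ≠ [] → z τ' v ≤ CT * ∑ i, s v i) ∧
    (∀ v : List (Lb Y), v.length ≤ J → (∃ i, s v i = 1) → 1 ≤ z τ' v)
  round : RoundStmt.{u} CR
  trans : TransStmt.{u}
  isProf : ProfStmt.{u}
  -- the levels
  pot : ℕ → KD Y → Y → ℝ
  pot0 : ℕ → KD Y → ℝ
  level : ∀ j < J, LevelAt CL k (1 / (Fintype.card Y * J)) (2048 ^ J) (Dj δ j) (pot j) (pot0 j)

variable {k : ℕ} {Y : Type u} [Fintype Y] [DecidableEq Y] [MetricSpace Y]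

namespace Base

variable (G : Base k Y)

instance : MeasurableSpace G.Ξ := G.ms
instance : IsProbabilityMeasure G.P := G.prob

/-- size of the radius grid -/
abbrev m : ℕ := 2048 ^ G.J
noncomputable abbrev η : ℝ := 1 / (Fintype.card Y * G.J)
/-- scale of level `j` -/
noncomputable abbrev r (j : ℕ) : ℝ := G.δ * 2048 ^ j
noncomputable abbrev D (j : ℕ) : Y → Y → ℝ := Dj G.δ j
/-- bound for the geometric length of a tree edge per unit of `wt` -/
noncomputable def lam : ℝ := 3 * 2048 * G.δ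
/-- price of relabelling one unit of offline mass, per unit of scale -/
noncomputable def L : ℝ := 4 * (3 * 2048) * G.CR * G.CT * Real.log (k + 1)

/-- label of `y` at level `j` for the radius index `i` and the clocks `ξ` -/
noncomputable def lab (j : ℕ) (σ : KD Y) (i : ℕ) (ξ : G.Ξ) (y : Y) : Lb Y :=
  match kingOf (G.D j) σ (rad G.m i) y with
  | some a => Sum.inl a
  | none => Sum.inr (G.win σ.mu (bl (G.D j) y (rad G.m i)) ξ)

/-- the leaf of `y` (level `0` first) -/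
noncomputable def path (σ : ℕ → KD Y) (i : ℕ) (ξ : G.Ξ) (y : Y) : List (Lb Y) :=
  (List.range G.J).map fun j => G.lab j (σ j) i ξ y

/-- geometric location of a tree node -/
def loc (σ : ℕ → KD Y) : List (Lb Y) → Y
  | [] => G.y0
  | Sum.inl a :: t => (σ (G.J - (t.length + 1))).cen a
  | Sum.inr w :: _ => w

/-- micro state: tree state and `Q` rows of labelled server positions -/
abbrev Mic (Q : ℕ) := G.S × (Fin Q → Fin k → List (Lb Y))

structure MicOK {Q : ℕ} (u : G.Mic Q) : Prop where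
  len : ∀ θ l, (u.2 θ l).length ≤ G.J
  round : RoundOK k G.J Q (G.z u.1) fun θ v => cnt (u.2 θ) v

/-- macro state -/
structure Mac (Q : ℕ) where
  σ : ℕ → KD Y
  u : G.Ξ → Fin G.m → G.Mic Q
  inv : ∀ j < G.J, KInv (G.D j) (σ j)
  simple : Simple u
  ok : ∀ ξ i, G.MicOK (u ξ i)
  occ : ∀ ξ (i : Fin G.m) (v : List (Lb Y)), v.length ≤ G.J → v ≠ [] → G.z (u ξ i).1 v ≠ 0 →
    ∃ y, v <:+ G.path σ i ξ y

/-- virtual server positions -/
def q {Q : ℕ} (M : G.Mac Q) (ξ : G.Ξ) (ι : Fin G.m × Fin Q) (l : Fin k) : Y :=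
  G.loc M.σ ((M.u ξ ι.1).2 ι.2 l)

end Base

/-- posterior measure of the offline servers -/
noncomputable def nu {Ω : Type u} [Fintype Ω] (π : Ω → ℝ) (cfg : Ω → Fin k → Y) (y : Y) : ℝ :=
  ∑ ω, π ω * ((univ.filter fun l => cfg ω l = y).card : ℝ)

/-- tree distance between two leaves -/
noncomputable def pd {Lab : Type u} [Fintype Lab] [DecidableEq Lab] (J : ℕ) (p p' : List Lab) : ℝ :=
  ∑ v ∈ nodes Lab J, wt J v * |(if v <:+ p then (1 : ℝ) else 0) - (if v <:+ p' then 1 else 0)|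

namespace Base

variable (G : Base k Y)

/-- tree part of the potential -/
noncomputable def PotT {Q : ℕ} {Ω : Type u} [Fintype Ω] (σ : ℕ → KD Y)
    (u : G.Ξ → Fin G.m → G.Mic Q) (π : Ω → ℝ) (cfg : Ω → Fin k → Y) : ℝ :=
  G.lam * G.CR * ∫ ξ, (∑ i : Fin G.m, G.Φ (u ξ i).1 (prof π cfg (G.path σ i ξ))) / G.m ∂G.P

/-- clustering part of the potential -/
noncomputable def PotL (σ : ℕ → KD Y) (ν : Y → ℝ) : ℝ :=
  G.L * ∑ j ∈ range G.J, G.r j * (∑ y, ν y * G.pot j (σ j) y + G.pot0 j (σ j))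

noncomputable def Pot {Q : ℕ} {Ω : Type u} [Fintype Ω] (M : G.Mac Q) (π : Ω → ℝ)
    (cfg : Ω → Fin k → Y) : ℝ :=
  G.PotT M.σ M.u π cfg + G.PotL M.σ (nu π cfg)

/-- number of servers of one row parked at a node of level `j` with deepest label the king `a` -/
def parked (pos : Fin k → List (Lb Y)) (j : ℕ) (a : Option Y) : ℕ :=
  (univ.filter fun l => (pos l).length + j = G.J ∧ (pos l).head? = some (Sum.inl a)).card

/-- expected parked mass, in units of `L` -/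
noncomputable def pbar {Q : ℕ} (u : G.Ξ → Fin G.m → G.Mic Q) (j : ℕ) (a : Option Y) : ℝ :=
  (∫ ξ, (∑ ι : Fin G.m × Fin Q, (G.parked ((u ξ ι.1).2 ι.2) j a : ℝ)) /
    Fintype.card (Fin G.m × Fin Q) ∂G.P) / G.L

/-- total weight of the tree -/
noncomputable def W : ℝ := ∑ v ∈ nodes (Lb Y) G.J, wt G.J v

/-- level `j` sees mass `≥ 1/2` next to `x` -/
def Near (ν : Y → ℝ) (x : Y) (j : ℕ) : Prop := 1 / 2 ≤ bm (G.D j) ν x (1 / 1024)

end Base

end Crest.Agent.R314
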