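import Crest.Agent.R314.LBasic

/-!
# Part D: the weighted Jaccard distance, label distances, re-optimisation of the weights

`jac a b = 2 d / (|a| + |b| + d)` with `d = ∑ |a - b|` (since `∑ max - ∑ min = d`,
`∑ max + ∑ min = |a| + |b|`).  Triangle inequality (Steinhaus transform): with `p = d(a,c)`,
`q = d(a,b) + d(b,c) ≥ p`: `2p/(|a|+|c|+p) ≤ 2q/(|a|+|c|+q)`, and `|c| + d(b,c) ≥ |b|`,
`|a| + d(a,b) ≥ |b|`.
-/

set_option autoImplicit false

open Finset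

namespace Crest.Agent.R314

universe u

variable {Y : Type u} [Fintype Y] [DecidableEq Y] {k m : ℕ} {D : Y → Y → ℝ} {η : ℝ} {ν : Y → ℝ}

omit [DecidableEq Y] in
lemma jac_nonneg {a b : Y → ℝ} (ha : ∀ w, 0 ≤ a w) (hb : ∀ w, 0 ≤ b w) : 0 ≤ jac a b := by
  have _ := hb
  exact sub_nonneg.2 (div_le_one_of_le₀ (sum_le_sum fun w _ => min_le_max)
    (sum_nonneg fun w _ => le_max_of_le_left (ha w)))
omit [DecidableEq Y] in
lemma jac_le_one {a b : Y → ℝ} (ha : ∀ w, 0 ≤ a w) (hb : ∀ w, 0 ≤ b w) : jac a b ≤ 1 := by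
  exact sub_le_self _ (div_nonneg (sum_nonneg fun w _ => le_min (ha w) (hb w))
    (sum_nonneg fun w _ => le_max_of_le_left (ha w)))
omit [DecidableEq Y] in
lemma jac_self {a : Y → ℝ} (ha : 0 < ∑ w, a w) : jac a a = 0 := by
  simp [jac, ha.ne']
omit [DecidableEq Y] in
lemma jac_eq {a b : Y → ℝ} (h : 0 < ∑ w, a w + ∑ w, b w) :
    jac a b = 2 * (∑ w, |a w - b w|) / (∑ w, a w + ∑ w, b w + ∑ w, |a w - b w|) := by
  have h0 : 0 ≤ ∑ w, |a w - b w| := sum_nonneg fun _ _ => abs_nonneg _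
  have h1 : ∑ w, max (a w) (b w) + ∑ w, min (a w) (b w) = ∑ w, a w + ∑ w, b w := by
    simp only [← sum_add_distrib, max_add_min]
  have h2 : ∑ w, max (a w) (b w) - ∑ w, min (a w) (b w) = ∑ w, |a w - b w| := by
    simp only [← sum_sub_distrib, max_sub_min_eq_abs']
  have h3 : 0 < ∑ w, max (a w) (b w) := by linarith
  rw [jac, ← h1, ← h2, one_sub_div h3.ne', div_eq_div_iff h3.ne' (by linarith)]
  ring
omit [DecidableEq Y] in
lemma jac_triangle {a b c : Y → ℝ} (ha : ∀ w, 0 ≤ a w) (hb : ∀ w, 0 ≤ b w) (hc : ∀ w, 0 ≤ c w)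
    (ha' : 0 < ∑ w, a w) (hb' : 0 < ∑ w, b w) (hc' : 0 < ∑ w, c w) :
    jac a c ≤ jac a b + jac b c := by
  have _ := ha
  have _ := hb
  have _ := hc
  have nn : ∀ a b : Y → ℝ, 0 ≤ ∑ w, |a w - b w| := fun _ _ => sum_nonneg fun _ _ => abs_nonneg _
  have h1 : ∑ w, |a w - c w| ≤ ∑ w, |a w - b w| + ∑ w, |b w - c w| := by
    rw [← sum_add_distrib]
    exact sum_le_sum fun w _ => abs_sub_le _ _ _
  have h2 : ∑ w, b w ≤ ∑ w, a w + ∑ w, |a w - b w| := by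
    rw [← sum_add_distrib]
    exact sum_le_sum fun w _ => by linarith [neg_le_abs (a w - b w)]
  have h3 : ∑ w, b w ≤ ∑ w, c w + ∑ w, |b w - c w| := by
    rw [← sum_add_distrib]
    exact sum_le_sum fun w _ => by linarith [le_abs_self (b w - c w)]
  rw [jac_eq (add_pos ha' hc'), jac_eq (add_pos ha' hb'), jac_eq (add_pos hb' hc')]
  have n1 := nn a c
  have n2 := nn a b
  have n3 := nn b c
  generalize ∑ w, |a w - c w| = p at *
  generalize ∑ w, |a w - b w| = x at *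
  generalize ∑ w, |b w - c w| = y at *
  generalize ∑ w, a w = A at *
  generalize ∑ w, b w = B at *
  generalize ∑ w, c w = C at *
  calc 2 * p / (A + C + p) ≤ 2 * (x + y) / (A + C + (x + y)) := by
        rw [div_le_div_iff₀ (by positivity) (by positivity)]
        nlinarith [mul_le_mul_of_nonneg_left h1 (add_pos ha' hc').le]
    _ = 2 * x / (A + C + (x + y)) + 2 * y / (A + C + (x + y)) := by ring
    _ ≤ _ := add_le_add (div_le_div_of_nonneg_left (by positivity) (by positivity) (by linarith))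
        (div_le_div_of_nonneg_left (by positivity) (by positivity) (by linarith))
omit [DecidableEq Y] in
lemma jac_le_of {a b : Y → ℝ} {lo hi : ℝ} (hlo : 0 < lo) (h1 : lo ≤ ∑ w, min (a w) (b w))
    (h2 : ∑ w, max (a w) (b w) ≤ hi) : jac a b ≤ 1 - lo / hi := by
  have h3 : ∑ w, min (a w) (b w) ≤ ∑ w, max (a w) (b w) := sum_le_sum fun w _ => min_le_max
  exact sub_le_sub_left (div_le_div₀ (by linarith) h1 (by linarith) h2) 1
lemma sum_rstr_bl (μ : Y → ℝ) (y : Y) (R : ℝ) : ∑ w, rstr μ (bl D y R) w = bm D μ y R := by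
  simp [rstr, bm]

omit [Fintype Y] in
lemma rstr_nonneg {μ : Y → ℝ} (hμ : ∀ y, 0 < μ y) (A : Finset Y) (w : Y) : 0 ≤ rstr μ A w := by
  unfold rstr
  split_ifs
  · exact (hμ w).le
  · rfl

lemma ldist_nonneg {σ σ' : KD Y} (hσ : KInv D σ) (hσ' : KInv D σ') (R : ℝ) (y y' : Y) :
    0 ≤ ldist D R σ y σ' y' := by
  unfold ldist
  split_ifs
  · exact jac_nonneg (rstr_nonneg hσ.pos _) (rstr_nonneg hσ'.pos _)
  · rfl
  · exact zero_le_one
lemma ldist_le_one {σ σ' : KD Y} (hσ : KInv D σ) (hσ' : KInv D σ') (R : ℝ) (y y' : Y) :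
    ldist D R σ y σ' y' ≤ 1 := by
  unfold ldist
  split_ifs
  · exact jac_le_one (rstr_nonneg hσ.pos _) (rstr_nonneg hσ'.pos _)
  · exact zero_le_one
  · rfl
/-- same king status and same weights: distance zero -/
lemma ldist_eq_zero (h : IsMet D) {σ σ' : KD Y} (hσ : KInv D σ) {R : ℝ} (hR : 0 ≤ R) {y : Y}
    (hk : kingOf D σ R y = kingOf D σ' R y) (hμ : σ'.mu = σ.mu) : ldist D R σ y σ' y = 0 := by
  rw [ldist, if_pos hk, hμ, jac_self (by rw [sum_rstr_bl]; exact bm_pos h hσ.pos y hR), ite_self]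
lemma ldist_triangle (h : IsMet D) {σ₁ σ₂ σ₃ : KD Y} (h₁ : KInv D σ₁) (h₂ : KInv D σ₂)
    (h₃ : KInv D σ₃) {R : ℝ} (hR : 0 ≤ R) (y₁ y₂ y₃ : Y) :
    ldist D R σ₁ y₁ σ₃ y₃ ≤ ldist D R σ₁ y₁ σ₂ y₂ + ldist D R σ₂ y₂ σ₃ y₃ := by
  have a1 := ldist_le_one h₁ h₃ R y₁ y₃
  have a2 := ldist_nonneg h₁ h₂ R y₁ y₂
  have a3 := ldist_nonneg h₂ h₃ R y₂ y₃
  by_cases e1 : kingOf D σ₁ R y₁ = kingOf D σ₂ R y₂
  · by_cases e2 : kingOf D σ₂ R y₂ = kingOf D σ₃ R y₃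
    · rw [ldist, ldist, ldist, if_pos e1, if_pos e2, if_pos (e1.trans e2), ← e1]
      split_ifs
      · refine jac_triangle (rstr_nonneg h₁.pos _) (rstr_nonneg h₂.pos _) (rstr_nonneg h₃.pos _)
          ?_ ?_ ?_ <;> rw [sum_rstr_bl]
        exacts [bm_pos h h₁.pos _ hR, bm_pos h h₂.pos _ hR, bm_pos h h₃.pos _ hR]
      · simp
    · rw [ldist.eq_1 D R σ₂, if_neg e2]
      linarith
  · rw [ldist.eq_1 D R σ₁ y₁ σ₂, if_neg e1]
    linarith
lemma lavg_nonneg {σ σ' : KD Y} (hσ : KInv D σ) (hσ' : KInv D σ') (y y' : Y) :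
    0 ≤ lavg D m σ y σ' y' := by
  exact div_nonneg (sum_nonneg fun _ _ => ldist_nonneg hσ hσ' _ _ _) (Nat.cast_nonneg _)
lemma lavg_le_one {σ σ' : KD Y} (hσ : KInv D σ) (hσ' : KInv D σ') (y y' : Y) :
    lavg D m σ y σ' y' ≤ 1 := by
  rcases Nat.eq_zero_or_pos m with rfl | hm
  · simp [lavg]
  · exact lb_avg_le hm fun _ _ => ldist_le_one hσ hσ' _ _ _
lemma rel_nonneg (c : Ctx k D m η ν) {σ σ' : KD Y} (hσ : KInv D σ) (hσ' : KInv D σ') :
    0 ≤ rel D m ν σ σ' := by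
  exact sum_nonneg fun y _ => mul_nonneg (c.ν0 y) (lavg_nonneg hσ hσ' _ _)
lemma rel_self (c : Ctx k D m η ν) {σ : KD Y} (hσ : KInv D σ) : rel D m ν σ σ = 0 := by
  refine sum_eq_zero fun y _ => ?_
  rw [lavg, sum_eq_zero fun i _ => ldist_eq_zero c.met hσ (by linarith [rad_ge m i]) rfl rfl,
    zero_div, mul_zero]
lemma rel_triangle (c : Ctx k D m η ν) {σ₁ σ₂ σ₃ : KD Y} (h₁ : KInv D σ₁) (h₂ : KInv D σ₂)
    (h₃ : KInv D σ₃) : rel D m ν σ₁ σ₃ ≤ rel D m ν σ₁ σ₂ + rel D m ν σ₂ σ₃ := by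
  rw [rel, rel, rel, ← sum_add_distrib]
  refine sum_le_sum fun y _ => ?_
  rw [← mul_add, lavg, lavg, lavg, ← add_div, ← sum_add_distrib]
  exact mul_le_mul_of_nonneg_left (div_le_div_of_nonneg_right (sum_le_sum fun i _ =>
    ldist_triangle c.met h₁ h₂ h₃ (by linarith [rad_ge m i]) y y y) (Nat.cast_nonneg _)) (c.ν0 y)

/-- only the weights change: uncaptured points are fully exposed (`cR_eq_one_of_none`), so the
relabelled mass is bounded through `nuR`. -/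
lemma rel_setMu_le (c : Ctx k D m η ν) {σ : KD Y} (hσ : KInv D σ) {μ : Y → ℝ} (hμ : ∀ y, 0 < μ y)
    (g : Y → ℕ → ℝ) (hg : ∀ y, ∀ i < m,
      jac (rstr σ.mu (bl D y (rad m i))) (rstr μ (bl D y (rad m i))) ≤ g y i) :
    rel D m ν σ (setMu σ μ) ≤ ∑ y, nuR D η ν σ y * ((∑ i ∈ range m, g y i) / m) := by
  refine sum_le_sum fun y _ => ?_
  rw [lavg, ← mul_div_assoc, ← mul_div_assoc, mul_sum, mul_sum]
  refine div_le_div_of_nonneg_right (sum_le_sum fun i hi => ?_) (Nat.cast_nonneg _)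
  have h1 := hg y i (mem_range.1 hi)
  have h2 := jac_nonneg (rstr_nonneg hσ.pos (bl D y (rad m i))) (rstr_nonneg hμ (bl D y (rad m i)))
  have h3 := c.ηpos.le.trans (eta_le_nuR c σ y)
  rw [ldist, if_pos (kingOf_setMu σ μ _ y).symm]
  split_ifs with h4
  · refine mul_le_mul ?_ h1 h2 h3
    rw [nuR, cR_eq_one_of_none (rad_ge m i) h4, one_mul]
    linarith [c.ηpos]
  · rw [mul_zero]
    exact mul_nonneg h3 (h2.trans h1)

/-- only the kings change, and only near `z`: the relabelled mass is at most that of a ball -/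
lemma rel_le_bm (c : Ctx k D m η ν) {σ σ' : KD Y} (hσ : KInv D σ) (hσ' : KInv D σ')
    (hμ : σ'.mu = σ.mu) (z : Y) (r : ℝ)
    (hk : ∀ y, r < D z y → ∀ i < m, kingOf D σ (rad m i) y = kingOf D σ' (rad m i) y) :
    rel D m ν σ σ' ≤ bm D ν z r := by
  rw [rel, bm, bl, sum_filter]
  refine sum_le_sum fun y _ => ?_
  split_ifs with h
  · exact mul_le_of_le_one_right (c.ν0 y) (lavg_le_one hσ hσ' _ _)
  · rw [lavg, sum_eq_zero fun i hi => ldist_eq_zero c.met hσ (by linarith [rad_ge m i])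
      (hk y (not_le.1 h) i (mem_range.1 hi)) hμ, zero_div, mul_zero]

/-- Re-optimisation.  `f μ = 2 Psi (setMu σ μ) + rel σ (setMu σ μ) ≥ 0` on positive weights; take
`μ` with `f μ < inf f + e` (if `e = 0` is excluded by `he`).  Then `f μ ≤ f σ.mu + e = 2 Psi σ + e`, and
for any `μ''`: `f μ ≤ f μ'' + e ≤ 2 Psi μ'' + rel σ (setMu σ μ) + rel (setMu σ μ) (setMu σ μ'') + e`. -/
lemma reopt (c : Ctx k D m η ν) {σ : KD Y} (hσ : KInv D σ) {e : ℝ} (he : 0 < e)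
    (hs : e * (4096 * (k + 1)) < η ^ 2) :
    ∃ μ : Y → ℝ, (∀ y, 0 < μ y) ∧ Stat k D m η ν (setMu σ μ) e ∧
      rel D m ν σ (setMu σ μ) + Pot D m η ν (setMu σ μ) ≤ Pot D m η ν σ + e := by
  let S : Set ℝ := {t | ∃ μ : Y → ℝ, (∀ y, 0 < μ y) ∧
    2 * Psi D m η ν (setMu σ μ) + rel D m ν σ (setMu σ μ) = t}
  have hb : BddBelow S := ⟨0, by
    rintro _ ⟨μ, hμ, rfl⟩
    linarith [Psi_nonneg c (hσ.setMu hμ), rel_nonneg c hσ (hσ.setMu hμ)]⟩
  obtain ⟨_, ⟨μ, hμ, rfl⟩, h1⟩ := Real.lt_sInf_add_pos (s := S) ⟨_, σ.mu, hσ.pos, rfl⟩ he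
  refine ⟨μ, hμ, ⟨he.le, hs, fun μ' hμ' => ?_⟩, ?_⟩
  · have h2 := csInf_le hb ⟨μ', hμ', rfl⟩
    have h3 := rel_triangle c hσ (hσ.setMu hμ) (hσ.setMu hμ')
    change _ ≤ 2 * Psi D m η ν (setMu σ μ') + rel D m ν (setMu σ μ) (setMu σ μ') + e
    linarith
  · have h2 : sInf S ≤ 2 * Psi D m η ν σ + rel D m ν σ σ := csInf_le hb ⟨σ.mu, hσ.pos, rfl⟩
    rw [rel_self c hσ] at h2
    change _ + (2 * Psi D m η ν (setMu σ μ) + KK * ∑ a ∈ σ.alive, PK D ν (σ.cen a)) ≤ _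
    rw [Pot]
    linarith

end Crest.Agent.R314
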