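import Crest.Agent.R314.Defs

/-!
# R314 — simple random variables
-/

set_option autoImplicit false

open MeasureTheory

namespace Crest.Agent.R314

variable {Ξ : Type*} [MeasurableSpace Ξ] {α β γ : Type*}

theorem Simple.const (a : α) : Simple (fun _ : Ξ => a) := by
  refine ⟨(Set.finite_singleton a).subset (by rintro _ ⟨_, rfl⟩; rfl), fun b => ?_⟩
  by_cases h : a = b
  · subst h; simp
  · have : (fun _ : Ξ => a) ⁻¹' {b} = ∅ := by ext; simp [h]
    rw [this]; exact MeasurableSet.empty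

theorem Simple.preimage {f : Ξ → α} (hf : Simple f) (S : Set α) : MeasurableSet (f ⁻¹' S) := by
  have : f ⁻¹' S = ⋃ a ∈ Set.range f ∩ S, f ⁻¹' {a} := by
    ext ξ; simp
  rw [this]
  exact (hf.1.inter_of_left S).measurableSet_biUnion fun a _ => hf.2 a

theorem Simple.comp {f : Ξ → α} (hf : Simple f) (g : α → β) : Simple (fun ξ => g (f ξ)) := by
  refine ⟨(hf.1.image g).subset ?_, fun b => hf.preimage (g ⁻¹' {b})⟩
  rintro _ ⟨ξ, rfl⟩
  exact ⟨f ξ, ⟨ξ, rfl⟩, rfl⟩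

theorem Simple.prod {f : Ξ → α} {g : Ξ → β} (hf : Simple f) (hg : Simple g) :
    Simple (fun ξ => (f ξ, g ξ)) := by
  refine ⟨(hf.1.prod hg.1).subset ?_, fun ⟨a, b⟩ => ?_⟩
  · rintro _ ⟨ξ, rfl⟩
    exact ⟨⟨ξ, rfl⟩, ⟨ξ, rfl⟩⟩
  · have : (fun ξ => (f ξ, g ξ)) ⁻¹' {(a, b)} = f ⁻¹' {a} ∩ g ⁻¹' {b} := by ext; simp
    rw [this]
    exact (hf.2 a).inter (hg.2 b)

theorem Simple.comp₂ {f : Ξ → α} {g : Ξ → β} (hf : Simple f) (hg : Simple g) (h : α → β → γ) :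
    Simple (fun ξ => h (f ξ) (g ξ)) :=
  (hf.prod hg).comp fun p => h p.1 p.2

theorem Simple.pi {ι : Type*} [Finite ι] {δ : ι → Type*} {f : Ξ → ∀ i, δ i}
    (hf : ∀ i, Simple fun ξ => f ξ i) : Simple f := by
  refine ⟨(Set.Finite.pi' fun i => (hf i).1).subset ?_, fun a => ?_⟩
  · rintro _ ⟨ξ, rfl⟩ i
    exact ⟨ξ, rfl⟩
  · have : f ⁻¹' {a} = ⋂ i, (fun ξ => f ξ i) ⁻¹' {a i} := by
      ext; simp [funext_iff]
    rw [this]
    exact MeasurableSet.iInter fun i => (hf i).2 (a i)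

theorem Simple.measurable [MeasurableSpace α] {f : Ξ → α} (hf : Simple f) : Measurable f :=
  fun S _ => hf.preimage S

theorem Simple.bdd {f : Ξ → ℝ} (hf : Simple f) : ∃ C, ∀ ξ, |f ξ| ≤ C := by
  obtain ⟨C, hC⟩ := (hf.1.image fun x => |x|).bddAbove
  exact ⟨C, fun ξ => hC ⟨f ξ, ⟨ξ, rfl⟩, rfl⟩⟩

theorem Simple.integrable {f : Ξ → ℝ} (hf : Simple f) (P : Measure Ξ) [IsFiniteMeasure P] :
    Integrable f P := by
  obtain ⟨C, hC⟩ := hf.bdd
  exact Integrable.of_bound hf.measurable.aestronglyMeasurable C (Filter.Eventually.of_forall hC)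

/-- a choice that depends only on the value of a simple random variable is simple -/
theorem Simple.choose {f : Ξ → α} (hf : Simple f) {R : α → β → Prop} (h : ∀ ξ, ∃ b, R (f ξ) b) :
    ∃ g : Ξ → β, Simple g ∧ ∀ ξ, R (f ξ) (g ξ) := by
  classical
  rcases isEmpty_or_nonempty Ξ with hΞ | ⟨⟨ξ0⟩⟩
  · exact ⟨fun ξ => hΞ.elim ξ, ⟨by simp [Set.range_eq_empty], fun _ => by
      rw [Set.eq_empty_of_isEmpty (_ ⁻¹' _)]; exact MeasurableSet.empty⟩, fun ξ => hΞ.elim ξ⟩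
  · let G : α → β := fun a => if ha : ∃ b, R a b then ha.choose else (h ξ0).choose
    refine ⟨fun ξ => G (f ξ), hf.comp G, fun ξ => ?_⟩
    simp only [G, dif_pos (h ξ)]
    exact (h ξ).choose_spec

/-- some point is at most the average -/
theorem Simple.exists_le {f : Ξ → ℝ} (hf : Simple f) (P : Measure Ξ) [IsProbabilityMeasure P] :
    ∃ ξ, f ξ ≤ ∫ ξ, f ξ ∂P :=
  exists_le_integral (hf.integrable P)

end Crest.Agent.R314
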