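import Crest.Agent.R314.GDefs
import Crest.Agent.R314.Simple
import Crest.Agent.R314.LJac

/-!
# Part E: geometry of labels, leaves and node locations
-/

set_option autoImplicit false

open Finset MeasureTheory

namespace Crest.Agent.R314

universe u

variable {k : ℕ} {Y : Type u} [Fintype Y] [DecidableEq Y] [MetricSpace Y]

namespace Base

variable (G : Base k Y)

lemma r_pos (j : ℕ) : 0 < G.r j := by
  exact mul_pos G.hδ (by positivity)
lemma isMet (j : ℕ) : IsMet (G.D j) := by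
  refine ⟨fun x => by simp [Dj], fun x y => by simp only [Dj, dist_comm], fun x y z => ?_⟩
  simp only [Dj, ← add_div]
  exact div_le_div_of_nonneg_right (dist_triangle x y z) (G.r_pos j).le
lemma dist_eq (j : ℕ) (x y : Y) : dist x y = G.r j * G.D j x y := by
  exact (mul_div_cancel₀ _ (G.r_pos j).ne').symm
lemma m_pos : 0 < G.m := by
  exact pow_pos (by norm_num) _
lemma lam_pos : 0 < G.lam := by
  exact mul_pos (by norm_num) G.hδ
lemma CT_le_L : G.CT ≤ G.L := by
  have h1 : (2 : ℝ) ≤ k := by exact_mod_cast G.hk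
  have h2 : Real.log 2 ≤ Real.log (k + 1) := Real.log_le_log two_pos (by linarith)
  have h3 := Real.log_two_gt_d9
  have h4 := G.hCT
  have h5 := G.hCR
  have h6 : 1 * G.CT * (1 / 2) ≤ G.CR * G.CT * Real.log (k + 1) := by
    gcongr
    linarith
  unfold L
  linarith
lemma L_pos : 0 < G.L := by
  exact (one_pos.trans_le G.hCT).trans_le G.CT_le_L
/-- `lam CR CT log(k+1) · 4 · 2048^j = L · r j` -/
lemma L_mul_r (j : ℕ) :
    G.lam * G.CR * (G.CT * Real.log (k + 1)) * (4 * 2048 ^ j) = G.L * G.r j := by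
  unfold lam L r
  ring

lemma path_length (σ : ℕ → KD Y) (i : ℕ) (ξ : G.Ξ) (y : Y) : (G.path σ i ξ y).length = G.J := by
  simp [path]

/-- the deepest label of a node above `y` -/
lemma head_eq_lab {σ : ℕ → KD Y} {i : ℕ} {ξ : G.Ξ} {y : Y} {b : Lb Y} {t : List (Lb Y)}
    (h : (b :: t) <:+ G.path σ i ξ y) :
    t.length < G.J ∧ b = G.lab (G.J - (t.length + 1)) (σ (G.J - (t.length + 1))) i ξ y := by
  obtain ⟨p, hp⟩ := h
  have h1 := congrArg List.length hp
  rw [G.path_length, List.length_append, List.length_cons] at h1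
  have h2 := congrArg (·[p.length]?) hp
  have h3 : p.length < G.J := by omega
  simp only [path, List.getElem?_map, List.getElem?_range h3, Option.map_some,
    List.getElem?_append_right le_rfl, Nat.sub_self, List.getElem?_cons_zero,
    Option.some.injEq] at h2
  rw [show G.J - (t.length + 1) = p.length by omega]
  exact ⟨by omega, h2⟩

lemma lab_inl {j : ℕ} {σ : KD Y} (hσ : KInv (G.D j) σ) {i : ℕ} (hi : i < G.m) {ξ : G.Ξ} {y : Y}
    {a : Option Y} (h : G.lab j σ i ξ y = Sum.inl a) :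
    a ∈ σ.alive ∧ G.D j y (σ.cen a) ≤ 1 / 2 := by
  have h1 := rad_lt hi
  unfold lab at h
  split at h
  · next b hb =>
    obtain rfl := Sum.inl.inj h
    have := (kingOf_eq_some (G.isMet j) hσ (by linarith)).1 hb
    exact ⟨this.1, by linarith [this.2]⟩
  · exact absurd h (by simp)

lemma gg_bl (j i : ℕ) (y : Y) : (bl (G.D j) y (rad G.m i)).Nonempty :=
  ⟨y, mem_bl.2 (by rw [(G.isMet j).self]; linarith [rad_ge G.m i])⟩

lemma lab_inr {j : ℕ} {σ : KD Y} {i : ℕ} (hi : i < G.m) {ξ : G.Ξ} {y w : Y}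
    (h : G.lab j σ i ξ y = Sum.inr w) : G.D j y w ≤ 1 / 2 := by
  unfold lab at h
  split at h
  · exact absurd h (by simp)
  · obtain rfl := Sum.inr.inj h
    exact (mem_bl.1 (G.win_mem _ _ ξ (G.gg_bl j i y))).trans (rad_lt hi).le

lemma dist_loc {σ : ℕ → KD Y} (hσ : ∀ j < G.J, KInv (G.D j) (σ j)) {i : ℕ} (hi : i < G.m)
    {ξ : G.Ξ} {y : Y} {v : List (Lb Y)} (hv : v ≠ []) (h : v <:+ G.path σ i ξ y) :
    dist y (G.loc σ v) ≤ G.r (G.J - v.length) / 2 := by
  obtain ⟨b, t, rfl⟩ := List.exists_cons_of_ne_nil hv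
  obtain ⟨h1, h2⟩ := G.head_eq_lab h
  rw [G.dist_eq (G.J - (t.length + 1)), div_eq_mul_one_div]
  refine mul_le_mul_of_nonneg_left ?_ (G.r_pos _).le
  cases b with
  | inl a => exact (G.lab_inl (hσ _ (by omega)) hi h2.symm).2
  | inr w => exact G.lab_inr hi h2.symm

/-- `r 0 / 2 < δ` -/
lemma loc_path {σ : ℕ → KD Y} (hσ : ∀ j < G.J, KInv (G.D j) (σ j)) {i : ℕ} (hi : i < G.m)
    (ξ : G.Ξ) (y : Y) : G.loc σ (G.path σ i ξ y) = y := by
  have h1 := G.dist_loc hσ hi (ξ := ξ) (y := y) (List.ne_nil_of_length_pos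
    (by rw [G.path_length]; exact G.hJ)) (List.suffix_refl _)
  rw [G.path_length, Nat.sub_self] at h1
  by_contra hne
  have h2 := G.hsep _ _ (Ne.symm hne)
  have h3 := G.hδ
  simp only [r, pow_zero, mul_one] at h1
  linarith

lemma gg_dist {σ σ' : ℕ → KD Y} (hσ : ∀ j < G.J, KInv (G.D j) (σ j))
    (hmv : ∀ j < G.J, ∀ a ∈ (σ j).alive, G.D j ((σ j).cen a) ((σ' j).cen a) ≤ 1 / 1024)
    {i : ℕ} (hi : i < G.m) {ξ : G.Ξ} {y : Y} {v : List (Lb Y)} (h : v <:+ G.path σ i ξ y) :
    dist y (G.loc σ' v) ≤ G.r (G.J - v.length) := by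
  cases v with
  | nil => exact G.hdiam _ _
  | cons b t =>
    obtain ⟨h1, h2⟩ := G.head_eq_lab h
    rw [G.dist_eq (G.J - (t.length + 1))]
    refine mul_le_of_le_one_right (G.r_pos _).le ?_
    cases b with
    | inl a =>
      obtain ⟨h3, h4⟩ := G.lab_inl (hσ _ (by omega)) hi h2.symm
      exact ((G.isMet _).tri _ _ _).trans ((add_le_add h4 (hmv _ (by omega) a h3)).trans
        (by norm_num))
    | inr w => exact (G.lab_inr hi h2.symm).trans (by norm_num)

/-- an occupied node and its parent are close, also after the kings moved a little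
(for the root use `hdiam`) -/
lemma edge_len {σ σ' : ℕ → KD Y} (hσ : ∀ j < G.J, KInv (G.D j) (σ j))
    (hmv : ∀ j < G.J, ∀ a ∈ (σ j).alive, G.D j ((σ j).cen a) ((σ' j).cen a) ≤ 1 / 1024)
    {i : ℕ} (hi : i < G.m) {ξ : G.Ξ} {y : Y} {v : List (Lb Y)} (hv : v ≠ [])
    (h : v <:+ G.path σ i ξ y) :
    dist (G.loc σ' v) (G.loc σ' v.tail) ≤ G.lam * wt G.J v := by
  obtain ⟨b, t, rfl⟩ := List.exists_cons_of_ne_nil hv
  have h1 := G.gg_dist hσ hmv hi h
  have h2 := G.gg_dist hσ hmv hi ((List.suffix_cons b t).trans h)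
  have h3 := (G.head_eq_lab h).1
  rw [show G.J - t.length = G.J - (b :: t).length + 1 by rw [List.length_cons]; omega] at h2
  have h4 := G.r_pos (G.J - (b :: t).length)
  refine (dist_triangle_left _ _ y).trans ?_
  simp only [r, pow_succ, List.tail_cons, lam, wt] at *
  linarith

/-- the location of an occupied node moves only if its deepest label is a living king -/
lemma loc_drag {σ : ℕ → KD Y} (hσ : ∀ j < G.J, KInv (G.D j) (σ j)) (σ' : ℕ → KD Y)
    {i : ℕ} (hi : i < G.m) {ξ : G.Ξ} {v : List (Lb Y)}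
    (h : v = [] ∨ ∃ y, v <:+ G.path σ i ξ y) :
    dist (G.loc σ v) (G.loc σ' v) ≤ ∑ j ∈ range G.J, G.r j * ∑ a ∈ (σ j).alive,
      (if v.length + j = G.J ∧ v.head? = some (Sum.inl a) then (1 : ℝ) else 0) *
        G.D j ((σ j).cen a) ((σ' j).cen a) := by
  have nn : ∀ j a, 0 ≤ (if v.length + j = G.J ∧ v.head? = some (Sum.inl a) then (1 : ℝ) else 0) *
      G.D j ((σ j).cen a) ((σ' j).cen a) := fun j a =>
    mul_nonneg (by split_ifs <;> norm_num) ((G.isMet j).nonneg _ _)
  have nn' := fun j (_ : j ∈ range G.J) =>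
    mul_nonneg (G.r_pos j).le (sum_nonneg fun a (_ : a ∈ (σ j).alive) => nn j a)
  match v, h with
  | [], _ => exact (dist_self _).trans_le (sum_nonneg nn')
  | Sum.inr w :: t, _ => exact (dist_self _).trans_le (sum_nonneg nn')
  | Sum.inl a :: t, h =>
    obtain ⟨y, h⟩ := h.resolve_left (by simp)
    obtain ⟨h1, h2⟩ := G.head_eq_lab h
    have h3 : G.J - (t.length + 1) < G.J := by omega
    refine le_trans ?_ (single_le_sum nn' (mem_range.2 h3))
    rw [G.dist_eq (G.J - (t.length + 1))]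
    refine mul_le_mul_of_nonneg_left (le_trans ?_ (single_le_sum (fun a _ => nn _ a)
      (G.lab_inl (hσ _ h3) hi h2.symm).1)) (G.r_pos _).le
    rw [if_pos ⟨by rw [List.length_cons]; omega, rfl⟩, one_mul]
    rfl

lemma lab_simple (j : ℕ) (σ : KD Y) (i : ℕ) (y : Y) : Simple fun ξ => G.lab j σ i ξ y := by
  unfold lab
  split
  · exact Simple.const _
  · exact (G.win_simple _ _).comp Sum.inr

lemma path_simple (σ : ℕ → KD Y) :
    Simple fun ξ => fun (i : Fin G.m) (y : Y) => G.path σ i ξ y := by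
  refine Simple.pi fun i => Simple.pi fun y => ?_
  unfold path
  induction List.range G.J with
  | nil => exact Simple.const _
  | cons j l ih => exact (G.lab_simple j (σ j) i y).comp₂ ih List.cons

/-- for each radius: different king status gives `1`, the same king gives `0`, no king gives
`win_jac` (balls are nonempty) -/
lemma lab_prob {j : ℕ} {σ σ' : KD Y} (hσ : KInv (G.D j) σ) (hσ' : KInv (G.D j) σ') (y y' : Y) :
    ∫ ξ, (∑ i : Fin G.m, if G.lab j σ i ξ y = G.lab j σ' i ξ y' then (0 : ℝ) else 1) / G.m ∂G.P ≤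
      lavg (G.D j) G.m σ y σ' y' := by
  have hs : ∀ i : ℕ, Simple fun ξ =>
      if G.lab j σ i ξ y = G.lab j σ' i ξ y' then (0 : ℝ) else 1 := fun i =>
    (G.lab_simple j σ i y).comp₂ (G.lab_simple j σ' i y') fun a b => if a = b then (0 : ℝ) else 1
  rw [integral_div,
    integral_finsetSum _ fun (i : Fin G.m) _ => (hs i).integrable _, lavg, sum_range]
  refine div_le_div_of_nonneg_right (sum_le_sum fun i _ => ?_) (Nat.cast_nonneg _)
  unfold ldist lab
  cases kingOf (G.D j) σ (rad G.m i) y <;> cases kingOf (G.D j) σ' (rad G.m i) y'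
  · simpa using G.win_jac _ _ _ _ hσ.pos hσ'.pos (G.gg_bl j i y) (G.gg_bl j i y')
  · simp
  · simp
  · simp

end Base

end Crest.Agent.R314
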