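import Crest.Agent.R314.Simple

/-!
# R314 — the exponential race

`Ξ = Y → ℝ` with the product of the exponential laws of rate `1` (`ProbabilityTheory.expMeasure 1`,
`Measure.pi`).  `win μ A ξ` is the `w ∈ A` minimising `ξ w / μ w`, ties broken by a fixed linear order of `Y`
(any point if `A = ∅`).  For `z ∈ A ∩ A'` both winners equal `z` on the event
`E_z = {∀ w ≠ z, ξ w > c_w ξ z}`, `c_w = max (a w / a z) (a' w / a' z)` where `a = rstr μ A`, `a' = rstr μ' A'`
(`c_w = 0` outside `A ∪ A'`; use `ξ w > 0` a.e. or drop these `w`).  By Fubini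
`P(E_z) = ∫ e^{-t} ∏_w e^{-c_w t} dt = 1 / (1 + ∑_{w ≠ z} c_w) ≥ min (a z) (a' z) / ∑_w max (a w) (a' w)`,
because `c_w ≤ max (a w) (a' w) / min (a z) (a' z)` and `1 ≤ max (a z) (a' z) / min (a z) (a' z)`.
The `E_z` are disjoint.  (`measurePreserving_piEquivPiSubtypeProd` or `Measure.pi_pi` + `lintegral_prod`, or
`MeasureTheory.lmarginal`.)
-/

set_option autoImplicit false

open MeasureTheory Finset

namespace Crest.Agent.R314

universe u

open ProbabilityTheory

/-- the exponential law of rate one -/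
noncomputable def raceν : Measure ℝ := expMeasure 1

instance : IsProbabilityMeasure raceν := isProbabilityMeasure_expMeasure one_pos

theorem race_tail {t : ℝ} (ht : 0 ≤ t) : raceν (Set.Ioi t) = ENNReal.ofReal (Real.exp (-t)) := by
  have h1 : raceν.real (Set.Iic t) = 1 - Real.exp (-t) := by
    have h := cdf_expMeasure_eq one_pos t
    rw [if_pos ht, one_mul] at h
    rw [← h]
    exact (cdf_eq_real raceν t).symm
  have h2 : raceν.real (Set.Ioi t) = Real.exp (-t) := by
    rw [← Set.compl_Iic, probReal_compl_eq_one_sub measurableSet_Iic, h1]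
    ring
  rw [← h2, ofReal_measureReal]

theorem race_laplace {c : ℝ} (hc : 0 ≤ c) :
    ∫⁻ t, (Set.Ici (0 : ℝ)).indicator (fun t => ENNReal.ofReal (Real.exp (-(c * t)))) t ∂raceν =
      ENNReal.ofReal (1 / (1 + c)) := by
  have hm : Measurable ((Set.Ici (0 : ℝ)).indicator
      fun t => ENNReal.ofReal (Real.exp (-(c * t)))) :=
    Measurable.indicator (by fun_prop) measurableSet_Ici
  have hd : Measurable (exponentialPDF 1) := (measurable_exponentialPDFReal 1).ennreal_ofReal
  have hd' : Measurable (exponentialPDF (1 + c)) :=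
    (measurable_exponentialPDFReal (1 + c)).ennreal_ofReal
  have hc' : 0 < 1 + c := by linarith
  change ∫⁻ t, _ ∂(volume.withDensity (exponentialPDF 1)) = _
  rw [lintegral_withDensity_eq_lintegral_mul _ hd hm, ← mul_one (ENNReal.ofReal (1 / (1 + c))),
    ← lintegral_exponentialPDF_eq_one hc', ← lintegral_const_mul _ hd']
  refine lintegral_congr fun t => ?_
  rcases lt_or_ge t 0 with ht | ht
  · simp [exponentialPDF_of_neg ht]
  · rw [Pi.mul_apply, exponentialPDF_of_nonneg ht, exponentialPDF_of_nonneg ht,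
      Set.indicator_of_mem (Set.mem_Ici.2 ht), ← ENNReal.ofReal_mul (by positivity),
      ← ENNReal.ofReal_mul (by positivity)]
    congr 1
    rw [mul_assoc, ← Real.exp_add]
    field_simp
    ring_nf

section
variable {Y : Type u} [Fintype Y] [DecidableEq Y]

theorem race_update (z : Y) :
    MeasurePreserving (fun p : ℝ × (Y → ℝ) => Function.update p.2 z p.1)
      (raceν.prod (Measure.pi fun _ : Y => raceν)) (Measure.pi fun _ : Y => raceν) := by
  have hm : Measurable fun p : ℝ × (Y → ℝ) => Function.update p.2 z p.1 :=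
    measurable_update'.comp measurable_swap
  refine ⟨hm, (Measure.pi_eq fun s hs => ?_).symm⟩
  have e : (fun p : ℝ × (Y → ℝ) => Function.update p.2 z p.1) ⁻¹' Set.univ.pi s =
      s z ×ˢ Set.univ.pi (Function.update s z Set.univ) := by
    ext ⟨t, ξ⟩
    simp only [Set.mem_preimage, Set.mem_pi, Set.mem_univ, forall_true_left, Set.mem_prod]
    constructor
    · intro h
      refine ⟨by simpa using h z, fun w => ?_⟩
      by_cases hw : w = z
      · subst hw
        simp
      · simpa [Function.update_of_ne hw] using h w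
    · rintro ⟨h1, h2⟩ w
      by_cases hw : w = z
      · subst hw
        simpa using h1
      · simpa [Function.update_of_ne hw] using h2 w
  rw [Measure.map_apply hm (MeasurableSet.univ_pi hs), e, Measure.prod_prod, Measure.pi_pi,
    ← mul_prod_erase univ _ (mem_univ z), ← mul_prod_erase univ (fun w => raceν (s w)) (mem_univ z),
    Function.update_self, measure_univ, one_mul]
  congr 1
  exact prod_congr rfl fun w hw => by rw [Function.update_of_ne (ne_of_mem_erase hw)]

theorem race_core (z : Y) {c : Y → ℝ} (hc : ∀ w, 0 ≤ c w) :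
    1 / (1 + ∑ w, c w) ≤ (Measure.pi fun _ : Y => raceν).real
      {ξ | 0 ≤ ξ z ∧ ∀ w, w ≠ z → c w * ξ z < ξ w} := by
  have hE : MeasurableSet {ξ : Y → ℝ | 0 ≤ ξ z ∧ ∀ w, w ≠ z → c w * ξ z < ξ w} := by
    have e : {ξ : Y → ℝ | 0 ≤ ξ z ∧ ∀ w, w ≠ z → c w * ξ z < ξ w} =
        {ξ | 0 ≤ ξ z} ∩ ⋂ w, ⋂ _ : w ≠ z, {ξ | c w * ξ z < ξ w} := by
      ext ξ
      simp
    rw [e]
    exact (measurableSet_le measurable_const (measurable_pi_apply z)).inter
      (MeasurableSet.iInter fun w => MeasurableSet.iInter fun _ =>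
        measurableSet_lt (by fun_prop) (measurable_pi_apply w))
  have hC : 0 ≤ ∑ w, c w := sum_nonneg fun w _ => hc w
  rw [measureReal_def, ← ENNReal.ofReal_le_iff_le_toReal (measure_ne_top _ _),
    ← (race_update z).measure_preimage hE.nullMeasurableSet,
    Measure.prod_apply ((race_update z).measurable hE), ← race_laplace hC]
  refine lintegral_mono fun t => ?_
  by_cases ht : t ∈ Set.Ici (0 : ℝ)
  · rw [Set.indicator_of_mem ht]
    have h1 : (Measure.pi fun _ : Y => raceν) (Set.univ.pi fun w => Set.Ioi (c w * t)) =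
        ENNReal.ofReal (Real.exp (-((∑ w, c w) * t))) := by
      rw [Measure.pi_pi, prod_congr rfl fun w _ => race_tail (mul_nonneg (hc w) ht),
        ← ENNReal.ofReal_prod_of_nonneg fun w _ => (Real.exp_pos _).le, ← Real.exp_sum, sum_mul,
        sum_neg_distrib]
    rw [← h1]
    refine measure_mono fun ξ hξ => ?_
    simp only [Set.mem_preimage, Set.mem_ofPred_eq, Function.update_self]
    refine ⟨ht, fun w hw => ?_⟩
    rw [Function.update_of_ne hw]
    exact hξ w (Set.mem_univ w)
  · rw [Set.indicator_of_notMem ht]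
    exact bot_le

/-- `z` is the strict winner -/
def raceS (μ : Y → ℝ) (A : Finset Y) (ξ : Y → ℝ) (z : Y) : Prop :=
  z ∈ A ∧ ∀ w ∈ A, w ≠ z → ξ z / μ z < ξ w / μ w

open Classical in
/-- pick a point -/
noncomputable def racePick [Nonempty Y] (A : Finset Y) (p : Y → Prop) : Y :=
  if h : ∃ z, p z then h.choose else if h' : A.Nonempty then h'.choose else Classical.arbitrary Y

/-- the winner -/
noncomputable def raceWin [Nonempty Y] (μ : Y → ℝ) (A : Finset Y) (ξ : Y → ℝ) : Y :=
  racePick A (raceS μ A ξ)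

omit [DecidableEq Y] in
theorem race_simple [Nonempty Y] (μ : Y → ℝ) (A : Finset Y) : Simple (raceWin μ A) := by
  refine Simple.comp (f := fun ξ => raceS μ A ξ) (Simple.pi fun z => ⟨Set.toFinite _, fun p => ?_⟩) _
  have hm : Measurable fun ξ : Y → ℝ => raceS μ A ξ z := by
    refine measurable_const.and (Measurable.forall fun w => measurable_const.imp
      (measurable_const.imp ?_))
    exact measurableSet_setOfPred.1 (measurableSet_lt (by fun_prop) (by fun_prop))
  exact hm (MeasurableSet.of_discrete)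

omit [DecidableEq Y] in
theorem race_mem [Nonempty Y] (μ : Y → ℝ) {A : Finset Y} (ξ : Y → ℝ) (hA : A.Nonempty) :
    raceWin μ A ξ ∈ A := by
  unfold raceWin racePick
  split_ifs with h
  · exact h.choose_spec.1
  · exact hA.choose_spec

omit [DecidableEq Y] in
theorem race_eq [Nonempty Y] {μ : Y → ℝ} {A : Finset Y} {ξ : Y → ℝ} {z : Y} (hz : raceS μ A ξ z) :
    raceWin μ A ξ = z := by
  have h : ∃ z, raceS μ A ξ z := ⟨z, hz⟩
  unfold raceWin racePick
  rw [dif_pos h]
  by_contra hne
  exact lt_asymm (hz.2 _ h.choose_spec.1 hne) (h.choose_spec.2 z hz.1 (Ne.symm hne))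

omit [Fintype Y] in
theorem race_S {μ : Y → ℝ} {A : Finset Y} {ξ : Y → ℝ} {z : Y} (hμ : ∀ w, 0 < μ w) (hz : z ∈ A)
    {b : Y → ℝ} {m : ℝ} (hm : 0 < m) (hm' : m ≤ μ z) (hb : ∀ w, rstr μ A w ≤ b w) (h0 : 0 ≤ ξ z)
    (h : ∀ w, w ≠ z → b w / m * ξ z < ξ w) : raceS μ A ξ z := by
  refine ⟨hz, fun w hw hwz => ?_⟩
  have h1 := hb w
  rw [rstr, if_pos hw] at h1
  have h2 : μ w / μ z ≤ b w / m := div_le_div₀ ((hμ w).le.trans h1) h1 hm hm'
  have h3 := (mul_le_mul_of_nonneg_right h2 h0).trans_lt (h w hwz)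
  rw [lt_div_iff₀ (hμ w)]
  calc ξ z / μ z * μ w = μ w / μ z * ξ z := by ring
    _ < ξ w := h3

theorem race_prob [Nonempty Y] {μ μ' : Y → ℝ} (A A' : Finset Y) (hμ : ∀ w, 0 < μ w)
    (hμ' : ∀ w, 0 < μ' w) (z : Y) :
    min (rstr μ A z) (rstr μ' A' z) / ∑ w, max (rstr μ A w) (rstr μ' A' w) ≤
      (Measure.pi fun _ : Y => raceν).real {ξ | raceWin μ A ξ = z ∧ raceWin μ' A' ξ = z} := by
  have hn : ∀ w, 0 ≤ rstr μ A w := fun w => by
    unfold rstr
    split_ifs
    · exact (hμ w).le
    · exact le_rfl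
  have hb : ∀ w, 0 ≤ max (rstr μ A w) (rstr μ' A' w) := fun w => (hn w).trans (le_max_left _ _)
  by_cases hz : z ∈ A ∧ z ∈ A'
  · set m := min (rstr μ A z) (rstr μ' A' z) with hmdef
    have h1 : rstr μ A z = μ z := if_pos hz.1
    have h2 : rstr μ' A' z = μ' z := if_pos hz.2
    have hm : 0 < m := lt_min (h1 ▸ hμ z) (h2 ▸ hμ' z)
    set b : Y → ℝ := fun w => max (rstr μ A w) (rstr μ' A' w) with hbdef
    have hc : ∀ w, 0 ≤ Function.update (fun w => b w / m) z 0 w := fun w => by
      by_cases hw : w = z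
      · subst hw
        simp
      · rw [Function.update_of_ne hw]
        exact div_nonneg (hb w) hm.le
    have h3 := race_core z hc
    have h4 : 1 + ∑ w, Function.update (fun w => b w / m) z 0 w ≤ (∑ w, b w) / m := by
      rw [sum_update_of_mem (mem_univ z), zero_add, sum_div, ← add_sum_erase _ _ (mem_univ z),
        sdiff_singleton_eq_erase]
      have : 1 ≤ b z / m := (one_le_div hm).2 min_le_max
      linarith
    have h5 : 0 < 1 + ∑ w, Function.update (fun w => b w / m) z 0 w := by
      have := sum_nonneg fun w (_ : w ∈ univ) => hc w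
      linarith
    have h6 := one_div_le_one_div_of_le h5 h4
    rw [one_div_div] at h6
    refine h6.trans (h3.trans (measureReal_mono fun ξ hξ => ?_))
    have h7 : ∀ w, w ≠ z → b w / m * ξ z < ξ w := fun w hw => by
      have := hξ.2 w hw
      rwa [Function.update_of_ne hw] at this
    exact ⟨race_eq (race_S hμ hz.1 hm (h1 ▸ min_le_left _ _) (fun w => le_max_left _ _) hξ.1 h7),
      race_eq (race_S hμ' hz.2 hm (h2 ▸ min_le_right _ _) (fun w => le_max_right _ _) hξ.1 h7)⟩
  · refine le_trans (div_nonpos_of_nonpos_of_nonneg ?_ (sum_nonneg fun w _ => hb w))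
      measureReal_nonneg
    rcases not_and_or.1 hz with h | h
    · exact (min_le_left _ _).trans (if_neg h).le
    · exact (min_le_right _ _).trans (if_neg h).le

end

theorem raceStmt : RaceStmt.{u} := by
  intro Y _ _ _
  refine ⟨Y → ℝ, inferInstance, Measure.pi fun _ : Y => raceν, inferInstance, raceWin,
    race_simple, fun μ A ξ hA => race_mem μ ξ hA, fun μ μ' A A' hμ hμ' _ _ => ?_⟩
  have hF : ∀ z, MeasurableSet {ξ | raceWin μ A ξ = z ∧ raceWin μ' A' ξ = z} := fun z =>
    ((race_simple μ A).2 z).inter ((race_simple μ' A').2 z)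
  have e : ∀ ξ, (if raceWin μ A ξ = raceWin μ' A' ξ then (0 : ℝ) else 1) =
      1 - ∑ z, {ξ | raceWin μ A ξ = z ∧ raceWin μ' A' ξ = z}.indicator 1 ξ := fun ξ => by
    rw [sum_eq_single (raceWin μ A ξ)]
    · split_ifs with h
      · rw [Set.indicator_of_mem (by exact ⟨rfl, h.symm⟩)]
        simp
      · rw [Set.indicator_of_notMem (fun h' => h h'.2.symm)]
        simp
    · exact fun z _ hz => Set.indicator_of_notMem (fun h' => hz h'.1.symm) _
    · simp
  have hi : ∀ z, Integrable ({ξ | raceWin μ A ξ = z ∧ raceWin μ' A' ξ = z}.indicator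
      (1 : (Y → ℝ) → ℝ)) (Measure.pi fun _ : Y => raceν) := fun z =>
    (integrable_const 1).indicator (hF z)
  simp only [e]
  rw [integral_sub (integrable_const _) (integrable_finsetSum _ fun z _ => hi z),
    integral_finsetSum _ fun z _ => hi z]
  simp only [integral_indicator_one (hF _), integral_const, probReal_univ, smul_eq_mul, mul_one]
  rw [jac, sum_div]
  exact sub_le_sub_left (sum_le_sum fun z _ => race_prob A A' hμ hμ' z) 1

end Crest.Agent.R314
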