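import Crest.Agent.R314.Prof

/-! # Transport of labelled servers along tree edges (row 314) -/

set_option autoImplicit false

open Finset

namespace Crest.Agent.R314

universe u

theorem trans_cnt_eq {Lab : Type u} [DecidableEq Lab] {k : ℕ} (pos : Fin k → List Lab)
    (v : List Lab) : cnt pos v = ∑ i, if v <:+ pos i then 1 else 0 := by
  rw [cnt, card_filter]

/-- if fewer servers lie below the children of `v` than below `v`, some server sits exactly at `v`
(a server below `v` that is not at `v` lies below the child `a :: v` determined by its list; for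
`v.length = J` use the length bound instead). -/
theorem trans_parked {Lab : Type u} [Fintype Lab] [DecidableEq Lab] {k : ℕ}
    (pos : Fin k → List Lab) (v : List Lab) (h : ∑ a, cnt pos (a :: v) < cnt pos v) :
    ∃ i, pos i = v := by
  by_contra hne
  push Not at hne
  refine absurd h (not_lt.2 ?_)
  simp only [trans_cnt_eq]
  rw [sum_comm]
  refine sum_le_sum fun i _ => ?_
  split_ifs with hi
  · obtain ⟨t, ht⟩ := hi
    rcases List.eq_nil_or_concat t with rfl | ⟨t', a, rfl⟩
    · exact absurd ht.symm (hne i)
    · have ha : a :: v <:+ pos i := ⟨t', by rw [← ht]; simp⟩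
      calc 1 = if a :: v <:+ pos i then 1 else 0 := (if_pos ha).symm
        _ ≤ _ := single_le_sum (f := fun a => if a :: v <:+ pos i then 1 else 0)
            (fun _ _ => Nat.zero_le _) (mem_univ a)
  · exact Nat.zero_le _

/-- moving a server from `a :: v` to `v` lowers `cnt (a :: v)` by one and changes nothing else
(suffixes of `a :: v` are `a :: v` itself and the suffixes of `v`). -/
theorem trans_cnt_up {Lab : Type u} [DecidableEq Lab] {k : ℕ} (pos : Fin k → List Lab) (i : Fin k)
    (a : Lab) (v : List Lab) (h : pos i = a :: v) (w : List Lab) :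
    cnt (Function.update pos i v) w + (if w = a :: v then 1 else 0) = cnt pos w := by
  simp only [trans_cnt_eq]
  rw [← add_sum_erase _ _ (mem_univ i), ← add_sum_erase _ (fun j => if w <:+ pos j then 1 else 0)
    (mem_univ i), Function.update_self, h,
    sum_congr rfl fun j hj => by rw [Function.update_of_ne (ne_of_mem_erase hj)]]
  have e : ((if w <:+ v then 1 else 0) + if w = a :: v then 1 else 0) =
      if w <:+ a :: v then 1 else 0 := by
    by_cases h1 : w = a :: v
    · have h2 : ¬ w <:+ v := fun h2 => by
        have := h2.length_le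
        rw [h1, List.length_cons] at this
        omega
      rw [if_neg h2, if_pos h1, if_pos (h1 ▸ List.suffix_refl _)]
    · simp only [List.suffix_cons_iff, h1, false_or, if_false, add_zero]
  omega

/-- moving a server from `v` to `a :: v` raises `cnt (a :: v)` by one and changes nothing else -/
theorem trans_cnt_down {Lab : Type u} [DecidableEq Lab] {k : ℕ} (pos : Fin k → List Lab)
    (i : Fin k) (a : Lab) (v : List Lab) (h : pos i = v) (w : List Lab) :
    cnt (Function.update pos i (a :: v)) w = cnt pos w + (if w = a :: v then 1 else 0) := by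
  have h1 := trans_cnt_up (Function.update pos i (a :: v)) i a v (Function.update_self ..) w
  rw [Function.update_idem, Function.update_eq_self_iff.2 h.symm] at h1
  exact h1.symm

/-- one elementary move -/
theorem trans_step {k : ℕ} {Lab : Type u} [Fintype Lab] [DecidableEq Lab] {J : ℕ}
    (pos : Fin k → List Lab) (hpos : ∀ i, (pos i).length ≤ J) (n' : List Lab → ℕ) (h0 : n' [] = k)
    (hs : ∀ v : List Lab, v.length < J → ∑ a, n' (a :: v) ≤ n' v)
    (hne : ∃ v : List Lab, v.length ≤ J ∧ cnt pos v ≠ n' v) :
    ∃ (i : Fin k) (p : List Lab) (a : Lab) (u : List Lab), (a :: u).length ≤ J ∧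
      (pos i = a :: u ∧ p = u ∨ pos i = u ∧ p = a :: u) ∧
      (∀ w, w ≠ a :: u → cnt (Function.update pos i p) w = cnt pos w) ∧
      Nat.dist (n' (a :: u)) (cnt (Function.update pos i p) (a :: u)) + 1 =
        Nat.dist (n' (a :: u)) (cnt pos (a :: u)) := by
  have hroot : cnt pos [] = k := by simp [cnt]
  by_cases h1 : ∃ v : List Lab, v.length ≤ J ∧ n' v < cnt pos v
  · obtain ⟨v, hv, hmax⟩ := exists_max_image
      ((nodes Lab J).filter fun v => n' v < cnt pos v) List.length (by
        obtain ⟨v, hv1, hv2⟩ := h1
        exact ⟨v, mem_filter.2 ⟨mem_nodes.2 hv1, hv2⟩⟩)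
    obtain ⟨hv1, hv2⟩ := mem_filter.1 hv
    rw [mem_nodes] at hv1
    have h2 : ∑ a, cnt pos (a :: v) < cnt pos v := by
      rcases hv1.lt_or_eq with hlt | heq
      · refine lt_of_le_of_lt ((sum_le_sum fun a _ => ?_).trans (hs v hlt)) hv2
        by_contra hc
        have := hmax (a :: v) (mem_filter.2 ⟨mem_nodes.2 hlt, not_le.1 hc⟩)
        rw [List.length_cons] at this
        omega
      · rw [sum_eq_zero fun a _ => ?_]
        · omega
        · rw [cnt, card_eq_zero, filter_eq_empty_iff]
          intro i _ hi
          have := hi.length_le.trans (hpos i)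
          rw [List.length_cons] at this
          omega
    obtain ⟨i, hi⟩ := trans_parked pos v h2
    cases v with
    | nil => omega
    | cons a u =>
      refine ⟨i, u, a, u, hv1, Or.inl ⟨hi, rfl⟩, fun w hw => ?_, ?_⟩
      · simpa [hw] using trans_cnt_up pos i a u hi w
      · have := trans_cnt_up pos i a u hi (a :: u)
        rw [if_pos rfl] at this
        unfold Nat.dist
        omega
  · push Not at h1
    obtain ⟨v, hv, hmin⟩ := exists_min_image
      ((nodes Lab J).filter fun v => cnt pos v ≠ n' v) List.length (by
        obtain ⟨v, hv1, hv2⟩ := hne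
        exact ⟨v, mem_filter.2 ⟨mem_nodes.2 hv1, hv2⟩⟩)
    obtain ⟨hv1, hv2⟩ := mem_filter.1 hv
    rw [mem_nodes] at hv1
    cases v with
    | nil => omega
    | cons a u =>
      have hu : u.length < J := hv1
      have h3 : cnt pos u = n' u := by
        by_contra hc
        have := hmin u (mem_filter.2 ⟨mem_nodes.2 hu.le, hc⟩)
        rw [List.length_cons] at this
        omega
      have h4 : cnt pos (a :: u) < n' (a :: u) := lt_of_le_of_ne (h1 _ hv1) hv2
      have h2 : ∑ b, cnt pos (b :: u) < cnt pos u := by
        rw [h3]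
        exact (sum_lt_sum (fun b _ => h1 (b :: u) hu) ⟨a, mem_univ a, h4⟩).trans_le (hs u hu)
      obtain ⟨i, hi⟩ := trans_parked pos u h2
      refine ⟨i, a :: u, a, u, hv1, Or.inr ⟨hi, rfl⟩, fun w hw => ?_, ?_⟩
      · simpa [hw] using trans_cnt_down pos i a u hi w
      · have := trans_cnt_down pos i a u hi (a :: u)
        rw [if_pos rfl] at this
        unfold Nat.dist
        omega

theorem trans_abs (a b : ℕ) : |(a : ℝ) - b| = (Nat.dist a b : ℕ) := by
  rcases le_total a b with h | h
  · rw [Nat.dist_eq_sub_of_le h, Nat.cast_sub h, abs_sub_comm]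
    exact abs_of_nonneg (sub_nonneg.2 (by exact_mod_cast h))
  · rw [Nat.dist_eq_sub_of_le_right h, Nat.cast_sub h]
    exact abs_of_nonneg (sub_nonneg.2 (by exact_mod_cast h))

/-- Induction on the discrepancy `∑_{v ∈ nodes} |n' v - cnt pos v|` (a natural number,
`Nat.dist`), generalising `pos`.  If some node has `n' v < cnt pos v`, take such a `v` of maximal
length (`v ≠ []` as `cnt pos [] = k`): its children have `cnt ≤ n'`, so
`∑ cnt (a :: v) ≤ ∑ n' (a :: v) ≤ n' v < cnt v` (if `v.length = J` all `cnt (a :: v) = 0`), a server
sits at `v`; move it to `v.tail`.  Otherwise if some node has `cnt pos v < n' v` take one of minimal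
length `v = a :: u`; then `cnt u = n' u` and `∑ cnt (b :: u) < ∑ n' (b :: u) ≤ cnt u`, so a server
sits at `u`; move it to `v`.  Each step costs `≤ len v`, lowers the right-hand side by exactly
`len v`, and keeps the hypothesis on `loc`; conclude with the triangle inequality. -/
theorem transStmt : TransStmt.{u} := by
  intro k Lab Y _ _ _ J pos hpos n' h0 hs loc len hlen hloc
  simp only [trans_abs]
  generalize hn : ∑ v ∈ nodes Lab J, Nat.dist (n' v) (cnt pos v) = n
  induction n generalizing pos with
  | zero =>
    refine ⟨pos, hpos, fun v hv => ?_, ?_⟩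
    · exact (Nat.eq_of_dist_eq_zero (sum_eq_zero_iff.1 hn v (mem_nodes.2 hv))).symm
    · simp only [dist_self, sum_const_zero]
      exact sum_nonneg fun v _ => mul_nonneg (Nat.cast_nonneg _) (hlen v)
  | succ n ih =>
    obtain ⟨v, hv, hv'⟩ := exists_ne_zero_of_sum_ne_zero (hn.trans_ne n.succ_ne_zero)
    obtain ⟨i, p, a, u, hau, hp, hw, hd⟩ := trans_step pos hpos n' h0 hs
      ⟨v, mem_nodes.1 hv, fun h => hv' (by rw [h, Nat.dist_self])⟩
    have hmem : a :: u ∈ nodes Lab J := mem_nodes.2 hau
    have hne : cnt pos (a :: u) ≠ n' (a :: u) := fun h => by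
      rw [h, Nat.dist_self] at hd
      omega
    have hl : dist (loc (a :: u)) (loc u) ≤ len (a :: u) := hloc _ hau (by simp) hne
    obtain ⟨pos', a1, a2, a3⟩ := ih (Function.update pos i p)
      (fun j => by
        by_cases hj : j = i
        · subst hj
          rw [Function.update_self]
          rw [List.length_cons] at hau
          rcases hp with ⟨-, rfl⟩ | ⟨-, rfl⟩
          · omega
          · exact hau
        · rw [Function.update_of_ne hj]
          exact hpos j)
      (fun w h1 h2 h3 => by
        by_cases hw' : w = a :: u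
        · subst hw'
          exact hl
        · exact hloc w h1 h2 (by rwa [hw w hw'] at h3))
      (by
        rw [← add_sum_erase _ _ hmem] at hn ⊢
        rw [sum_congr rfl fun w hw' => by rw [hw w (ne_of_mem_erase hw')]]
        omega)
    refine ⟨pos', a1, a2, ?_⟩
    have e1 : ∑ j, dist (loc (pos j)) (loc (Function.update pos i p j)) ≤ len (a :: u) := by
      rw [sum_eq_single i (fun j _ hj => by rw [Function.update_of_ne hj, dist_self]) (by simp),
        Function.update_self]
      rcases hp with ⟨h1, rfl⟩ | ⟨h1, rfl⟩
      · rw [h1]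
        exact hl
      · rw [h1, dist_comm]
        exact hl
    have e2 : ∑ j, dist (loc (pos j)) (loc (pos' j)) ≤
        ∑ j, dist (loc (pos j)) (loc (Function.update pos i p j)) +
          ∑ j, dist (loc (Function.update pos i p j)) (loc (pos' j)) := by
      rw [← sum_add_distrib]
      exact sum_le_sum fun j _ => dist_triangle _ _ _
    rw [← add_sum_erase _ _ hmem] at a3 ⊢
    rw [sum_congr (s₁ := (nodes Lab J).erase (a :: u)) rfl fun w hw' => by
      rw [hw w (ne_of_mem_erase hw')]] at a3
    rw [← hd]
    push_cast
    linarith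

end Crest.Agent.R314
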