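import Crest.Agent.R314.GStep
import Crest.Agent.R314.Abs
import Crest.Agent.R314.Race
import Crest.Agent.R314.Trans

/-!
# Part E: the Bayesian statement from the tree, rounding and level statements
-/

set_option autoImplicit false

open Finset MeasureTheory Crest.LogicCS.KServer

namespace Crest.Agent.R314

universe u

variable {k : ℕ} {Y : Type u} [Fintype Y] [DecidableEq Y] [MetricSpace Y]

omit [DecidableEq Y] in
lemma exists_scales (Y : Type u) [Fintype Y] [MetricSpace Y] :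
    ∃ (δ : ℝ) (J : ℕ), 0 < δ ∧ (∀ x y : Y, x ≠ y → δ ≤ dist x y) ∧ 0 < J ∧
      ∀ x y : Y, dist x y ≤ δ * 2048 ^ J := by
  classical
  obtain ⟨δ, hδ, hsep⟩ : ∃ δ : ℝ, 0 < δ ∧ ∀ x y : Y, x ≠ y → δ ≤ dist x y := by
    let S : Finset ℝ := insert 1 ((univ.filter fun p : Y × Y => p.1 ≠ p.2).image
      fun p => dist p.1 p.2)
    have hne : S.Nonempty := insert_nonempty _ _
    refine ⟨S.min' hne, ?_, fun x y hxy => S.min'_le _ ?_⟩
    · have := S.min'_mem hne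
      rcases mem_insert.1 this with h | h
      · rw [h]; exact one_pos
      · obtain ⟨p, hp, h⟩ := mem_image.1 h
        rw [← h]
        exact dist_pos.2 (mem_filter.1 hp).2
    · exact mem_insert_of_mem (mem_image.2 ⟨(x, y), by simpa using hxy, rfl⟩)
  obtain ⟨R, hR⟩ : ∃ R : ℝ, ∀ x y : Y, dist x y ≤ R :=
    ⟨∑ p : Y × Y, dist p.1 p.2, fun x y =>
      single_le_sum (f := fun p : Y × Y => dist p.1 p.2) (fun _ _ => dist_nonneg) (mem_univ (x, y))⟩
  obtain ⟨n, hn⟩ := pow_unbounded_of_one_lt (R / δ) (by norm_num : (1 : ℝ) < 2048)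
  refine ⟨δ, n + 1, hδ, hsep, Nat.succ_pos n, fun x y => (hR x y).trans ?_⟩
  rw [div_lt_iff₀ hδ] at hn
  have h1 : (0 : ℝ) < 2048 ^ n := by positivity
  rw [pow_succ]
  nlinarith [mul_pos hδ h1]

lemma isMet_Dj {δ : ℝ} (hδ : 0 < δ) (j : ℕ) : IsMet (Dj (Y := Y) δ j) where
  self x := by simp [Dj]
  symm x y := by simp [Dj, dist_comm]
  tri x y z := by
    unfold Dj
    rw [← add_div]
    exact div_le_div_of_nonneg_right (dist_triangle _ _ _) (by positivity)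

theorem exists_base (hk : 2 ≤ k) (y0 : Y) {CT CR CL : ℝ} (hCT : 1 ≤ CT) (hT : TreeStmt.{u} CT)
    (hCR : 1 ≤ CR) (hR : RoundStmt.{u} CR) (hCL : 1 ≤ CL) (hL : LevelStmt.{u} CL) :
    ∃ G : Base k Y, G.CT = CT ∧ G.CR = CR ∧ G.CL = CL := by
  classical
  haveI : Nonempty Y := ⟨y0⟩
  obtain ⟨δ, J, hδ, hsep, hJ, hdiam⟩ := exists_scales Y
  obtain ⟨Ξ, ms, P, prob, win, w1, w2, w3⟩ := raceStmt Y
  obtain ⟨S, z, Φ, τ0, BT, t1, t2, t3, t4, t5, t6, t7⟩ := hT k hk (Lb Y) J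
  have hcard : (0 : ℝ) < Fintype.card Y := by exact_mod_cast Fintype.card_pos
  have hJ' : (1 : ℝ) ≤ J := by exact_mod_cast hJ
  have hlev : ∀ j, ∃ (pot : KD Y → Y → ℝ) (pot0 : KD Y → ℝ), j < J →
      LevelAt CL k (1 / (Fintype.card Y * J)) (2048 ^ J) (Dj δ j) pot pot0 := by
    intro j
    by_cases hj : j < J
    · obtain ⟨pot, pot0, h⟩ := hL k hk Y (1 / (Fintype.card Y * J)) (by positivity)
        (by
          rw [div_mul_eq_mul_div, one_mul, div_le_one (by positivity)]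
          nlinarith)
        (2048 ^ J) (by positivity) (Dj δ j) (isMet_Dj hδ j)
        (fun x y hxy => by
          unfold Dj
          have h1 := hsep x y hxy
          have h2 : (2048 : ℝ) ^ j ≤ 2048 ^ J := pow_le_pow_right₀ (by norm_num) hj.le
          have h3 : (0 : ℝ) < 2048 ^ j := by positivity
          push_cast
          rw [div_le_div_iff₀ (by positivity) (by positivity)]
          nlinarith [mul_le_mul h1 h2 h3.le (hδ.le.trans h1), mul_pos hδ h3])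
      exact ⟨pot, pot0, fun _ => h⟩
    · exact ⟨fun _ _ => 0, fun _ => 0, fun h => absurd h hj⟩
  choose pot pot0 hp using hlev
  exact ⟨{
    hk := hk, y0 := y0, δ := δ, J := J, hδ := hδ, hsep := hsep, hJ := hJ, hdiam := hdiam
    CT := CT, CR := CR, CL := CL, hCT := hCT, hCR := hCR, hCL := hCL
    Ξ := Ξ, ms := ms, P := P, prob := prob, win := win
    win_simple := w1, win_mem := w2, win_jac := w3
    S := S, z := z, Φ := Φ, τ0 := τ0, BT := BT
    feas := t1, z0 := t2, Φ0 := t3, Φlow := t4, Φconc := t5, Φlip := t6, Φupd := t7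
    round := hR, trans := transStmt, isProf := profStmt
    pot := pot, pot0 := pot0, level := hp }, rfl, rfl, rfl⟩

namespace Base

variable (G : Base k Y) {Q : ℕ} {Ω : Type u} [Fintype Ω]

/-- initial clustering: no kings, uniform weights -/
def σ0 : ℕ → KD Y := fun _ => ⟨∅, fun _ => G.y0, fun _ => 1⟩

/-- initial macro state -/
def M0 (hQ : 0 < Q) : G.Mac Q where
  σ := G.σ0
  u := fun _ _ => (G.τ0, fun _ _ => [])
  inv := fun _ _ => ⟨fun _ => one_pos, fun a ha => absurd ha (notMem_empty a)⟩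
  simple := Simple.const _
  ok := fun _ _ => G.mic0_ok hQ
  occ := fun _ _ v _ hne h => absurd (G.z0 v hne) h

lemma q_simple (M : G.Mac Q) : Simple (G.q M) :=
  M.simple.comp fun (u : Fin G.m → G.Mic Q) (ι : Fin G.m × Fin Q) (l : Fin k) =>
    G.loc M.σ ((u ι.1).2 ι.2 l)

lemma PotL_affine (σ : ℕ → KD Y) (ν ν' : Y → ℝ) {a b : ℝ} (hab : a + b = 1) :
    G.PotL σ (fun y => a * ν y + b * ν' y) = a * G.PotL σ ν + b * G.PotL σ ν' := by
  unfold PotL
  rw [mul_left_comm a, mul_left_comm b, ← mul_add, mul_sum _ _ a, mul_sum _ _ b,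
    ← sum_add_distrib]
  congr 1
  refine sum_congr rfl fun j _ => ?_
  have h : ∑ y, (a * ν y + b * ν' y) * G.pot j (σ j) y =
      a * ∑ y, ν y * G.pot j (σ j) y + b * ∑ y, ν' y * G.pot j (σ j) y := by
    rw [mul_sum, mul_sum, ← sum_add_distrib]
    exact sum_congr rfl fun y _ => by ring
  rw [h]
  have hb : b = 1 - a := by linarith
  rw [hb]; ring

lemma Pot_concave (M : G.Mac Q) (cfg : Ω → Fin k → Y) :
    ConcaveOn ℝ (stdSimplex ℝ Ω) fun π => G.Pot M π cfg := by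
  refine (G.PotT_concave M.σ M.simple cfg).add ⟨convex_stdSimplex ℝ Ω, ?_⟩
  intro π _ π' _ a b _ _ hab
  have : nu (a • π + b • π') cfg = fun y => a * nu π cfg y + b * nu π' cfg y :=
    funext fun y => nu_add_smul π π' a b cfg y
  simp only [smul_eq_mul]
  rw [this, G.PotL_affine _ _ _ hab]

lemma PotL_lower {σ : ℕ → KD Y} (hσ : ∀ j < G.J, KInv (G.D j) (σ j)) {ν : Y → ℝ}
    (h0 : ∀ y, 0 ≤ ν y) (h1 : ∑ y, ν y = k) :
    -(G.L * ∑ j ∈ range G.J, G.r j * (G.CL * k)) ≤ G.PotL σ ν := by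
  unfold PotL
  rw [← mul_neg, ← sum_neg_distrib]
  refine mul_le_mul_of_nonneg_left (sum_le_sum fun j hj => ?_) G.L_pos.le
  rw [← mul_neg]
  refine mul_le_mul_of_nonneg_left ?_ (G.r_pos j).le
  obtain ⟨h2, h3⟩ := (G.level j (mem_range.1 hj)).1 _ (hσ j (mem_range.1 hj))
  have h4 : ∑ y, ν y * (-G.CL) ≤ ∑ y, ν y * G.pot j (σ j) y :=
    sum_le_sum fun y _ => mul_le_mul_of_nonneg_left (h3 y) (h0 y)
  rw [← sum_mul, h1] at h4
  linarith

lemma PotL_upper (σ : ℕ → KD Y) {ν : Y → ℝ} (h0 : ∀ y, 0 ≤ ν y) (h1 : ∑ y, ν y = k) :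
    G.PotL σ ν ≤
      G.L * ∑ j ∈ range G.J, G.r j * (∑ y, k * |G.pot j (σ j) y| + |G.pot0 j (σ j)|) := by
  unfold PotL
  refine mul_le_mul_of_nonneg_left (sum_le_sum fun j _ => ?_) G.L_pos.le
  refine mul_le_mul_of_nonneg_left (add_le_add (sum_le_sum fun y _ => ?_) (le_abs_self _))
    (G.r_pos j).le
  have h2 : ν y ≤ k := h1 ▸ single_le_sum (fun y _ => h0 y) (mem_univ y)
  calc ν y * G.pot j (σ j) y ≤ ν y * |G.pot j (σ j) y| :=
        mul_le_mul_of_nonneg_left (le_abs_self _) (h0 y)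
    _ ≤ _ := mul_le_mul_of_nonneg_right h2 (abs_nonneg _)

theorem bayes_base (s : Fin k → Y) :
    ∃ B : ℝ, ∀ (Ω : Type u) [Fintype Ω] (π : Ω → ℝ), π ∈ stdSimplex ℝ Ω →
      ∀ (T : ℕ) (x : Ω → Fin T → Y) (j : Ω → Fin T → Fin k),
        ∃ a : List Y → Fin k,
          ∑ ω, π ω * detCost a s (List.ofFn (x ω)) ≤
            G.L * (2 ^ 15 * G.CL * Real.log (k + 1)) *
              ∑ ω, π ω * pathCost s (List.ofFn fun t => (x ω t, j ω t)) + B := by
  classical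
  set B1 := |G.lam * G.CR * G.BT| with hB1
  set B2 := G.L * ∑ j ∈ range G.J, G.r j * (G.CL * k) with hB2
  set B3 := G.L * ∑ j ∈ range G.J, G.r j *
    (∑ y, k * |G.pot j (G.σ0 j) y| + |G.pot0 j (G.σ0 j)|) with hB3
  set B4 := ∑ i, dist (s i) G.y0 with hB4
  have hCL : 0 ≤ G.CL := zero_le_one.trans G.hCL
  have hCR : 0 ≤ G.CR := zero_le_one.trans G.hCR
  have hL := G.L_pos
  have hlam := G.lam_pos
  have b1 : 0 ≤ B1 := abs_nonneg _
  have b2 : 0 ≤ B2 := mul_nonneg hL.le (sum_nonneg fun j _ =>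
    mul_nonneg (G.r_pos j).le (by positivity))
  have b3 : 0 ≤ B3 := mul_nonneg hL.le (sum_nonneg fun j _ =>
    mul_nonneg (G.r_pos j).le (by positivity))
  have b4 : 0 ≤ B4 := sum_nonneg fun _ _ => dist_nonneg
  refine ⟨3 * (B1 + B2 + B3 + B4) + 2, fun Ω _ π hπ T x j => ?_⟩
  -- parameters
  have hW : 0 ≤ G.W := sum_nonneg fun v _ => (wt_pos _ _).le
  set A := 2 * (G.lam * G.CR * G.W) with hA
  have hA0 : 0 ≤ A := by positivity
  set R := G.L * ∑ j ∈ range G.J, G.r j with hR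
  have hR0 : 0 ≤ R := mul_nonneg hL.le (sum_nonneg fun j _ => (G.r_pos j).le)
  obtain ⟨Q, hQ⟩ := exists_nat_gt (A * T)
  have hQ0' : (0 : ℝ) < Q := lt_of_le_of_lt (by positivity) hQ
  have hQ0 : 0 < Q := by exact_mod_cast hQ0'
  set e : ℝ := 1 / ((R + 1) * (T + 1)) with he
  have he0 : 0 < e := by positivity
  haveI : Nonempty (Fin G.m × Fin Q) := ⟨(⟨0, G.m_pos⟩, ⟨0, hQ0⟩)⟩
  have hlog : 0 ≤ Real.log (k + 1) := Real.log_nonneg (by simp)
  obtain ⟨a, ha⟩ := absStmt k (by have := G.hk; omega) Y s Ω (Fin G.m × Fin Q) G.Ξ G.P (G.Mac Q)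
    G.q G.Pot (G.M0 hQ0) (G.L * (2 ^ 15 * G.CL * Real.log (k + 1)))
    (2 * (G.lam * G.CR * G.W / Q) + G.L * ∑ j ∈ range G.J, G.r j * e) (B1 + B2 + B3 + B4)
    (by positivity)
    (add_nonneg (by positivity) (mul_nonneg hL.le (sum_nonneg fun j _ =>
      mul_nonneg (G.r_pos j).le he0.le)))
    G.q_simple G.Pot_concave
    (fun M π hπ cfg => by
      have h1 := G.PotT_lower M.σ M.simple hπ cfg
      have h2 := G.PotL_lower M.inv (nu_nonneg hπ.1 cfg) (sum_nu hπ cfg)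
      have h3 := le_abs_self (G.lam * G.CR * G.BT)
      unfold Pot
      linarith)
    (fun π hπ => by
      have h1 := G.PotT_init (Q := Q) G.σ0 hπ (fun _ => s)
      have h2 := G.PotL_upper G.σ0 (nu_nonneg hπ.1 fun _ => s) (sum_nu hπ fun _ => s)
      have h3 := le_abs_self (G.lam * G.CR * G.BT)
      change G.PotT (Q := Q) G.σ0 (fun _ _ => (G.τ0, fun _ _ => [])) π (fun _ => s) +
        G.PotL G.σ0 (nu π fun _ => s) ≤ _
      linarith)
    (fun ξ ι => by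
      change ∑ i, dist (s i) G.y0 ≤ _
      linarith)
    (fun M π hπ cfg x jj => G.step hQ0 M hπ cfg x jj he0) π hπ T x j
  refine ⟨a, ha.trans ?_⟩
  have h1 : (T : ℝ) * (2 * (G.lam * G.CR * G.W / Q)) ≤ 1 := by
    have : (T : ℝ) * (2 * (G.lam * G.CR * G.W / Q)) = A * T / Q := by rw [hA]; ring
    rw [this, div_le_one hQ0']
    exact hQ.le
  have h2 : (T : ℝ) * (G.L * ∑ j ∈ range G.J, G.r j * e) ≤ 1 := by
    have : (T : ℝ) * (G.L * ∑ j ∈ range G.J, G.r j * e) = R * T / ((R + 1) * (T + 1)) := by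
      rw [← sum_mul, hR, he]; ring
    rw [this, div_le_one (by positivity)]
    have hT : (0 : ℝ) ≤ T := Nat.cast_nonneg _
    nlinarith
  rw [mul_add (T : ℝ)]
  linarith

end Base

theorem bayes_of {CT CR CL : ℝ} (hCT : 1 ≤ CT) (hT : TreeStmt.{u} CT)
    (hCR : 1 ≤ CR) (hR : RoundStmt.{u} CR) (hCL : 1 ≤ CL) (hL : LevelStmt.{u} CL) :
    BayesStmt.{u} (4 * (3 * 2048) * CR * CT * (2 ^ 15 * CL)) := by
  intro k hk Y _ _ _ s
  obtain ⟨G, h1, h2, h3⟩ := exists_base hk (s ⟨0, by omega⟩) hCT hT hCR hR hCL hL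
  obtain ⟨B, hB⟩ := G.bayes_base s
  refine ⟨B, fun Ω _ π hπ T x j => ?_⟩
  obtain ⟨a, ha⟩ := hB Ω π hπ T x j
  refine ⟨a, ha.trans (le_of_eq ?_)⟩
  rw [Base.L, h1, h2, h3]
  ring

end Crest.Agent.R314
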