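import Crest.Agent.R314.GGeom
import Crest.Agent.R314.Nodes

/-!
# Part E: one deterministic update of tree state, rounding and labelled positions
-/

set_option autoImplicit false

open Finset MeasureTheory

namespace Crest.Agent.R314

universe u

variable {k : ℕ} {Y : Type u} [Fintype Y] [DecidableEq Y] [MetricSpace Y]

lemma gm_cnt_nil {Lab : Type u} [DecidableEq Lab] (pos : Fin k → List Lab) : cnt pos [] = k := by
  simp [cnt]

lemma gm_cnt_root {Lab : Type u} [DecidableEq Lab] {v : List Lab} (hv : v ≠ []) :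
    cnt (fun _ : Fin k => ([] : List Lab)) v = 0 := by
  simp [cnt, hv]

/-- a nonzero entry forces a nonzero mass -/
lemma gm_ne_zero {Lab : Type u} [Fintype Lab] {J Q : ℕ} {z : List Lab → ℝ}
    {n : Fin Q → List Lab → ℕ} (h : RoundOK k J Q z n) {v : List Lab} (hv : v.length ≤ J)
    {θ : Fin Q} (hn : n θ v ≠ 0) : z v ≠ 0 := by
  intro h0
  have h1 := h.avg v hv
  rw [h0, mul_zero, Nat.floor_zero, sum_eq_zero_iff] at h1
  exact hn (h1 θ (mem_univ _))

namespace Base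

variable (G : Base k Y) {Q : ℕ}

lemma mic0_ok (hQ : 0 < Q) : G.MicOK (Q := Q) (G.τ0, fun _ _ => []) := by
  have _ := hQ
  refine ⟨fun _ _ => Nat.zero_le _, ⟨fun _ => gm_cnt_nil _, fun θ v _ => ?_, fun v _ => ?_,
    fun v _ θ θ' => Nat.le_succ _⟩⟩
  · simp only [gm_cnt_root (List.cons_ne_nil _ _), sum_const_zero, Nat.zero_le]
  · by_cases hv : v = []
    · subst hv
      simp only [gm_cnt_nil, sum_const, card_univ, Fintype.card_fin, smul_eq_mul]
      rw [(G.feas G.τ0).root, ← Nat.cast_mul, Nat.floor_natCast]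
    · simp only [gm_cnt_root hv, sum_const_zero]
      rw [G.z0 v hv, mul_zero, Nat.floor_zero]

lemma avg_cnt_le {u : G.Mic Q} (hu : G.MicOK u) {v : List (Lb Y)} (hv : v.length ≤ G.J) :
    ∑ θ, (cnt (u.2 θ) v : ℝ) ≤ Q * G.z u.1 v := by
  have h1 := hu.round.avg v hv
  rw [← Nat.cast_sum, h1]
  exact Nat.floor_le (mul_nonneg (Nat.cast_nonneg _) ((G.feas u.1).nonneg v hv))

lemma z_ne_zero_of_cnt {u : G.Mic Q} (hu : G.MicOK u) {v : List (Lb Y)} (hv : v.length ≤ G.J)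
    {θ : Fin Q} (h : cnt (u.2 θ) v ≠ 0) : G.z u.1 v ≠ 0 :=
  gm_ne_zero hu.round hv (θ := θ) h

/-- `∑_θ n θ v = ⌊Q z⌋ ≥ Q` and balance force `n θ v ≥ 1` for all `θ`; a list of length `≤ J` with
a suffix of length `J` equals it -/
lemma exists_server {u : G.Mic Q} (hu : G.MicOK u) {v : List (Lb Y)} (hv : v.length = G.J)
    (h : 1 ≤ G.z u.1 v) (θ : Fin Q) : ∃ l, u.2 θ l = v := by
  have h1 := hu.round.avg v hv.le
  have h2 : Q ≤ ⌊(Q : ℝ) * G.z u.1 v⌋₊ :=
    Nat.le_floor (le_mul_of_one_le_right (Nat.cast_nonneg _) h)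
  have h3 : cnt (u.2 θ) v ≠ 0 := by
    intro h0
    have h4 : ∑ θ', cnt (u.2 θ') v < ∑ _θ' : Fin Q, 1 := by
      refine sum_lt_sum (fun θ' _ => ?_) ⟨θ, mem_univ _, by omega⟩
      have := hu.round.bal v hv.le θ' θ
      omega
    simp only [sum_const, card_univ, Fintype.card_fin, smul_eq_mul, mul_one] at h4
    omega
  obtain ⟨l, hl⟩ := card_ne_zero.1 h3
  have h5 := (mem_filter.1 hl).2
  exact ⟨l, (h5.eq_of_length_le (by rw [hv]; exact hu.len θ l)).symm⟩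

/-- `Φupd` gives `τ'`; `round` gives `n'`; `trans` (row by row, `len v = lam * wt J v`) gives the
positions. -/
lemma micro (hQ : 0 < Q) {u : G.Mic Q} (hu : G.MicOK u) {s : Prof (Lb Y) k} (hs : IsProf G.J s)
    (loc : List (Lb Y) → Y)
    (hlen : ∀ v : List (Lb Y), v.length ≤ G.J → v ≠ [] → (G.z u.1 v ≠ 0 ∨ ∑ i, s v i ≠ 0) →
      dist (loc v) (loc v.tail) ≤ G.lam * wt G.J v) :
    ∃ u' : G.Mic Q, G.MicOK u' ∧
      (∀ v : List (Lb Y), v.length ≤ G.J → v ≠ [] → G.z u'.1 v ≤ G.CT * ∑ i, s v i) ∧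
      (∀ v : List (Lb Y), v.length ≤ G.J → (∃ i, s v i = 1) → 1 ≤ G.z u'.1 v) ∧
      (∑ θ, ∑ l, dist (loc (u.2 θ l)) (loc (u'.2 θ l))) / Q + G.lam * G.CR * G.Φ u'.1 s ≤
        G.lam * G.CR * G.Φ u.1 s + G.lam * G.CR * G.W / Q := by
  obtain ⟨τ', hcost, hcap, hone⟩ := G.Φupd u.1 s hs
  obtain ⟨n', hn', hr⟩ := G.round k (Lb Y) G.J Q hQ (G.z u.1) (G.z τ') (G.feas _) (G.feas _) _
    hu.round
  have hlam : 0 < G.lam := by have := G.hδ; unfold lam; positivity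
  have hCR : 0 < G.CR := lt_of_lt_of_le one_pos G.hCR
  have hrow : ∀ θ, ∃ pos' : Fin k → List (Lb Y), (∀ i, (pos' i).length ≤ G.J) ∧
      (∀ v : List (Lb Y), v.length ≤ G.J → cnt pos' v = n' θ v) ∧
      ∑ i, dist (loc (u.2 θ i)) (loc (pos' i)) ≤
        ∑ v ∈ nodes (Lb Y) G.J, |(n' θ v : ℝ) - cnt (u.2 θ) v| * (G.lam * wt G.J v) := by
    intro θ
    refine G.trans k (Lb Y) Y G.J (u.2 θ) (hu.len θ) (n' θ) (hn'.root θ) (hn'.super θ) loc
      (fun v => G.lam * wt G.J v) (fun v => mul_nonneg hlam.le (wt_pos _ _).le)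
      fun v hv hv0 hne => hlen v hv hv0 ?_
    by_cases h1 : cnt (u.2 θ) v = 0
    · right
      have h2 : G.z τ' v ≠ 0 := gm_ne_zero hn' hv (θ := θ) (by omega)
      intro h3
      have h4 := hcap v hv hv0
      rw [h3, mul_zero] at h4
      exact h2 (le_antisymm h4 ((G.feas τ').nonneg v hv))
    · left
      exact G.z_ne_zero_of_cnt hu hv h1
  choose pos' hp1 hp2 hp3 using hrow
  refine ⟨(τ', pos'), ⟨hp1, ⟨fun θ => gm_cnt_nil _, fun θ v hv => ?_, fun v hv => ?_,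
    fun v hv θ θ' => ?_⟩⟩, hcap, hone, ?_⟩
  · simp only
    rw [hp2 θ v hv.le, sum_congr rfl fun a _ => hp2 θ (a :: v) (by simpa using hv)]
    exact hn'.super θ v hv
  · simp only
    rw [sum_congr rfl fun θ _ => hp2 θ v hv]
    exact hn'.avg v hv
  · simp only
    rw [hp2 θ v hv, hp2 θ' v hv]
    exact hn'.bal v hv θ θ'
  · simp only
    have hQ' : (0 : ℝ) < Q := by exact_mod_cast hQ
    have h1 : ∑ θ, ∑ l, dist (loc (u.2 θ l)) (loc (pos' θ l)) ≤
        G.lam * ∑ θ, ∑ v ∈ nodes (Lb Y) G.J, wt G.J v * |(n' θ v : ℝ) - cnt (u.2 θ) v| := by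
      rw [mul_sum]
      refine sum_le_sum fun θ _ => (hp3 θ).trans (le_of_eq ?_)
      rw [mul_sum]
      exact sum_congr rfl fun v _ => by ring
    have h2 : ∑ v ∈ nodes (Lb Y) G.J, wt G.J v * (Q * |G.z τ' v - G.z u.1 v| + 1) =
        Q * ∑ v ∈ nodes (Lb Y) G.J, wt G.J v * |G.z τ' v - G.z u.1 v| + G.W := by
      rw [W, mul_sum, ← sum_add_distrib]
      exact sum_congr rfl fun v _ => by ring
    rw [h2] at hr
    have h3 := h1.trans (mul_le_mul_of_nonneg_left hr hlam.le)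
    have h4 : (∑ θ, ∑ l, dist (loc (u.2 θ l)) (loc (pos' θ l))) / Q ≤
        G.lam * G.CR * ∑ v ∈ nodes (Lb Y) G.J, wt G.J v * |G.z τ' v - G.z u.1 v| +
          G.lam * G.CR * G.W / Q := by
      rw [div_le_iff₀ hQ']
      refine h3.trans (le_of_eq ?_)
      field_simp
    have h5 := mul_le_mul_of_nonneg_left hcost (mul_pos hlam hCR).le
    linarith

end Base

end Crest.Agent.R314
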