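import Crest.Agent.R314.GGeom

/-!
# Part E: summation over the scales
-/

set_option autoImplicit false

open Finset MeasureTheory

namespace Crest.Agent.R314

universe u

variable {k : ℕ} {Y : Type u} [Fintype Y] [DecidableEq Y] [MetricSpace Y]

/-- telescoping over an arbitrary set of indices (take the least one) -/
lemma sum_telescope_le (J : ℕ) (S : Finset ℕ) (hS : S ⊆ range J) (F : ℕ → ℝ) (hF : Monotone F)
    {lo hi : ℝ} (hlo : ∀ j ∈ S, lo ≤ F j) (hhi : F J ≤ hi) (h : lo ≤ hi) :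
    ∑ j ∈ S, (F (j + 1) - F j) ≤ hi - lo := by
  have h1 : ∑ j ∈ S, (F (j + 1) - F j) = ∑ j ∈ S, (max lo (F (j + 1)) - max lo (F j)) :=
    sum_congr rfl fun j hj => by
      rw [max_eq_right (hlo j hj), max_eq_right ((hlo j hj).trans (hF (Nat.le_succ j)))]
  have h2 : ∑ j ∈ S, (max lo (F (j + 1)) - max lo (F j)) ≤
      ∑ j ∈ range J, (max lo (F (j + 1)) - max lo (F j)) :=
    sum_le_sum_of_subset_of_nonneg hS fun j _ _ =>
      sub_nonneg.2 (max_le_max le_rfl (hF (Nat.le_succ j)))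
  rw [sum_range_sub fun j => max lo (F j)] at h2
  linarith [le_max_left lo (F 0), max_le h hhi]

/-- `p j / (P j + c) ≤ log (P j + c) - log (P (j-1) + c)` for the partial sums `P` -/
lemma sum_div_partial_le (J : ℕ) (p : ℕ → ℝ) (hp : ∀ j, 0 ≤ p j) {c H : ℝ} (hc : 0 < c)
    (hH : ∑ j ∈ range J, p j ≤ H) :
    ∑ j ∈ range J, p j / (∑ j' ∈ range (j + 1), p j' + c) ≤ Real.log ((H + c) / c) := by
  have hP : ∀ n, 0 < ∑ j ∈ range n, p j + c := fun n =>
    add_pos_of_nonneg_of_pos (sum_nonneg fun j _ => hp j) hc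
  have h1 : ∑ j ∈ range J, p j / (∑ j' ∈ range (j + 1), p j' + c) ≤
      ∑ j ∈ range J, (Real.log (∑ j' ∈ range (j + 1), p j' + c) -
        Real.log (∑ j' ∈ range j, p j' + c)) := by
    refine sum_le_sum fun j _ => ?_
    have h2 := Real.log_le_sub_one_of_pos (div_pos (hP j) (hP (j + 1)))
    rw [Real.log_div (hP j).ne' (hP (j + 1)).ne'] at h2
    have h3 : (∑ j' ∈ range j, p j' + c) / (∑ j' ∈ range (j + 1), p j' + c) =
        1 - p j / (∑ j' ∈ range (j + 1), p j' + c) := by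
      rw [one_sub_div (hP (j + 1)).ne', sum_range_succ]
      congr 1
      ring
    linarith
  rw [sum_range_sub fun j => Real.log (∑ j' ∈ range j, p j' + c), sum_range_zero, zero_add] at h1
  rw [Real.log_div (by linarith [hP J]) hc.ne']
  linarith [Real.log_le_log (hP J) (add_le_add_left hH c)]

/-- geometric sum of the scales below a threshold -/
lemma sum_scales_le (J : ℕ) {δ T : ℝ} (hδ : 0 < δ) (hT : 0 ≤ T) (S : Finset ℕ)
    (hS : ∀ j ∈ S, δ * 2048 ^ j ≤ T) : ∑ j ∈ S, δ * 2048 ^ j ≤ 2 * T := by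
  have _ := J
  have key : ∀ n : ℕ, ∑ j ∈ range (n + 1), δ * 2048 ^ j ≤ 2 * (δ * 2048 ^ n) := by
    intro n
    induction n with
    | zero => simp; linarith
    | succ n ih =>
      rw [sum_range_succ, pow_succ]
      have : 0 < δ * 2048 ^ n := by positivity
      linarith
  rcases S.eq_empty_or_nonempty with rfl | hne
  · rw [sum_empty]; linarith
  · have h1 : ∑ j ∈ S, δ * 2048 ^ j ≤ ∑ j ∈ range (S.max' hne + 1), δ * 2048 ^ j :=
      sum_le_sum_of_subset_of_nonneg
        (fun j hj => mem_range.2 (Nat.lt_succ_of_le (S.le_max' j hj))) fun j _ _ => by positivity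
    linarith [key (S.max' hne), hS _ (S.max'_mem hne)]

private lemma gs_log_ge (hk : 2 ≤ k) : 1 ≤ Real.log (k + 1) := by
  rw [Real.le_log_iff_exp_le (by positivity)]
  have h1 := Real.exp_one_lt_d9
  have h2 : (2 : ℝ) ≤ k := by exact_mod_cast hk
  linarith

namespace Base

variable (G : Base k Y) {ν : Y → ℝ}

private lemma gs_D_succ (j : ℕ) (x y : Y) : G.D (j + 1) x y = G.D j x y / 2048 := by
  simp only [Dj, pow_succ, div_div, mul_assoc]

private lemma gs_bm_succ (j : ℕ) (x : Y) :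
    bm (G.D j) ν x 2 = bm (G.D (j + 1)) ν x (1 / 1024) := by
  unfold bm
  congr 1
  ext w
  rw [mem_bl, mem_bl, G.gs_D_succ, div_le_iff₀ (by norm_num)]
  norm_num

private lemma gs_wide_pos (h0 : ∀ y, 0 ≤ ν y) (h1 : ∑ y, ν y = k) (x : Y) (j : ℕ) :
    0 < wide (G.D j) ν x := by
  have hk : (0 : ℝ) < k := by
    have := G.hk
    exact_mod_cast (by omega : 0 < k)
  obtain ⟨w, -, hw⟩ := exists_ne_zero_of_sum_ne_zero (h1 ▸ hk.ne' : ∑ y, ν y ≠ 0)
  refine sum_pos' (fun y _ => ?_) ⟨w, mem_univ w, ?_⟩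
  · have := (G.isMet j).nonneg x y
    have := h0 y
    positivity
  · have := (G.isMet j).nonneg x w
    have := lt_of_le_of_ne (h0 w) hw.symm
    positivity

private lemma gs_wide_step (h0 : ∀ y, 0 ≤ ν y) (x : Y) (j : ℕ) :
    wide (G.D j) ν x + ring (G.D j) ν x / 2 ≤ wide (G.D (j + 1)) ν x ∧
      wide (G.D (j + 1)) ν x ≤ 2048 * wide (G.D j) ν x := by
  simp only [wide, ring, sum_div, mul_sum, ← sum_add_distrib, G.gs_D_succ]
  refine ⟨sum_le_sum fun w _ => ?_, sum_le_sum fun w _ => ?_⟩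
  · have ht := (G.isMet j).nonneg x w
    set t := G.D j x w
    have h2 : 1 / (1 + t) + t / (1 + t) ^ 2 / 2 ≤ 1 / (1 + t / 2048) := by
      rw [div_div, div_add_div _ _ (by positivity) (by positivity),
        div_le_div_iff₀ (by positivity) (by positivity)]
      have := mul_nonneg ht ht
      have := mul_nonneg this ht
      nlinarith
    have h3 := mul_le_mul_of_nonneg_left h2 (h0 w)
    calc _ = ν w * (1 / (1 + t) + t / (1 + t) ^ 2 / 2) := by ring
      _ ≤ _ := h3
      _ = _ := by ring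
  · have ht := (G.isMet j).nonneg x w
    set t := G.D j x w
    rw [← mul_div_assoc, div_le_div_iff₀ (by positivity) (by positivity)]
    have := mul_nonneg (h0 w) ht
    nlinarith [h0 w]

private lemma gs_wide_near (h0 : ∀ y, 0 ≤ ν y) {x : Y} {j : ℕ} (hj : G.Near ν x j) :
    512 / 1025 ≤ wide (G.D j) ν x := by
  have h1 := bm_le_wide (G.isMet j) h0 x (R := 1 / 1024) (by norm_num)
  unfold Near at hj
  linarith

open Classical in
/-- `N (j+1) - N j ≥ ring j / 2`, `N (j+1) ≤ 2048 N j`, so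
`ring j / N j ≤ 4096 (log N (j+1) - log N j)`; `0.49 ≤ N j ≤ k` on near scales (`bm_le_wide`);
`N j > 0` for every `j` since `∑ ν = k > 0` -/
lemma sum_beta (h0 : ∀ y, 0 ≤ ν y) (h1 : ∑ y, ν y = k) (x : Y) :
    ∑ j ∈ (range G.J).filter (G.Near ν x), ring (G.D j) ν x / wide (G.D j) ν x ≤
      7000 * Real.log (k + 1) := by
  have hp := G.gs_wide_pos h0 h1 x
  have hk : (2 : ℝ) ≤ k := by exact_mod_cast G.hk
  have hmono : Monotone fun j => Real.log (wide (G.D j) ν x) :=
    monotone_nat_of_le_succ fun j => Real.log_le_log (hp j)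
      (by linarith [(G.gs_wide_step h0 x j).1, ring_nonneg (G.isMet j) h0 x])
  have h2 := sum_telescope_le G.J ((range G.J).filter (G.Near ν x)) (filter_subset _ _) _ hmono
    (lo := Real.log (512 / 1025)) (hi := Real.log (k + 1))
    (fun j hj => Real.log_le_log (by norm_num) (G.gs_wide_near h0 (mem_filter.1 hj).2))
    (Real.log_le_log (hp _) (by linarith [wide_le_sum (G.isMet G.J) h0 x]))
    (Real.log_le_log (by norm_num) (by linarith))
  have h3 : ∑ j ∈ (range G.J).filter (G.Near ν x), ring (G.D j) ν x / wide (G.D j) ν x ≤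
      4096 * ∑ j ∈ (range G.J).filter (G.Near ν x),
        (Real.log (wide (G.D (j + 1)) ν x) - Real.log (wide (G.D j) ν x)) := by
    rw [mul_sum]
    refine sum_le_sum fun j _ => ?_
    obtain ⟨a1, a2⟩ := G.gs_wide_step h0 x j
    have b1 := hp j
    have b2 := hp (j + 1)
    have b3 := ring_nonneg (G.isMet j) h0 x
    have h4 := Real.log_le_sub_one_of_pos (div_pos b1 b2)
    rw [Real.log_div b1.ne' b2.ne'] at h4
    have h5 : ring (G.D j) ν x / wide (G.D j) ν x ≤
        4096 * (1 - wide (G.D j) ν x / wide (G.D (j + 1)) ν x) := by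
      rw [one_sub_div b2.ne', ← mul_div_assoc, div_le_div_iff₀ b1 b2]
      nlinarith [mul_le_mul_of_nonneg_left a2 b3, mul_le_mul_of_nonneg_right a1 b1.le]
    linarith
  have h6 : -Real.log (512 / 1025) ≤ 7 / 10 := by
    have e : (512 / 1025 : ℝ) = (2 * (1025 / 1024))⁻¹ := by norm_num
    rw [e, Real.log_inv, neg_neg, Real.log_mul (by norm_num) (by norm_num)]
    have := Real.log_two_lt_d9
    have := Real.log_le_sub_one_of_pos (show (0 : ℝ) < 1025 / 1024 by norm_num)
    linarith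
  linarith [gs_log_ge G.hk]

open Classical in
/-- `bm (D j) ν x 2 = bm (D (j+1)) ν x (1/1024)`; telescope `F j = log (max (1/2) (bm (D j) ν x (1/1024)))` -/
lemma sum_lambda (h0 : ∀ y, 0 ≤ ν y) (h1 : ∑ y, ν y = k) (x : Y) :
    ∑ j ∈ (range G.J).filter (G.Near ν x),
      Real.log (bm (G.D j) ν x 2 / bm (G.D j) ν x (1 / 1024)) ≤ 2 * Real.log (k + 1) := by
  have hk : (2 : ℝ) ≤ k := by exact_mod_cast G.hk
  have hs : ∀ j, bm (G.D j) ν x (1 / 1024) ≤ bm (G.D (j + 1)) ν x (1 / 1024) := fun j => by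
    rw [← G.gs_bm_succ]
    exact bm_le_bm (G.isMet j) h0 (by rw [(G.isMet j).self]; norm_num)
  have hpos : ∀ j, 0 < max (1 / 2) (bm (G.D j) ν x (1 / 1024)) := fun j =>
    lt_of_lt_of_le (by norm_num) (le_max_left _ _)
  have hmono : Monotone fun j => Real.log (max (1 / 2) (bm (G.D j) ν x (1 / 1024))) :=
    monotone_nat_of_le_succ fun j => Real.log_le_log (hpos j) (max_le_max le_rfl (hs j))
  have h2 := sum_telescope_le G.J ((range G.J).filter (G.Near ν x)) (filter_subset _ _) _ hmono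
    (lo := Real.log (1 / 2)) (hi := Real.log k)
    (fun j _ => Real.log_le_log (by norm_num) (le_max_left _ _))
    (Real.log_le_log (hpos _) (max_le (by linarith) (h1 ▸ bm_le_sum h0 x _)))
    (Real.log_le_log (by norm_num) (by linarith))
  have h3 : Real.log k - Real.log (1 / 2) ≤ 2 * Real.log (k + 1) := by
    rw [← Real.log_div (by positivity) (by norm_num), two_mul,
      ← Real.log_mul (by positivity) (by positivity)]
    exact Real.log_le_log (by positivity) (by nlinarith)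
  refine le_trans (le_of_eq (sum_congr rfl fun j hj => ?_)) (h2.trans h3)
  have hn : 1 / 2 ≤ bm (G.D j) ν x (1 / 1024) := (mem_filter.1 hj).2
  rw [max_eq_right hn, max_eq_right (hn.trans (hs j)), G.gs_bm_succ,
    Real.log_div (by linarith [hs j]) (by linarith)]

lemma rate_nonneg (h0 : ∀ y, 0 ≤ ν y) {x : Y} {j : ℕ} (hj : G.Near ν x j) (σ : KD Y)
    {p : Option Y → ℝ} (hp : ∀ a, 0 ≤ p a) : 0 ≤ rate (G.D j) G.η ν σ p x := by
  have h1 := ring_nonneg (G.isMet j) h0 x
  have h2 := wide_nonneg (G.isMet j) h0 x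
  have h3 : 0 ≤ pnear (G.D j) σ p x := sum_nonneg fun a _ => hp a
  have hn : 1 / 2 ≤ bm (G.D j) ν x (1 / 1024) := hj
  refine add_nonneg (by positivity) (Real.log_nonneg ?_)
  rw [le_div_iff₀ (by linarith), one_mul]
  exact bm_le_bm (G.isMet j) h0 (by rw [(G.isMet j).self]; norm_num)

open Classical in
/-- `η card Y / N ≤ 3/J`; for the parked mass `N j ≥ (P j + 1.47)/6` since `P j ≤ bm 2 ≤ 3 N j` and
`N j ≥ 0.49`, then `sum_div_partial_le` with `H = k` -/
lemma sum_rate (h0 : ∀ y, 0 ≤ ν y) (h1 : ∑ y, ν y = k) (x : Y) (σ : ℕ → KD Y)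
    (p : ℕ → Option Y → ℝ) (hp : ∀ j a, 0 ≤ p j a)
    (hcap : ∀ j < G.J, ∑ j' ∈ range (j + 1), pnear (G.D j') (σ j') (p j') x ≤ bm (G.D j) ν x 2) :
    ∑ j ∈ (range G.J).filter (G.Near ν x), rate (G.D j) G.η ν (σ j) (p j) x ≤
      2 ^ 14 * Real.log (k + 1) := by
  have hJ : (0 : ℝ) < G.J := by exact_mod_cast G.hJ
  have hc : (0 : ℝ) < Fintype.card Y := by exact_mod_cast Fintype.card_pos_iff.2 ⟨x⟩
  have hη : G.η * Fintype.card Y = 1 / G.J := by
    unfold η
    field_simp
  have hq : ∀ j, 0 ≤ pnear (G.D j) (σ j) (p j) x := fun j => sum_nonneg fun a _ => hp j a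
  have h2 := G.sum_beta h0 h1 x
  have h3 := G.sum_lambda h0 h1 x
  have h4 : ∑ j ∈ range G.J, pnear (G.D j) (σ j) (p j) x ≤ k := by
    have := hcap (G.J - 1) (Nat.sub_one_lt G.hJ.ne')
    rw [Nat.sub_add_cancel G.hJ] at this
    exact this.trans (h1 ▸ bm_le_sum h0 x _)
  have h5 := sum_div_partial_le G.J _ hq one_pos h4
  rw [div_one] at h5
  have h6 : ∑ j ∈ (range G.J).filter (G.Near ν x), rate (G.D j) G.η ν (σ j) (p j) x ≤
      ∑ j ∈ (range G.J).filter (G.Near ν x), (ring (G.D j) ν x / wide (G.D j) ν x +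
        Real.log (bm (G.D j) ν x 2 / bm (G.D j) ν x (1 / 1024)) +
        (3 / G.J + 6 * (pnear (G.D j) (σ j) (p j) x /
          (∑ j' ∈ range (j + 1), pnear (G.D j') (σ j') (p j') x + 1)))) := by
    refine sum_le_sum fun j hj => ?_
    obtain ⟨hj1, hj2⟩ := mem_filter.1 hj
    have a1 := G.gs_wide_near h0 hj2
    have a0 : 0 < wide (G.D j) ν x := by linarith
    have a2 := hcap j (mem_range.1 hj1)
    have a3 := bm_le_wide (G.isMet j) h0 x (R := 2) (by norm_num)
    have a4 : 0 ≤ ∑ j' ∈ range (j + 1), pnear (G.D j') (σ j') (p j') x :=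
      sum_nonneg fun j' _ => hq j'
    have a5 : 1 / (G.J : ℝ) / wide (G.D j) ν x ≤ 3 / G.J := by
      rw [div_div, div_le_div_iff₀ (by positivity) hJ]
      nlinarith
    have a6 : pnear (G.D j) (σ j) (p j) x / wide (G.D j) ν x ≤ 6 * (pnear (G.D j) (σ j) (p j) x /
          (∑ j' ∈ range (j + 1), pnear (G.D j') (σ j') (p j') x + 1)) := by
      rw [← mul_div_assoc, div_le_div_iff₀ a0 (by positivity), mul_comm 6, mul_assoc]
      exact mul_le_mul_of_nonneg_left (by linarith) (hq j)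
    rw [rate, hη, add_div, add_div]
    linarith
  have h7 : ∑ j ∈ (range G.J).filter (G.Near ν x), (3 / G.J + 6 * (pnear (G.D j) (σ j) (p j) x /
          (∑ j' ∈ range (j + 1), pnear (G.D j') (σ j') (p j') x + 1))) ≤
      ∑ j ∈ range G.J, (3 / G.J + 6 * (pnear (G.D j) (σ j) (p j) x /
          (∑ j' ∈ range (j + 1), pnear (G.D j') (σ j') (p j') x + 1))) :=
    sum_le_sum_of_subset_of_nonneg (filter_subset _ _) fun j _ _ => by
      have a4 : 0 ≤ ∑ j' ∈ range (j + 1), pnear (G.D j') (σ j') (p j') x :=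
        sum_nonneg fun j' _ => hq j'
      have := hq j
      positivity
  rw [sum_add_distrib (s := range G.J), ← mul_sum, sum_const, card_range, nsmul_eq_mul,
    mul_div_cancel₀ _ hJ.ne'] at h7
  rw [sum_add_distrib, sum_add_distrib] at h6
  linarith [gs_log_ge G.hk]

open Classical in
/-- Let `d̄ = ∑ π ω dist (y ω) x`.  A scale that is not near has `r j ≤ 2048 d̄` (Markov, `hν`), and
costs `≤ 2 CL log(k+1) r j`.  On a near scale `r j g ≤ CL dist · ρ j` if `D j x (y ω) ≤ 1/1024`,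
else `r j ≤ 1024 dist` and `g ≤ CL log (k+1)`; `sum_scales_le`. -/
lemma scale_sum {Ω : Type u} [Fintype Ω] {π : Ω → ℝ} (hπ : π ∈ stdSimplex ℝ Ω) (y : Ω → Y) (x : Y)
    (hν : ∀ j, ∑ ω, π ω * (if y ω ∈ bl (G.D j) x (1 / 1024) then (1 : ℝ) else 0) ≤
      bm (G.D j) ν x (1 / 1024))
    (ρ : ℕ → ℝ) (hρ0 : ∀ j, G.Near ν x j → 0 ≤ ρ j)
    (hρ : ∑ j ∈ (range G.J).filter (G.Near ν x), ρ j ≤ 2 ^ 14 * Real.log (k + 1))
    (g : ℕ → Y → ℝ) (hg1 : ∀ j < G.J, ∀ w, g j w ≤ G.CL * Real.log (k + 1))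
    (hg2 : ∀ j < G.J, G.Near ν x j → ∀ w, G.D j x w ≤ 1 / 1024 → g j w ≤ G.CL * G.D j x w * ρ j) :
    ∑ j ∈ range G.J, G.r j * ((if 1 / 2 ≤ bm (G.D j) ν x (1 / 1024) then 0 else G.CL) +
        ∑ ω, π ω * g j (y ω)) ≤
      2 ^ 15 * G.CL * Real.log (k + 1) * ∑ ω, π ω * dist (y ω) x := by
  have hL := gs_log_ge G.hk
  have hC := G.hCL
  have hC0 : 0 ≤ G.CL := by linarith
  have hCL : 0 ≤ G.CL * Real.log (k + 1) := mul_nonneg hC0 (by linarith)
  have hd : 0 ≤ ∑ ω, π ω * dist (y ω) x := sum_nonneg fun ω _ => mul_nonneg (hπ.1 ω) dist_nonneg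
  rw [← sum_filter_add_sum_filter_not (range G.J) (G.Near ν x)]
  -- far scales
  have hfar : ∑ j ∈ (range G.J).filter (fun j => ¬ G.Near ν x j),
      G.r j * ((if 1 / 2 ≤ bm (G.D j) ν x (1 / 1024) then 0 else G.CL) + ∑ ω, π ω * g j (y ω)) ≤
      2 * (G.CL * Real.log (k + 1)) * (2 * (2048 * ∑ ω, π ω * dist (y ω) x)) := by
    have h1 := sum_scales_le G.J G.hδ (T := 2048 * ∑ ω, π ω * dist (y ω) x) (by positivity)
      ((range G.J).filter fun j => ¬ G.Near ν x j) fun j hj => by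
        have hn : bm (G.D j) ν x (1 / 1024) < 1 / 2 := not_le.1 (mem_filter.1 hj).2
        have a1 : ∑ ω, π ω * (G.r j / 1024 *
            (1 - if y ω ∈ bl (G.D j) x (1 / 1024) then (1 : ℝ) else 0)) ≤
            ∑ ω, π ω * dist (y ω) x := by
          refine sum_le_sum fun ω _ => mul_le_mul_of_nonneg_left ?_ (hπ.1 ω)
          split_ifs with h
          · rw [sub_self, mul_zero]; exact dist_nonneg
          · rw [mem_bl, not_le] at h
            rw [dist_comm, G.dist_eq j]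
            nlinarith [G.r_pos j]
        have a2 : ∑ ω, π ω * (G.r j / 1024 *
            (1 - if y ω ∈ bl (G.D j) x (1 / 1024) then (1 : ℝ) else 0)) =
            G.r j / 1024 * (∑ ω, π ω -
              ∑ ω, π ω * (if y ω ∈ bl (G.D j) x (1 / 1024) then (1 : ℝ) else 0)) := by
          rw [← sum_sub_distrib, mul_sum]
          exact sum_congr rfl fun ω _ => by ring
        rw [a2, hπ.2] at a1
        have a3 := hν j
        change G.r j ≤ _
        nlinarith [G.r_pos j]
    refine le_trans ?_ (mul_le_mul_of_nonneg_left h1 (by positivity))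
    rw [mul_sum]
    refine sum_le_sum fun j hj => ?_
    obtain ⟨hj1, hj2⟩ := mem_filter.1 hj
    have a1 : ∑ ω, π ω * g j (y ω) ≤ G.CL * Real.log (k + 1) := by
      refine (sum_le_sum fun ω _ =>
        mul_le_mul_of_nonneg_left (hg1 j (mem_range.1 hj1) (y ω)) (hπ.1 ω)).trans ?_
      rw [← sum_mul, hπ.2, one_mul]
    rw [if_neg (show ¬ 1 / 2 ≤ bm (G.D j) ν x (1 / 1024) from hj2), mul_comm]
    refine mul_le_mul_of_nonneg_right ?_ (G.r_pos j).le
    nlinarith
  -- near scales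
  have hnear : ∑ j ∈ (range G.J).filter (G.Near ν x),
      G.r j * ((if 1 / 2 ≤ bm (G.D j) ν x (1 / 1024) then 0 else G.CL) + ∑ ω, π ω * g j (y ω)) ≤
      (2 ^ 14 + 2048) * (G.CL * Real.log (k + 1)) * ∑ ω, π ω * dist (y ω) x := by
    have e1 : ∑ j ∈ (range G.J).filter (G.Near ν x),
        G.r j * ((if 1 / 2 ≤ bm (G.D j) ν x (1 / 1024) then 0 else G.CL) + ∑ ω, π ω * g j (y ω)) =
        ∑ ω, π ω * ∑ j ∈ (range G.J).filter (G.Near ν x), G.r j * g j (y ω) := by
      simp only [mul_sum]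
      rw [sum_comm]
      refine sum_congr rfl fun j hj => ?_
      rw [if_pos (show 1 / 2 ≤ bm (G.D j) ν x (1 / 1024) from (mem_filter.1 hj).2), zero_add,
        mul_sum]
      exact sum_congr rfl fun ω _ => by ring
    rw [e1, mul_sum]
    refine sum_le_sum fun ω _ => ?_
    rw [mul_left_comm]
    refine mul_le_mul_of_nonneg_left ?_ (hπ.1 ω)
    have hdn : 0 ≤ dist (y ω) x := dist_nonneg
    have h1 := sum_scales_le G.J G.hδ (T := 1024 * dist (y ω) x) (by positivity)
      (((range G.J).filter (G.Near ν x)).filter fun j => G.r j ≤ 1024 * dist (y ω) x)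
      fun j hj => (mem_filter.1 hj).2
    rw [sum_filter] at h1
    have h2 : ∑ j ∈ (range G.J).filter (G.Near ν x), G.r j * g j (y ω) ≤
        ∑ j ∈ (range G.J).filter (G.Near ν x), (G.CL * dist (y ω) x * ρ j +
          G.CL * Real.log (k + 1) *
            if G.r j ≤ 1024 * dist (y ω) x then G.δ * 2048 ^ j else 0) := by
      refine sum_le_sum fun j hj => ?_
      obtain ⟨hj1, hj2⟩ := mem_filter.1 hj
      have hr := G.r_pos j
      have a0 := mul_nonneg (mul_nonneg hC0 hdn) (hρ0 j hj2)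
      have a1 : dist (y ω) x = G.r j * G.D j x (y ω) := by rw [dist_comm, G.dist_eq j]
      split_ifs with h
      · have := mul_le_mul_of_nonneg_left (hg1 j (mem_range.1 hj1) (y ω)) hr.le
        change _ ≤ _ + _ * G.r j
        linarith
      · have a2 : G.D j x (y ω) ≤ 1 / 1024 := by
          by_contra hh
          rw [not_le] at h hh
          nlinarith
        have := mul_le_mul_of_nonneg_left (hg2 j (mem_range.1 hj1) hj2 (y ω) a2) hr.le
        rw [a1]
        linarith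
    rw [sum_add_distrib, ← mul_sum, ← mul_sum] at h2
    have h3 := mul_le_mul_of_nonneg_left hρ (mul_nonneg hC0 hdn)
    have h4 := mul_le_mul_of_nonneg_left h1 hCL
    linarith
  have := mul_nonneg hCL hd
  linarith

end Base

end Crest.Agent.R314
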