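import Crest.Agent.R314.GMicro
import Crest.Agent.R314.GProf

/-!
# Part E: the tree potential in expectation
-/

set_option autoImplicit false

open Finset MeasureTheory

namespace Crest.Agent.R314

universe u

variable {k : ℕ} {Y : Type u} [Fintype Y] [DecidableEq Y] [MetricSpace Y]

namespace Base

variable (G : Base k Y) {Q : ℕ} {Ω : Type u} [Fintype Ω]

/-- the integrand of `PotT` is simple (a function of `u ξ` and of the paths) -/
lemma simple_Φ (σ : ℕ → KD Y) {u : G.Ξ → Fin G.m → G.Mic Q} (hs : Simple u) (π : Ω → ℝ)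
    (cfg : Ω → Fin k → Y) :
    Simple fun ξ => (∑ i : Fin G.m, G.Φ (u ξ i).1 (prof π cfg (G.path σ i ξ))) / (G.m : ℝ) :=
  hs.comp₂ (G.path_simple σ)
    (fun (u : Fin G.m → G.Mic Q) (p : Fin G.m → Y → List (Lb Y)) =>
      (∑ i : Fin G.m, G.Φ (u i).1 (prof π cfg (p i))) / (G.m : ℝ))

private lemma lamCR_nonneg : 0 ≤ G.lam * G.CR :=
  mul_nonneg G.lam_pos.le (by linarith [G.hCR])

private lemma m_posR : (0 : ℝ) < G.m := by exact_mod_cast G.m_pos

private lemma isProf' {π : Ω → ℝ} (hπ : π ∈ stdSimplex ℝ Ω) (cfg : Ω → Fin k → Y)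
    (path : Y → List (Lb Y)) : IsProf G.J (prof π cfg path) :=
  G.isProf k (Lb Y) Y Ω G.J π hπ cfg path

/-- `micro` for every `ξ, i`, chosen as a function of the simple variable `(u ξ, paths)`
(`Simple.choose`), then integrated -/
lemma stage (hQ : 0 < Q) (σ : ℕ → KD Y) (loc : List (Lb Y) → Y)
    {u : G.Ξ → Fin G.m → G.Mic Q} (hs : Simple u) (hu : ∀ ξ i, G.MicOK (u ξ i)) {π : Ω → ℝ}
    (hπ : π ∈ stdSimplex ℝ Ω) (cfg : Ω → Fin k → Y)
    (hlen : ∀ ξ (i : Fin G.m) (v : List (Lb Y)), v.length ≤ G.J → v ≠ [] →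
      (G.z (u ξ i).1 v ≠ 0 ∨ ∃ y, v <:+ G.path σ i ξ y) →
      dist (loc v) (loc v.tail) ≤ G.lam * wt G.J v) :
    ∃ u' : G.Ξ → Fin G.m → G.Mic Q, Simple u' ∧ (∀ ξ i, G.MicOK (u' ξ i)) ∧
      (∀ ξ (i : Fin G.m) (v : List (Lb Y)), v.length ≤ G.J → v ≠ [] →
        G.z (u' ξ i).1 v ≤ G.CT * ∑ l, prof π cfg (G.path σ i ξ) v l) ∧
      (∀ ξ (i : Fin G.m) (v : List (Lb Y)), v.length ≤ G.J →
        (∃ l, prof π cfg (G.path σ i ξ) v l = 1) → 1 ≤ G.z (u' ξ i).1 v) ∧
      ∫ ξ, (∑ ι : Fin G.m × Fin Q, ∑ l, dist (loc ((u ξ ι.1).2 ι.2 l)) (loc ((u' ξ ι.1).2 ι.2 l))) /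
          Fintype.card (Fin G.m × Fin Q) ∂G.P + G.PotT σ u' π cfg ≤
        G.PotT σ u π cfg + G.lam * G.CR * G.W / Q := by
  have hf := hs.prod (G.path_simple σ)
  obtain ⟨u', hu's, hu'⟩ := hf.choose
    (R := fun (a : (Fin G.m → G.Mic Q) × (Fin G.m → Y → List (Lb Y))) (b : Fin G.m → G.Mic Q) =>
      ∀ i, G.MicOK (b i) ∧
      (∀ v : List (Lb Y), v.length ≤ G.J → v ≠ [] →
        G.z (b i).1 v ≤ G.CT * ∑ l, prof π cfg (a.2 i) v l) ∧
      (∀ v : List (Lb Y), v.length ≤ G.J → (∃ l, prof π cfg (a.2 i) v l = 1) →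
        1 ≤ G.z (b i).1 v) ∧
      (∑ θ, ∑ l, dist (loc ((a.1 i).2 θ l)) (loc ((b i).2 θ l))) / Q +
          G.lam * G.CR * G.Φ (b i).1 (prof π cfg (a.2 i)) ≤
        G.lam * G.CR * G.Φ (a.1 i).1 (prof π cfg (a.2 i)) + G.lam * G.CR * G.W / Q)
    (fun ξ => by
      have key : ∀ i : Fin G.m, ∃ b : G.Mic Q, G.MicOK b ∧
          (∀ v : List (Lb Y), v.length ≤ G.J → v ≠ [] →
            G.z b.1 v ≤ G.CT * ∑ l, prof π cfg (G.path σ i ξ) v l) ∧
          (∀ v : List (Lb Y), v.length ≤ G.J → (∃ l, prof π cfg (G.path σ i ξ) v l = 1) →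
            1 ≤ G.z b.1 v) ∧
          (∑ θ, ∑ l, dist (loc ((u ξ i).2 θ l)) (loc (b.2 θ l))) / Q +
              G.lam * G.CR * G.Φ b.1 (prof π cfg (G.path σ i ξ)) ≤
            G.lam * G.CR * G.Φ (u ξ i).1 (prof π cfg (G.path σ i ξ)) +
              G.lam * G.CR * G.W / Q := fun i =>
        G.micro hQ (hu ξ i) (G.isProf' hπ cfg _) loc fun v hv hv' h =>
          hlen ξ i v hv hv' (h.imp id exists_of_sum_prof_ne_zero)
      choose b hb using key
      exact ⟨b, hb⟩)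
  refine ⟨u', hu's, fun ξ i => (hu' ξ i).1, fun ξ i => (hu' ξ i).2.1,
    fun ξ i => (hu' ξ i).2.2.1, ?_⟩
  have hA : Simple fun ξ => (∑ ι : Fin G.m × Fin Q, ∑ l,
      dist (loc ((u ξ ι.1).2 ι.2 l)) (loc ((u' ξ ι.1).2 ι.2 l))) /
        (Fintype.card (Fin G.m × Fin Q) : ℝ) :=
    hs.comp₂ hu's (fun (a b : Fin G.m → G.Mic Q) => (∑ ι : Fin G.m × Fin Q, ∑ l,
      dist (loc ((a ι.1).2 ι.2 l)) (loc ((b ι.1).2 ι.2 l))) /
        (Fintype.card (Fin G.m × Fin Q) : ℝ))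
  have h1 := (G.simple_Φ σ hs π cfg).integrable G.P
  have h2 := (G.simple_Φ σ hu's π cfg).integrable G.P
  have h3 := hA.integrable G.P
  unfold PotT
  rw [← integral_const_mul, ← integral_const_mul, ← integral_add h3 (h2.const_mul _)]
  have h4 : ∫ _ξ : G.Ξ, G.lam * G.CR * G.W / Q ∂G.P = G.lam * G.CR * G.W / Q := by simp
  rw [← h4, ← integral_add (h1.const_mul _) (integrable_const _)]
  refine integral_mono (h3.add (h2.const_mul _)) ((h1.const_mul _).add (integrable_const _))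
    fun ξ => ?_
  have hm := G.m_posR
  have hQ' : (0 : ℝ) < Q := by exact_mod_cast hQ
  have h5 := sum_le_sum fun (i : Fin G.m) (_ : i ∈ univ) => (hu' ξ i).2.2.2
  simp only [sum_add_distrib, ← mul_sum, ← sum_div, sum_const, card_univ, Fintype.card_fin,
    nsmul_eq_mul] at h5
  simp only [Fintype.card_prod, Fintype.card_fin, Nat.cast_mul, Fintype.sum_prod_type]
  have h6 := div_le_div_of_nonneg_right h5 hm.le
  refine le_of_eq_of_le ?_ (h6.trans_eq ?_)
  · field_simp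
  · field_simp

/-- fraction of radii at which two labels differ -/
private noncomputable def Ed (j : ℕ) (σ : KD Y) (y : Y) (σ' : KD Y) (y' : Y) (ξ : G.Ξ) : ℝ :=
  (∑ i : Fin G.m, if G.lab j σ i ξ y = G.lab j σ' i ξ y' then (0 : ℝ) else 1) / G.m

private lemma Ed_simple (j : ℕ) (σ : KD Y) (y : Y) (σ' : KD Y) (y' : Y) :
    Simple (G.Ed j σ y σ' y') := by
  have h1 : Simple fun ξ => fun i : Fin G.m => G.lab j σ i ξ y :=
    Simple.pi fun i => G.lab_simple j σ i y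
  have h2 : Simple fun ξ => fun i : Fin G.m => G.lab j σ' i ξ y' :=
    Simple.pi fun i => G.lab_simple j σ' i y'
  exact h1.comp₂ h2 (fun (a b : Fin G.m → Lb Y) =>
    (∑ i : Fin G.m, if a i = b i then (0 : ℝ) else 1) / G.m)

omit [Fintype Y] [DecidableEq Y] [MetricSpace Y] in
private lemma ind_move {Lab : Type u} [DecidableEq Lab] (f g : Y → Lab) (c : Fin k → Y)
    (j : Fin k) (x : Y) :
    ∑ l, (if g (Function.update c j x l) = f (c l) then (0 : ℝ) else 1) ≤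
      ∑ l, (if f (c l) = g (c l) then (0 : ℝ) else 1) + (if g x = g (c j) then 0 else 1) := by
  have h : ∀ l, (if g (Function.update c j x l) = f (c l) then (0 : ℝ) else 1) ≤
      (if f (c l) = g (c l) then (0 : ℝ) else 1) +
        (if l = j then (if g x = g (c j) then 0 else 1) else 0) := by
    intro l
    by_cases hl : l = j
    · subst hl
      simp only [Function.update_self, if_true]
      by_cases h1 : f (c l) = g (c l)
      · rw [h1]; simp
      · simp only [h1, if_false]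
        split_ifs <;> norm_num
    · simp only [Function.update_of_ne hl, hl, if_false, add_zero, eq_comm]
      exact le_rfl
  refine (sum_le_sum fun l _ => h l).trans ?_
  rw [sum_add_distrib]
  simp

private lemma move_pt (σ σ' : ℕ → KD Y) (τ : G.S) {π : Ω → ℝ} (hπ : π ∈ stdSimplex ℝ Ω)
    (cfg : Ω → Fin k → Y) (jj : Ω → Fin k) (x : Y) (i : ℕ) (ξ : G.Ξ) :
    G.Φ τ (prof π (fun ω => Function.update (cfg ω) (jj ω) x) (G.path σ' i ξ)) ≤
      G.Φ τ (prof π cfg (G.path σ i ξ)) + G.CT * Real.log (k + 1) *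
        ∑ j ∈ range G.J, 4 * 2048 ^ j *
          (∑ y, nu π cfg y *
              (if G.lab j (σ j) i ξ y = G.lab j (σ' j) i ξ y then (0 : ℝ) else 1) +
            ∑ ω, π ω * (if G.lab j (σ' j) i ξ x = G.lab j (σ' j) i ξ (cfg ω (jj ω))
              then (0 : ℝ) else 1)) := by
  have hlog : 0 ≤ G.CT * Real.log (k + 1) :=
    mul_nonneg (by linarith [G.hCT]) (Real.log_nonneg (by linarith [Nat.cast_nonneg (α := ℝ) k]))
  refine (G.Φlip τ _ (G.isProf' hπ cfg (G.path σ i ξ)).mem _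
    (G.isProf' hπ _ (G.path σ' i ξ)).mem).trans ?_
  refine add_le_add le_rfl (mul_le_mul_of_nonneg_left ?_ hlog)
  refine (prof_dist hπ.1 G.J cfg _ _ _).trans ?_
  simp only [sum_nu_mul π cfg
    (fun y => if G.lab _ (σ _) i ξ y = G.lab _ (σ' _) i ξ y then (0 : ℝ) else 1)]
  simp only [← sum_add_distrib, ← mul_add]
  simp only [mul_sum (s := univ (α := Ω))]
  rw [sum_comm]
  refine sum_le_sum fun ω _ => ?_
  have h1 : ∑ l, pd G.J (G.path σ' i ξ (Function.update (cfg ω) (jj ω) x l))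
      (G.path σ i ξ (cfg ω l)) ≤ ∑ l, 4 * ∑ j ∈ range G.J, (2048 : ℝ) ^ j *
        (if G.lab j (σ' j) i ξ (Function.update (cfg ω) (jj ω) x l) =
          G.lab j (σ j) i ξ (cfg ω l) then 0 else 1) :=
    sum_le_sum fun l _ => pd_le G.J _ _
  refine (mul_le_mul_of_nonneg_left h1 (hπ.1 ω)).trans ?_
  rw [← mul_sum, sum_comm, mul_sum, mul_sum]
  refine sum_le_sum fun j _ => ?_
  rw [← mul_sum]
  have h2 := ind_move (G.lab j (σ j) i ξ) (G.lab j (σ' j) i ξ) (cfg ω) (jj ω) x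
  have h3 := mul_le_mul_of_nonneg_left h2
    (mul_nonneg (hπ.1 ω) (by positivity : (0 : ℝ) ≤ 4 * 2048 ^ j))
  refine le_of_eq_of_le ?_ (h3.trans_eq ?_) <;> ring

/-- `Φlip`, `prof_dist`, `pd_le`; for the moving server
`1[lab' x ≠ lab y] ≤ 1[lab y ≠ lab' y] + 1[lab' x ≠ lab' y]`; `sum_nu_mul`, `lab_prob`, `L_mul_r` -/
lemma PotT_move {σ σ' : ℕ → KD Y} (hσ : ∀ j < G.J, KInv (G.D j) (σ j))
    (hσ' : ∀ j < G.J, KInv (G.D j) (σ' j)) {u : G.Ξ → Fin G.m → G.Mic Q} (hs : Simple u)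
    {π : Ω → ℝ} (hπ : π ∈ stdSimplex ℝ Ω) (cfg : Ω → Fin k → Y) (jj : Ω → Fin k) (x : Y) :
    G.PotT σ' u π (fun ω => Function.update (cfg ω) (jj ω) x) ≤ G.PotT σ u π cfg +
      G.L * ∑ j ∈ range G.J, G.r j *
        (∑ y, nu π cfg y * lavg (G.D j) G.m (σ j) y (σ' j) y +
          ∑ ω, π ω * lavg (G.D j) G.m (σ' j) x (σ' j) (cfg ω (jj ω))) := by
  have hlog : 0 ≤ G.CT * Real.log (k + 1) :=
    mul_nonneg (by linarith [G.hCT]) (Real.log_nonneg (by linarith [Nat.cast_nonneg (α := ℝ) k]))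
  have h1 := (G.simple_Φ σ hs π cfg).integrable G.P
  have h2 := (G.simple_Φ σ' hs π (fun ω => Function.update (cfg ω) (jj ω) x)).integrable G.P
  have hE := fun j σ y σ' y' => (G.Ed_simple j σ y σ' y').integrable G.P
  have hA : ∀ j, Integrable (fun ξ => ∑ y, nu π cfg y * G.Ed j (σ j) y (σ' j) y ξ) G.P :=
    fun j => integrable_finsetSum _ fun y _ => (hE _ _ _ _ _).const_mul _
  have hB : ∀ j, Integrable
      (fun ξ => ∑ ω, π ω * G.Ed j (σ' j) x (σ' j) (cfg ω (jj ω)) ξ) G.P :=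
    fun j => integrable_finsetSum _ fun y _ => (hE _ _ _ _ _).const_mul _
  have hC : ∀ j, Integrable (fun ξ => 4 * 2048 ^ j *
      (∑ y, nu π cfg y * G.Ed j (σ j) y (σ' j) y ξ +
        ∑ ω, π ω * G.Ed j (σ' j) x (σ' j) (cfg ω (jj ω)) ξ)) G.P :=
    fun j => ((hA j).add (hB j)).const_mul _
  have hD := integrable_finsetSum (range G.J) fun j _ => hC j
  have hpt : ∀ ξ, (∑ i : Fin G.m, G.Φ (u ξ i).1
      (prof π (fun ω => Function.update (cfg ω) (jj ω) x) (G.path σ' i ξ))) / (G.m : ℝ) ≤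
      (∑ i : Fin G.m, G.Φ (u ξ i).1 (prof π cfg (G.path σ i ξ))) / (G.m : ℝ) +
        G.CT * Real.log (k + 1) * ∑ j ∈ range G.J, 4 * 2048 ^ j *
          (∑ y, nu π cfg y * G.Ed j (σ j) y (σ' j) y ξ +
            ∑ ω, π ω * G.Ed j (σ' j) x (σ' j) (cfg ω (jj ω)) ξ) := by
    intro ξ
    have h5 := sum_le_sum fun (i : Fin G.m) (_ : i ∈ univ) =>
      G.move_pt σ σ' (u ξ i).1 hπ cfg jj x i ξ
    refine (div_le_div_of_nonneg_right h5 G.m_posR.le).trans_eq ?_
    rw [sum_add_distrib, add_div, ← mul_sum, mul_div_assoc, sum_comm,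
      sum_div (s := range G.J)]
    refine congrArg₂ (· + ·) rfl (congrArg _ (sum_congr rfl fun j _ => ?_))
    rw [← mul_sum, mul_div_assoc, sum_add_distrib, add_div]
    congr 2
    · rw [sum_comm, sum_div]
      refine sum_congr rfl fun y _ => ?_
      rw [← mul_sum, mul_div_assoc]; rfl
    · rw [sum_comm, sum_div]
      refine sum_congr rfl fun y _ => ?_
      rw [← mul_sum, mul_div_assoc]; rfl
  have h6 := integral_mono h2 (h1.add (hD.const_mul _)) hpt
  rw [integral_add' h1 (hD.const_mul _), integral_const_mul,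
    integral_finsetSum _ fun j _ => hC j] at h6
  have h7 : ∀ j ∈ range G.J, ∫ ξ, 4 * 2048 ^ j *
      (∑ y, nu π cfg y * G.Ed j (σ j) y (σ' j) y ξ +
        ∑ ω, π ω * G.Ed j (σ' j) x (σ' j) (cfg ω (jj ω)) ξ) ∂G.P ≤ 4 * 2048 ^ j *
      (∑ y, nu π cfg y * lavg (G.D j) G.m (σ j) y (σ' j) y +
          ∑ ω, π ω * lavg (G.D j) G.m (σ' j) x (σ' j) (cfg ω (jj ω))) := by
    intro j hj
    have hj' := mem_range.1 hj
    rw [integral_const_mul, integral_add (hA j) (hB j),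
      integral_finsetSum _ fun y _ => (hE _ _ _ _ _).const_mul _,
      integral_finsetSum _ fun y _ => (hE _ _ _ _ _).const_mul _]
    refine mul_le_mul_of_nonneg_left (add_le_add (sum_le_sum fun y _ => ?_)
      (sum_le_sum fun ω _ => ?_)) (by positivity)
    · rw [integral_const_mul]
      exact mul_le_mul_of_nonneg_left (G.lab_prob (hσ j hj') (hσ' j hj') y y)
        (nu_nonneg hπ.1 cfg y)
    · rw [integral_const_mul]
      exact mul_le_mul_of_nonneg_left (G.lab_prob (hσ' j hj') (hσ' j hj') _ _) (hπ.1 ω)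
  have h8 := mul_le_mul_of_nonneg_left (sum_le_sum h7) hlog
  have h9 := mul_le_mul_of_nonneg_left (h6.trans (add_le_add le_rfl h8)) G.lamCR_nonneg
  unfold PotT
  refine h9.trans_eq ?_
  rw [mul_add, mul_sum, mul_sum, mul_sum]
  congr 1
  refine sum_congr rfl fun j _ => ?_
  rw [← mul_assoc G.L, ← G.L_mul_r j]
  ring

/-- `Φconc`, `prof_add_smul`, `(isProf ..).mem`, monotonicity and linearity of the integral -/
lemma PotT_concave (σ : ℕ → KD Y) {u : G.Ξ → Fin G.m → G.Mic Q} (hs : Simple u)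
    (cfg : Ω → Fin k → Y) : ConcaveOn ℝ (stdSimplex ℝ Ω) fun π => G.PotT σ u π cfg := by
  refine ⟨convex_stdSimplex ℝ Ω, fun π hπ π' hπ' a b ha hb hab => ?_⟩
  have h1 := (G.simple_Φ σ hs π cfg).integrable G.P
  have h2 := (G.simple_Φ σ hs π' cfg).integrable G.P
  have h3 := (G.simple_Φ σ hs (a • π + b • π') cfg).integrable G.P
  have h4 := integral_mono ((h1.const_mul a).add (h2.const_mul b)) h3 (fun ξ => by
    have h5 := sum_le_sum fun (i : Fin G.m) (_ : i ∈ univ) =>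
      (G.Φconc (u ξ i).1).2 (G.isProf' hπ cfg (G.path σ i ξ)).mem
        (G.isProf' hπ' cfg (G.path σ i ξ)).mem ha hb hab
    simp only [← prof_add_smul, smul_eq_mul, sum_add_distrib, ← mul_sum] at h5
    refine le_of_eq_of_le ?_ (div_le_div_of_nonneg_right h5 G.m_posR.le)
    simp only [Pi.add_apply]
    ring)
  rw [integral_add' (h1.const_mul a) (h2.const_mul b), integral_const_mul,
    integral_const_mul] at h4
  have h6 := mul_le_mul_of_nonneg_left h4 G.lamCR_nonneg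
  simp only [PotT, smul_eq_mul]
  refine le_of_eq_of_le ?_ h6
  ring

lemma PotT_lower (σ : ℕ → KD Y) {u : G.Ξ → Fin G.m → G.Mic Q} (hs : Simple u) {π : Ω → ℝ}
    (hπ : π ∈ stdSimplex ℝ Ω) (cfg : Ω → Fin k → Y) :
    -(G.lam * G.CR * G.BT) ≤ G.PotT σ u π cfg := by
  have h1 := (G.simple_Φ σ hs π cfg).integrable G.P
  have h2 := integral_mono (integrable_const (-G.BT)) h1 (fun ξ => by
    have h5 := sum_le_sum fun (i : Fin G.m) (_ : i ∈ univ) =>
      G.Φlow (u ξ i).1 _ (G.isProf' hπ cfg (G.path σ i ξ))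
    simp only [sum_const, card_univ, Fintype.card_fin, nsmul_eq_mul] at h5
    simp only
    rw [le_div_iff₀ G.m_posR]
    linarith)
  simp only [integral_const, probReal_univ, smul_eq_mul, one_mul] at h2
  have h6 := mul_le_mul_of_nonneg_left h2 G.lamCR_nonneg
  unfold PotT
  linarith

lemma PotT_init (σ : ℕ → KD Y) {π : Ω → ℝ} (hπ : π ∈ stdSimplex ℝ Ω) (cfg : Ω → Fin k → Y) :
    G.PotT (Q := Q) σ (fun _ _ => (G.τ0, fun _ _ => [])) π cfg ≤ G.lam * G.CR * G.BT := by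
  have h1 := (G.simple_Φ (Q := Q) σ (u := fun _ _ => (G.τ0, fun _ _ => []))
    (Simple.const _) π cfg).integrable G.P
  have h2 := integral_mono h1 (integrable_const G.BT) (fun ξ => by
    have h5 := sum_le_sum fun (i : Fin G.m) (_ : i ∈ univ) =>
      G.Φ0 _ (G.isProf' hπ cfg (G.path σ i ξ))
    simp only [sum_const, card_univ, Fintype.card_fin, nsmul_eq_mul] at h5
    simp only
    rw [div_le_iff₀ G.m_posR]
    linarith)
  simp only [integral_const, probReal_univ, smul_eq_mul, one_mul] at h2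
  exact mul_le_mul_of_nonneg_left h2 G.lamCR_nonneg

end Base

end Crest.Agent.R314
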