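import Crest.Agent.R314.GStage
import Crest.Agent.R314.GCap
import Crest.Agent.R314.GScale

/-!
# Part E: the one-step inequality of the macro state
-/

set_option autoImplicit false

open Finset MeasureTheory

namespace Crest.Agent.R314

universe u

variable {k : ℕ} {Y : Type u} [Fintype Y] [DecidableEq Y] [MetricSpace Y]

namespace Base

variable (G : Base k Y) {Q : ℕ} {Ω : Type u} [Fintype Ω]

/-- average movement between two families of positions -/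
noncomputable def mv (loc loc' : List (Lb Y) → Y) (u u' : Fin G.m → G.Mic Q) : ℝ :=
  (∑ ι : Fin G.m × Fin Q, ∑ l, dist (loc ((u ι.1).2 ι.2 l)) (loc' ((u' ι.1).2 ι.2 l))) /
    Fintype.card (Fin G.m × Fin Q)

lemma mv_integrable (loc loc' : List (Lb Y) → Y) {u u' : G.Ξ → Fin G.m → G.Mic Q}
    (hu : Simple u) (hu' : Simple u') : Integrable (fun ξ => G.mv loc loc' (u ξ) (u' ξ)) G.P :=
  (hu.comp₂ hu' (G.mv loc loc')).integrable _

lemma mv_triangle (loc loc' : List (Lb Y) → Y) (u u1 u2 : Fin G.m → G.Mic Q) :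
    G.mv loc loc' u u2 ≤ G.mv loc loc u u1 + G.mv loc loc' u1 u1 + G.mv loc' loc' u1 u2 := by
  unfold mv
  rw [← add_div, ← add_div]
  refine div_le_div_of_nonneg_right ?_ (Nat.cast_nonneg _)
  rw [← sum_add_distrib, ← sum_add_distrib]
  refine sum_le_sum fun ι _ => ?_
  rw [← sum_add_distrib, ← sum_add_distrib]
  exact sum_le_sum fun l _ => dist_triangle4 _ _ _ _

/-- a capped tree state only occupies nodes above some leaf -/
lemma occ_of_cap {σ : ℕ → KD Y} {u : G.Ξ → Fin G.m → G.Mic Q} {π : Ω → ℝ} {cfg : Ω → Fin k → Y}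
    (hcap : ∀ ξ (i : Fin G.m) (v : List (Lb Y)), v.length ≤ G.J → v ≠ [] →
      G.z (u ξ i).1 v ≤ G.CT * ∑ l, prof π cfg (G.path σ i ξ) v l)
    (ξ : G.Ξ) (i : Fin G.m) (v : List (Lb Y)) (hv : v.length ≤ G.J) (hne : v ≠ [])
    (h : G.z (u ξ i).1 v ≠ 0) : ∃ y, v <:+ G.path σ i ξ y := by
  refine exists_of_sum_prof_ne_zero (π := π) (cfg := cfg) fun h0 => h ?_
  have h1 := hcap ξ i v hv hne
  rw [h0, mul_zero] at h1
  exact le_antisymm h1 ((G.feas _).nonneg v hv)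

lemma edge_self {σ : ℕ → KD Y} (hσ : ∀ j < G.J, KInv (G.D j) (σ j)) {i : ℕ} (hi : i < G.m)
    {ξ : G.Ξ} {y : Y} {v : List (Lb Y)} (hv : v ≠ []) (h : v <:+ G.path σ i ξ y) :
    dist (G.loc σ v) (G.loc σ v.tail) ≤ G.lam * wt G.J v :=
  G.edge_len hσ (fun j _ a _ => by rw [(G.isMet j).self]; norm_num) hi hv h

theorem step (hQ : 0 < Q) (M : G.Mac Q) {π : Ω → ℝ} (hπ : π ∈ stdSimplex ℝ Ω)
    (cfg : Ω → Fin k → Y) (x : Y) (jj : Ω → Fin k) {e : ℝ} (he : 0 < e) :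
    ∃ M' : G.Mac Q, (∀ ξ ι, ∃ l, G.q M' ξ ι l = x) ∧
      ∫ ξ, (∑ ι, ∑ l, dist (G.q M ξ ι l) (G.q M' ξ ι l)) / Fintype.card (Fin G.m × Fin Q) ∂G.P +
          G.Pot M' π (fun ω => Function.update (cfg ω) (jj ω) x) ≤
        G.Pot M π cfg +
          G.L * (2 ^ 15 * G.CL * Real.log (k + 1)) * ∑ ω, π ω * dist (cfg ω (jj ω)) x +
          (2 * (G.lam * G.CR * G.W / Q) + G.L * ∑ j ∈ range G.J, G.r j * e) := by
  classical
  set ν := nu π cfg with hν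
  set cfg' : Ω → Fin k → Y := fun ω => Function.update (cfg ω) (jj ω) x with hcfg'
  have h0 : ∀ y, 0 ≤ ν y := nu_nonneg hπ.1 cfg
  have h1 : ∑ y, ν y = k := sum_nu hπ cfg
  -- first tree update
  obtain ⟨u1, hs1, hu1, hcap1, -, hA⟩ := G.stage hQ M.σ (G.loc M.σ) M.simple M.ok hπ cfg
    fun ξ i v hv hne h => by
      obtain ⟨y, hy⟩ : ∃ y, v <:+ G.path M.σ i ξ y := h.elim (M.occ ξ i v hv hne) id
      exact G.edge_self M.inv i.2 hne hy
  have hocc1 := G.occ_of_cap hcap1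
  -- the levels
  have hlev : ∀ j, ∃ σ' : KD Y, j < G.J → (KInv (G.D j) σ' ∧
      (∀ a ∈ (M.σ j).alive, G.D j ((M.σ j).cen a) (σ'.cen a) ≤ 1 / 1024) ∧
      ucost (G.D j) G.m ν (G.pbar u1 j) (M.σ j) σ' + (∑ y, ν y * G.pot j σ' y + G.pot0 j σ') ≤
        (∑ y, ν y * G.pot j (M.σ j) y + G.pot0 j (M.σ j)) + e +
          (if 1 / 2 ≤ bm (G.D j) ν x (1 / 1024) then 0 else G.CL) ∧
      (∀ y, 1 + G.pot j σ' x - G.pot j σ' y ≤ G.CL * Real.log (k + 1)) ∧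
      (1 / 2 ≤ bm (G.D j) ν x (1 / 1024) → ∀ y, G.D j x y ≤ 1 / 1024 →
        lavg (G.D j) G.m σ' x σ' y + G.pot j σ' x - G.pot j σ' y ≤
          G.CL * G.D j x y * rate (G.D j) G.η ν (M.σ j) (G.pbar u1 j) x)) := by
    intro j
    by_cases hj : j < G.J
    · obtain ⟨σ', h⟩ := (G.level j hj).2 (M.σ j) (M.inv j hj) ν h0 h1 x (G.pbar u1 j)
        (G.pbar_nonneg u1 j) e he
      exact ⟨σ', fun _ => h⟩
    · exact ⟨M.σ j, fun h => absurd h hj⟩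
  choose σ' hσ' using hlev
  have hinv : ∀ j < G.J, KInv (G.D j) (σ' j) := fun j hj => (hσ' j hj).1
  have hB := G.drag_le hQ M.inv σ' hs1 hu1 hocc1
  -- second tree update
  obtain ⟨u2, hs2, hu2, hcap2, hone2, hC⟩ := G.stage hQ σ' (G.loc σ') hs1 hu1 hπ cfg'
    fun ξ i v hv hne h => by
      rcases h with h | ⟨y, hy⟩
      · obtain ⟨y, hy⟩ := hocc1 ξ i v hv hne h
        exact G.edge_len M.inv (fun j hj => (hσ' j hj).2.1) i.2 hne hy
      · exact G.edge_self hinv i.2 hne hy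
  have hD := G.PotT_move M.inv hinv hs1 hπ cfg jj x
  refine ⟨⟨σ', u2, hinv, hs2, hu2, G.occ_of_cap hcap2⟩, fun ξ ι => ?_, ?_⟩
  · have hk : 0 < k := by have := G.hk; omega
    have hlen := G.path_length σ' ι.1 ξ x
    have h2 := hone2 ξ ι.1 _ hlen.le ⟨⟨0, hk⟩, prof_leaf hπ (jj := jj) (x := x)
      (fun ω => by simp [hcfg']) (G.path σ' ι.1 ξ) hk⟩
    obtain ⟨l, hl⟩ := G.exists_server (hu2 ξ ι.1) hlen h2 ι.2
    exact ⟨l, by simp only [q, hl]; exact G.loc_path hinv ι.1.2 ξ x⟩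
  -- movement
  have hI : ∫ ξ, G.mv (G.loc M.σ) (G.loc σ') (M.u ξ) (u2 ξ) ∂G.P ≤
      ∫ ξ, G.mv (G.loc M.σ) (G.loc M.σ) (M.u ξ) (u1 ξ) ∂G.P +
        ∫ ξ, G.mv (G.loc M.σ) (G.loc σ') (u1 ξ) (u1 ξ) ∂G.P +
        ∫ ξ, G.mv (G.loc σ') (G.loc σ') (u1 ξ) (u2 ξ) ∂G.P := by
    have i1 := G.mv_integrable (G.loc M.σ) (G.loc M.σ) M.simple hs1
    have i2 := G.mv_integrable (G.loc M.σ) (G.loc σ') hs1 hs1
    have i3 := G.mv_integrable (G.loc σ') (G.loc σ') hs1 hs2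
    have i12 : Integrable (fun ξ => G.mv (G.loc M.σ) (G.loc M.σ) (M.u ξ) (u1 ξ) +
        G.mv (G.loc M.σ) (G.loc σ') (u1 ξ) (u1 ξ)) G.P := i1.add i2
    rw [← integral_add i1 i2, ← integral_add i12 i3]
    exact integral_mono (G.mv_integrable _ _ M.simple hs2) (i12.add i3)
      fun ξ => G.mv_triangle _ _ _ _ _
  -- the scales
  have hH := G.scale_sum (ν := ν) hπ (fun ω => cfg ω (jj ω)) x
    (fun j => sum_mem_le_nu hπ.1 cfg jj _)
    (fun j => rate (G.D j) G.η ν (M.σ j) (G.pbar u1 j) x)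
    (fun j hj => G.rate_nonneg h0 hj _ (G.pbar_nonneg u1 j))
    (G.sum_rate h0 h1 x M.σ (G.pbar u1) (G.pbar_nonneg u1)
      fun j hj => G.pnear_cap hQ M.inv hs1 hu1 hπ.1 cfg hcap1 x hj)
    (fun j w => lavg (G.D j) G.m (σ' j) x (σ' j) w + G.pot j (σ' j) x - G.pot j (σ' j) w)
    (fun j hj w => by
      have h2 := (hσ' j hj).2.2.2.1 w
      have h3 := lavg_le_one (m := G.m) (hinv j hj) (hinv j hj) x w
      linarith)
    (fun j hj hn w hw => (hσ' j hj).2.2.2.2 hn w hw)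
  -- per level inequality
  have hF : ∑ j ∈ range G.J, G.r j * ∑ a ∈ (M.σ j).alive,
          G.pbar u1 j a * G.D j ((M.σ j).cen a) ((σ' j).cen a) +
        ∑ j ∈ range G.J, G.r j *
          (∑ y, ν y * lavg (G.D j) G.m (M.σ j) y (σ' j) y +
            ∑ ω, π ω * lavg (G.D j) G.m (σ' j) x (σ' j) (cfg ω (jj ω))) +
        ∑ j ∈ range G.J, G.r j * (∑ y, nu π cfg' y * G.pot j (σ' j) y + G.pot0 j (σ' j)) ≤
      ∑ j ∈ range G.J, G.r j * (∑ y, ν y * G.pot j (M.σ j) y + G.pot0 j (M.σ j)) +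
        ∑ j ∈ range G.J, G.r j * ((if 1 / 2 ≤ bm (G.D j) ν x (1 / 1024) then 0 else G.CL) +
          ∑ ω, π ω * (lavg (G.D j) G.m (σ' j) x (σ' j) (cfg ω (jj ω)) + G.pot j (σ' j) x -
            G.pot j (σ' j) (cfg ω (jj ω)))) +
        ∑ j ∈ range G.J, G.r j * e := by
    simp only [← sum_add_distrib, ← mul_add]
    refine sum_le_sum fun j hj => mul_le_mul_of_nonneg_left ?_ (G.r_pos j).le
    have h2 := (hσ' j (mem_range.1 hj)).2.2.1
    have h3 := sum_nu_update π cfg jj x (G.pot j (σ' j))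
    have h4 : ∑ ω, π ω * (lavg (G.D j) G.m (σ' j) x (σ' j) (cfg ω (jj ω)) + G.pot j (σ' j) x -
            G.pot j (σ' j) (cfg ω (jj ω))) =
        ∑ ω, π ω * lavg (G.D j) G.m (σ' j) x (σ' j) (cfg ω (jj ω)) +
          ∑ ω, π ω * (G.pot j (σ' j) x - G.pot j (σ' j) (cfg ω (jj ω))) := by
      rw [← sum_add_distrib]
      exact sum_congr rfl fun ω _ => by ring
    unfold ucost at h2
    rw [h4, h3]
    linarith
  have hL := G.L_pos.le
  have hF' := mul_le_mul_of_nonneg_left hF hL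
  have hH' := mul_le_mul_of_nonneg_left hH hL
  change ∫ ξ, G.mv (G.loc M.σ) (G.loc σ') (M.u ξ) (u2 ξ) ∂G.P + _ ≤ _
  change ∫ ξ, G.mv (G.loc M.σ) (G.loc M.σ) (M.u ξ) (u1 ξ) ∂G.P + _ ≤ _ at hA
  change ∫ ξ, G.mv (G.loc M.σ) (G.loc σ') (u1 ξ) (u1 ξ) ∂G.P ≤ _ at hB
  change ∫ ξ, G.mv (G.loc σ') (G.loc σ') (u1 ξ) (u2 ξ) ∂G.P + _ ≤ _ at hC
  simp only [Pot, PotL]
  simp only [mul_add G.L] at hF'
  linarith

end Base

end Crest.Agent.R314
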