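import Crest.Agent.R314.LDefs

/-!
# Part D: elementary facts (scalar profiles, balls, kernels, nearest king, radius grid)
-/

set_option autoImplicit false

open Finset

namespace Crest.Agent.R314

universe u

variable {Y : Type u} [Fintype Y] [DecidableEq Y] {k m : ℕ} {D : Y → Y → ℝ} {η : ℝ} {ν : Y → ℝ}

/-! ### scalar profiles -/

lemma cl_nonneg (t : ℝ) : 0 ≤ cl t := by
  exact le_max_left _ _
lemma cl_le_one (t : ℝ) : cl t ≤ 1 := by
  exact max_le zero_le_one (min_le_left _ _)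
lemma cl_mono : Monotone cl := by
  exact fun _ _ h => max_le_max le_rfl (min_le_min le_rfl h)
lemma cl_lip (s t : ℝ) : cl s - cl t ≤ |s - t| := by
  have h1 := le_abs_self (s - t)
  have h2 := abs_nonneg (s - t)
  simp only [cl, max_def, min_def]
  split_ifs <;> linarith
lemma cl_of_nonpos {t : ℝ} (h : t ≤ 0) : cl t = 0 := by
  exact max_eq_left ((min_le_right _ _).trans h)
lemma cl_of_one_le {t : ℝ} (h : 1 ≤ t) : cl t = 1 := by
  rw [cl, min_eq_left h, max_eq_right zero_le_one]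
lemma cR_le_cL (t : ℝ) : cR t ≤ cL t := by
  rcases le_total 0 t with h | h
  · exact cl_mono (by linarith)
  · exact (cl_of_nonpos (by linarith)).trans_le (cl_nonneg _)
lemma wk_nonneg {t : ℝ} (h : 0 ≤ t) : 0 ≤ wk t := by
  unfold wk
  split_ifs <;> positivity
lemma wk_le_one {t : ℝ} (h : 0 ≤ t) : wk t ≤ 1 := by
  unfold wk
  split_ifs with h1
  · exact pow_le_one₀ h h1
  · exact (div_le_one (by linarith)).2 (by linarith)
/-- `wk` is 2-Lipschitz on `[0, ∞)` -/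
lemma wk_lip {s t : ℝ} (hs : 0 ≤ s) (ht : 0 ≤ t) : wk s - wk t ≤ 2 * |s - t| := by
  have h1 := le_abs_self (s - t)
  have h2 := neg_le_abs (s - t)
  have h3 := abs_nonneg (s - t)
  unfold wk
  split_ifs with a b b
  · nlinarith
  · have : 2 - t ≤ 1 / t := by
      rw [le_div_iff₀ (by linarith)]
      nlinarith [sq_nonneg (t - 1)]
    nlinarith
  · have : 1 / s ≤ 1 := (div_le_one (by linarith)).2 (by linarith)
    nlinarith
  · rw [div_sub_div _ _ (by linarith) (by linarith), div_le_iff₀ (by nlinarith)]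
    have : 1 ≤ s * t := by nlinarith
    nlinarith
/-- `wk t ≤ 4 t / (1+t)²` -/
lemma wk_le_omega {t : ℝ} (h : 0 ≤ t) : wk t ≤ 4 * (t / (1 + t) ^ 2) := by
  unfold wk
  rw [← mul_div_assoc]
  split_ifs with a
  · rw [le_div_iff₀ (by positivity)]
    have h1 : (1 + t) ^ 2 ≤ 4 := by nlinarith
    have h2 : t ^ 2 ≤ t := by nlinarith
    nlinarith [mul_le_mul h2 h1 (by positivity) h]
  · rw [div_le_div_iff₀ (by linarith) (by positivity)]
    nlinarith
/-- on `[a, b]` with `a ≤ 1 ≤ b`: `wk ≥ min (a²) (1/b)` -/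
lemma wk_ge {a b t : ℝ} (ha : 0 ≤ a) (hat : a ≤ t) (htb : t ≤ b) (hb : 0 < b) :
    min (a ^ 2) (1 / b) ≤ wk t := by
  have _ := hb
  unfold wk
  split_ifs with h
  · exact (min_le_left _ _).trans (by gcongr)
  · exact (min_le_right _ _).trans (one_div_le_one_div_of_le (by linarith) htb)

/-! ### metric, balls, kernels -/

omit [Fintype Y] [DecidableEq Y] in
lemma IsMet.nonneg (h : IsMet D) (x y : Y) : 0 ≤ D x y := by
  have h1 := h.tri x y x
  rw [h.self, h.symm y x] at h1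
  linarith
omit [DecidableEq Y] in
lemma mem_bl {x w : Y} {R : ℝ} : w ∈ bl D x R ↔ D x w ≤ R := by
  simp [bl]
omit [DecidableEq Y] in
lemma bm_nonneg {μ : Y → ℝ} (hμ : ∀ y, 0 ≤ μ y) (x : Y) (R : ℝ) : 0 ≤ bm D μ x R := by
  exact sum_nonneg fun y _ => hμ y
omit [DecidableEq Y] in
lemma bm_pos (h : IsMet D) {μ : Y → ℝ} (hμ : ∀ y, 0 < μ y) (x : Y) {R : ℝ} (hR : 0 ≤ R) :
    0 < bm D μ x R := by
  exact sum_pos (fun y _ => hμ y) ⟨x, mem_bl.2 (by rwa [h.self])⟩
omit [DecidableEq Y] in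
lemma le_bm (h : IsMet D) {μ : Y → ℝ} (hμ : ∀ y, 0 ≤ μ y) {x w : Y} {R : ℝ} (hw : D x w ≤ R) :
    μ w ≤ bm D μ x R := by
  have _ := h
  exact single_le_sum (fun y _ => hμ y) (mem_bl.2 hw)
omit [DecidableEq Y] in
/-- nested balls -/
lemma bm_le_bm (h : IsMet D) {μ : Y → ℝ} (hμ : ∀ y, 0 ≤ μ y) {x y : Y} {R R' : ℝ}
    (hR : D x y + R ≤ R') : bm D μ y R ≤ bm D μ x R' := by
  refine sum_le_sum_of_subset_of_nonneg (fun w hw => mem_bl.2 ?_) fun w _ _ => hμ w
  linarith [h.tri x y w, mem_bl.1 hw]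
omit [DecidableEq Y] in
lemma bm_mono_mu {μ μ' : Y → ℝ} (hμ : ∀ y, μ y ≤ μ' y) (x : Y) (R : ℝ) :
    bm D μ x R ≤ bm D μ' x R := by
  exact sum_le_sum fun y _ => hμ y
omit [DecidableEq Y] in
lemma bm_le_sum {μ : Y → ℝ} (hμ : ∀ y, 0 ≤ μ y) (x : Y) (R : ℝ) : bm D μ x R ≤ ∑ y, μ y := by
  exact sum_le_sum_of_subset_of_nonneg (subset_univ _) fun w _ _ => hμ w
omit [DecidableEq Y] in
lemma wide_pos (h : IsMet D) {μ : Y → ℝ} (hμ : ∀ y, 0 < μ y) (x : Y) : 0 < wide D μ x := by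
  refine sum_pos (fun w _ => ?_) ⟨x, mem_univ x⟩
  have := h.nonneg x w
  have := hμ w
  positivity
omit [DecidableEq Y] in
lemma wide_nonneg (h : IsMet D) {μ : Y → ℝ} (hμ : ∀ y, 0 ≤ μ y) (x : Y) : 0 ≤ wide D μ x := by
  refine sum_nonneg fun w _ => ?_
  have := h.nonneg x w
  have := hμ w
  positivity
omit [DecidableEq Y] in
lemma ring_nonneg (h : IsMet D) {μ : Y → ℝ} (hμ : ∀ y, 0 ≤ μ y) (x : Y) : 0 ≤ ring D μ x := by
  refine sum_nonneg fun w _ => ?_
  have := h.nonneg x w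
  have := hμ w
  positivity
omit [DecidableEq Y] in
lemma wide_le_sum (h : IsMet D) {μ : Y → ℝ} (hμ : ∀ y, 0 ≤ μ y) (x : Y) :
    wide D μ x ≤ ∑ y, μ y := by
  exact sum_le_sum fun w _ => div_le_self (hμ w) (by linarith [h.nonneg x w])
omit [DecidableEq Y] in
/-- `1 + D x w ≤ (1 + D x y)(1 + D y w)` -/
lemma wide_le_mul (h : IsMet D) {μ : Y → ℝ} (hμ : ∀ y, 0 ≤ μ y) (x y : Y) :
    wide D μ y ≤ (1 + D x y) * wide D μ x := by
  rw [wide, wide, mul_sum]
  refine sum_le_sum fun w _ => ?_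
  have h1 := h.nonneg x w
  have h2 := h.nonneg y w
  have h3 := h.nonneg x y
  have h4 := h.tri x y w
  have h5 := hμ w
  rw [← mul_div_assoc, div_le_div_iff₀ (by positivity) (by positivity), mul_comm _ (μ w), mul_assoc]
  gcongr
  nlinarith
omit [DecidableEq Y] in
lemma bm_le_wide (h : IsMet D) {μ : Y → ℝ} (hμ : ∀ y, 0 ≤ μ y) (x : Y) {R : ℝ} (hR : 0 ≤ R) :
    bm D μ x R ≤ (1 + R) * wide D μ x := by
  rw [bm, bl, sum_filter, wide, mul_sum]
  refine sum_le_sum fun w _ => ?_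
  have h1 := h.nonneg x w
  have h5 := hμ w
  split_ifs with hw
  · rw [← mul_div_assoc, le_div_iff₀ (by positivity), mul_comm]
    gcongr
  · positivity
omit [DecidableEq Y] in
/-- for `t > R`: `1/(1+t) = ω(t) (1+t)/t ≤ ω(t)(1 + 1/R)` -/
lemma wide_le_bm_add (h : IsMet D) {μ : Y → ℝ} (hμ : ∀ y, 0 ≤ μ y) (x : Y) {R : ℝ} (hR : 0 < R) :
    wide D μ x ≤ bm D μ x R + (1 + 1 / R) * ring D μ x := by
  rw [bm, bl, sum_filter, wide, ring, mul_sum, ← sum_add_distrib]
  refine sum_le_sum fun w _ => ?_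
  have h1 := h.nonneg x w
  have h5 := hμ w
  split_ifs with hw
  · exact le_add_of_le_of_nonneg (div_le_self h5 (by linarith)) (by positivity)
  · have h2 : 1 ≤ 1 / R * D x w := by
      rw [one_div_mul_eq_div, one_le_div hR]
      linarith
    rw [zero_add, mul_left_comm, div_eq_mul_one_div, ← mul_div_assoc (1 + 1 / R)]
    gcongr ?_ * ?_
    rw [div_le_div_iff₀ (by positivity) (by positivity)]
    nlinarith
omit [DecidableEq Y] in
lemma tent_nonneg {μ : Y → ℝ} (hμ : ∀ y, 0 ≤ μ y) (x : Y) : 0 ≤ tent D μ x := by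
  exact sum_nonneg fun w _ => mul_nonneg (hμ w) (sq_nonneg _)
omit [DecidableEq Y] in
lemma tent_le_bm (h : IsMet D) {μ : Y → ℝ} (hμ : ∀ y, 0 ≤ μ y) (x : Y) :
    tent D μ x ≤ bm D μ x (1 / 16) := by
  rw [bm, bl, sum_filter, tent]
  refine sum_le_sum fun w _ => ?_
  have h1 := h.nonneg x w
  split_ifs with hw
  · exact mul_le_of_le_one_right (hμ w)
      (pow_le_one₀ (le_max_left _ _) (max_le zero_le_one (by linarith)))
  · rw [max_eq_left (by linarith)]
    simp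
omit [DecidableEq Y] in
lemma sh_nonneg (μ : Y → ℝ) (y : Y) : 0 ≤ sh D μ y := by
  exact Real.sqrt_nonneg _
omit [DecidableEq Y] in
lemma sh_le_two (h : IsMet D) {μ : Y → ℝ} (hμ : ∀ y, 0 < μ y) (y : Y) : sh D μ y ≤ 2 := by
  have h1 := tent_le_bm h (fun w => (hμ w).le) y
  have h2 := bm_le_wide h (fun w => (hμ w).le) y (R := 1 / 16) (by norm_num)
  have h3 := wide_pos h hμ y
  refine Real.sqrt_le_iff.2 ⟨zero_le_two, ?_⟩
  rw [div_le_iff₀ h3]
  linarith
omit [DecidableEq Y] in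
/-- Minkowski: `√T` is an `ℓ²` norm of `(√μ w · (1 - 16 D y w)₊)_w`; the kernels of `x` and `y`
differ by at most `16 D x y` and both vanish outside `bl D y (1/16 + D x y)`. -/
lemma sqrt_tent_le (h : IsMet D) {μ : Y → ℝ} (hμ : ∀ y, 0 ≤ μ y) (x y : Y) :
    Real.sqrt (tent D μ y) ≤ Real.sqrt (tent D μ x) +
      16 * D x y * Real.sqrt (bm D μ y (1 / 16 + D x y)) := by
  have cs : ∀ a b : Y → ℝ, ∑ w, μ w * (a w * b w) ≤
      √(∑ w, μ w * a w ^ 2) * √(∑ w, μ w * b w ^ 2) := fun a b => by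
    have := Real.sum_mul_le_sqrt_mul_sqrt univ (fun w => √(μ w) * a w) fun w => √(μ w) * b w
    simpa only [mul_pow, Real.sq_sqrt (hμ _), mul_mul_mul_comm (√(μ _)) (a _),
      Real.mul_self_sqrt (hμ _)] using this
  have hxy := h.nonneg x y
  have h1 := cs (fun w => max 0 (1 - 16 * D y w)) fun w => max 0 (1 - 16 * D x w)
  have h2 := cs (fun w => max 0 (1 - 16 * D y w))
    fun w => if D y w ≤ 1 / 16 + D x y then 1 else 0
  have e : ∑ w, μ w * (if D y w ≤ 1 / 16 + D x y then (1 : ℝ) else 0) ^ 2 =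
      bm D μ y (1 / 16 + D x y) := by
    rw [bm, bl, sum_filter]
    exact sum_congr rfl fun w _ => by split_ifs <;> simp
  rw [e] at h2
  have h3 : tent D μ y ≤ ∑ w, μ w * (max 0 (1 - 16 * D y w) * max 0 (1 - 16 * D x w)) +
      16 * D x y * ∑ w, μ w * (max 0 (1 - 16 * D y w) *
        if D y w ≤ 1 / 16 + D x y then 1 else 0) := by
    rw [mul_sum, ← sum_add_distrib]
    refine sum_le_sum fun w _ => ?_
    rw [mul_left_comm (16 * D x y), mul_left_comm (16 * D x y), ← mul_add, ← mul_add, sq]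
    refine mul_le_mul_of_nonneg_left (mul_le_mul_of_nonneg_left ?_ (le_max_left _ _)) (hμ w)
    have a1 := le_max_left 0 (1 - 16 * D x w)
    have a2 := le_max_right 0 (1 - 16 * D x w)
    have a3 := h.tri x y w
    split_ifs with hw
    · exact max_le (by linarith) (by linarith)
    · exact max_le (by linarith) (by linarith)
  have h4 := mul_le_mul_of_nonneg_left h2 (by positivity : 0 ≤ 16 * D x y)
  rcases (Real.sqrt_nonneg (tent D μ y)).eq_or_lt with h0 | h0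
  · rw [← h0]
    positivity
  · refine le_of_mul_le_mul_left ?_ h0
    rw [Real.mul_self_sqrt (tent_nonneg hμ y)]
    unfold tent at h0 h3 ⊢
    linarith

lemma rad_ge (m i : ℕ) : 1 / 4 ≤ rad m i := by
  exact le_add_of_nonneg_right (by positivity)
lemma rad_lt {m i : ℕ} (hi : i < m) : rad m i < 1 / 2 := by
  have h1 : (i : ℝ) < m := by exact_mod_cast hi
  have h2 : (0 : ℝ) ≤ i := Nat.cast_nonneg _
  have h3 : (i : ℝ) / (4 * m) < 1 / 4 := by
    rw [div_lt_iff₀ (by linarith)]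
    linarith
  unfold rad
  linarith

lemma lb_avg_le {m : ℕ} (hm : 0 < m) {f : ℕ → ℝ} {c : ℝ} (h : ∀ i < m, f i ≤ c) :
    (∑ i ∈ range m, f i) / m ≤ c := by
  have := sum_le_card_nsmul _ _ _ fun i hi => h i (mem_range.1 hi)
  rw [card_range, nsmul_eq_mul] at this
  rwa [div_le_iff₀' (by exact_mod_cast hm)]

lemma lb_le_avg {m : ℕ} (hm : 0 < m) {f : ℕ → ℝ} {c : ℝ} (h : ∀ i < m, c ≤ f i) :
    c ≤ (∑ i ∈ range m, f i) / m := by
  have := card_nsmul_le_sum _ _ _ fun i hi => h i (mem_range.1 hi)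
  rw [card_range, nsmul_eq_mul] at this
  rwa [le_div_iff₀' (by exact_mod_cast hm)]

omit [DecidableEq Y] in
/-- `bm y R ≤ (3/2) N(y)` and `T ≤ bm y R` for `R ∈ [1/4,1/2]` -/
lemma psiR_nonneg (h : IsMet D) (hm : 0 < m) {μ : Y → ℝ} (hμ : ∀ y, 0 < μ y) (y : Y) :
    0 ≤ psiR D m μ y := by
  have hμ' : ∀ w, 0 ≤ μ w := fun w => (hμ w).le
  have hp : ∀ i, 0 < bm D μ y (rad m i) := fun i => bm_pos h hμ y (by linarith [rad_ge m i])
  have h1 := lb_avg_le hm (f := fun i => Real.log (bm D μ y (rad m i)))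
    (c := Real.log (2 * wide D μ y)) fun i hi => Real.log_le_log (hp i)
      ((bm_le_wide h hμ' y (by linarith [rad_ge m i])).trans
        (mul_le_mul_of_nonneg_right (by linarith [rad_lt hi]) (wide_nonneg h hμ' y)))
  have h2 := lb_avg_le hm (f := fun i => √(tent D μ y / bm D μ y (rad m i))) (c := 1)
    fun i _ => Real.sqrt_le_one.2 ((div_le_one (hp i)).2 ((tent_le_bm h hμ' y).trans
      (bm_le_bm h hμ' (by rw [h.self]; linarith [rad_ge m i]))))
  unfold psiR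
  linarith
omit [DecidableEq Y] in
lemma psiL_nonneg (h : IsMet D) {μ : Y → ℝ} (hμ : ∀ y, 0 < μ y) (y : Y) : 0 ≤ psiL D μ y := by
  exact sub_nonneg.2 (sh_le_two h hμ y)
omit [DecidableEq Y] in
lemma psiL_le_two (μ : Y → ℝ) (y : Y) : psiL D μ y ≤ 2 := by
  exact sub_le_self _ (sh_nonneg μ y)
omit [DecidableEq Y] in
/-- if every ball `bl y R`, `R ≥ 1/4`, has mass `≥ a` then `psiR y ≤ 1 + log (2 N(y) / a)` -/
lemma psiR_le (h : IsMet D) (hm : 0 < m) {μ : Y → ℝ} (hμ : ∀ y, 0 < μ y) (y : Y) {a : ℝ}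
    (ha : 0 < a) (hab : a ≤ bm D μ y (1 / 4)) :
    psiR D m μ y ≤ 1 + Real.log (2 * wide D μ y / a) := by
  have h1 := lb_le_avg hm (f := fun i => Real.log (bm D μ y (rad m i))) (c := Real.log a)
    fun i _ => Real.log_le_log ha (hab.trans
      (bm_le_bm h (fun w => (hμ w).le) (by rw [h.self]; linarith [rad_ge m i])))
  have h2 := lb_le_avg hm (f := fun i => √(tent D μ y / bm D μ y (rad m i))) (c := 0)
    fun i _ => Real.sqrt_nonneg _
  have h3 := wide_pos h hμ y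
  rw [Real.log_div (by positivity) ha.ne', psiR]
  linarith

/-! ### the radius grid -/

/-- at most `8 d m` grid radii lie in a half-open interval of length `≤ d`, `d ≥ 1/(4m)` -/
lemma card_rad_le {m : ℕ} (hm : 0 < m) {lo hi d : ℝ} (hd : 1 / (4 * (m : ℝ)) ≤ d)
    (hh : hi ≤ lo + d) :
    (((range m).filter fun i => lo ≤ rad m i ∧ rad m i < hi).card : ℝ) ≤ 8 * d * m := by
  have hm' : (0 : ℝ) < m := by exact_mod_cast hm
  rw [div_le_iff₀ (by positivity)] at hd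
  have h1 : ((range m).filter fun i => lo ≤ rad m i ∧ rad m i < hi) ⊆
      Ico ⌈(lo - 1 / 4) * (4 * m)⌉₊ (⌈(lo - 1 / 4) * (4 * m)⌉₊ + ⌈d * (4 * m)⌉₊) := by
    intro i h
    obtain ⟨a, b⟩ := (mem_filter.1 h).2
    unfold rad at a b
    have a' : (lo - 1 / 4) * (4 * m) ≤ i := by
      rw [← le_div_iff₀ (by positivity)]
      linarith
    have b' : (i : ℝ) < (lo - 1 / 4 + d) * (4 * m) := by
      rw [← div_lt_iff₀ (by positivity)]
      linarith
    refine mem_Ico.2 ⟨Nat.ceil_le.2 a', ?_⟩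
    have c1 := Nat.le_ceil ((lo - 1 / 4) * (4 * m))
    have c2 := Nat.le_ceil (d * (4 * m))
    have : (i : ℝ) < ⌈(lo - 1 / 4) * (4 * m)⌉₊ + ⌈d * (4 * m)⌉₊ := by linarith
    exact_mod_cast this
  have h2 := card_le_card h1
  rw [Nat.card_Ico, Nat.add_sub_cancel_left] at h2
  have h3 := Nat.ceil_lt_add_one (show 0 ≤ d * (4 * m) by linarith)
  exact (Nat.cast_le.2 h2).trans (by linarith)

/-- telescoping along the grid: with `q = ⌈4 m d⌉ ≤ 8 m d` one has `rad i + d ≤ rad (i+q)`,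
`rad i - d ≥ 1/4 + (i-q)/(4m)`, and `∑_{i<m} (g (i+2q) - g i) ≤ 2q (f 1 - f (1/8))` for
`g i = f (1/4 + (i - q)/(4m))`. -/
lemma sum_rad_telescope {m : ℕ} (hm : 0 < m) {d : ℝ} (hd : 1 / (4 * (m : ℝ)) ≤ d)
    (hd' : d ≤ 1 / 16) (f : ℝ → ℝ) (hf : MonotoneOn f (Set.Icc (1 / 8) 1)) :
    (∑ i ∈ range m, (f (rad m i + d) - f (rad m i - d))) / m ≤ 16 * d * (f 1 - f (1 / 8)) := by
  have hm' : (0 : ℝ) < m := by exact_mod_cast hm
  have hd0 : 0 < d := lt_of_lt_of_le (by positivity) hd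
  rw [div_le_iff₀ (by positivity)] at hd
  obtain ⟨q, hq⟩ : ∃ q : ℕ, q = ⌈d * (4 * m)⌉₊ := ⟨_, rfl⟩
  have q1 : d ≤ q / (4 * m) := by
    rw [le_div_iff₀ (by positivity), hq]
    exact Nat.le_ceil _
  have q2 : (q : ℝ) ≤ 8 * d * m := by
    have := Nat.ceil_lt_add_one (show 0 ≤ d * (4 * m) by linarith)
    rw [hq]
    linarith
  have q3 : (q : ℝ) / (4 * m) ≤ 1 / 8 := by
    rw [div_le_iff₀ (by positivity)]
    nlinarith
  have q4 : (0 : ℝ) ≤ q / (4 * m) := by positivity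
  have e : ∀ i j : ℕ, rad m (i + j) = rad m i + j / (4 * m) := fun i j => by
    unfold rad
    push_cast
    ring
  have hm4 : (m : ℝ) / (4 * m) = 1 / 4 := by field_simp
  have mem : ∀ i ≤ m + 2 * q, rad m i - q / (4 * m) ∈ Set.Icc (1 / 8 : ℝ) 1 := fun i hi => by
    have a1 : (i : ℝ) / (4 * m) ≤ (m + 2 * q) / (4 * m) := by
      gcongr
      exact_mod_cast hi
    rw [add_div, mul_div_assoc, hm4] at a1
    refine ⟨by linarith [rad_ge m i], ?_⟩
    unfold rad
    linarith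
  have h1 : ∑ i ∈ range m, (f (rad m i + d) - f (rad m i - d)) ≤ ∑ i ∈ range m,
      (f (rad m (2 * q + i) - q / (4 * m)) - f (rad m i - q / (4 * m))) := by
    refine sum_le_sum fun i hi => ?_
    have a1 := rad_ge m i
    have a2 := rad_lt (mem_range.1 hi)
    have a3 := e i (2 * q)
    rw [add_comm, Nat.cast_mul, mul_div_assoc, Nat.cast_ofNat] at a3
    have hi' := mem_range.1 hi
    exact sub_le_sub (hf ⟨by linarith, by linarith⟩ (mem _ (by omega)) (by linarith))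
      (hf (mem _ (by omega)) ⟨by linarith, by linarith⟩ (by linarith))
  have h2 := sum_range_add (fun i => f (rad m i - q / (4 * m))) (2 * q) m
  have h3 := sum_range_add (fun i => f (rad m i - q / (4 * m))) m (2 * q)
  rw [add_comm, h3] at h2
  have h4 := sum_le_card_nsmul (range (2 * q))
    (fun i => f (rad m (m + i) - q / (4 * m)) - f (rad m i - q / (4 * m))) (f 1 - f (1 / 8))
    fun i hi => by
      have hi' := mem_range.1 hi
      have a1 := mem (m + i) (by omega)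
      have a2 := mem i (by omega)
      exact sub_le_sub (hf a1 ⟨by norm_num, le_rfl⟩ a1.2) (hf ⟨le_rfl, by norm_num⟩ a2 a2.1)
  have h5 : 0 ≤ f 1 - f (1 / 8) :=
    sub_nonneg.2 (hf ⟨le_rfl, by norm_num⟩ ⟨by norm_num, le_rfl⟩ (by norm_num))
  rw [card_range, nsmul_eq_mul, sum_sub_distrib] at h4
  rw [sum_sub_distrib (fun i => f (rad m (2 * q + i) - q / (4 * m)))] at h1
  push_cast at h4
  rw [div_le_iff₀ hm']
  nlinarith

/-! ### nearest king -/

omit [Fintype Y] [DecidableEq Y] in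
lemma tK_le_one (σ : KD Y) (y : Y) : tK D σ y ≤ 1 := by
  exact (fold_min_le _).2 (Or.inl le_rfl)
omit [Fintype Y] [DecidableEq Y] in
lemma tK_le {σ : KD Y} {a : Option Y} (ha : a ∈ σ.alive) (y : Y) : tK D σ y ≤ D y (σ.cen a) := by
  exact (fold_min_le _).2 (Or.inr ⟨a, ha, le_rfl⟩)
omit [Fintype Y] [DecidableEq Y] in
lemma le_tK {σ : KD Y} {y : Y} {t : ℝ} (h1 : t ≤ 1) (h : ∀ a ∈ σ.alive, t ≤ D y (σ.cen a)) :
    t ≤ tK D σ y := by
  exact (le_fold_min _).2 ⟨h1, h⟩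
omit [Fintype Y] [DecidableEq Y] in
lemma exists_of_tK_lt {σ : KD Y} {y : Y} (h : tK D σ y < 1) :
    ∃ a ∈ σ.alive, tK D σ y = D y (σ.cen a) := by
  obtain ⟨a, ha, h1⟩ := ((fold_min_le _).1 (le_refl (tK D σ y))).resolve_left (not_le.2 h)
  exact ⟨a, ha, le_antisymm (tK_le ha y) h1⟩
omit [Fintype Y] [DecidableEq Y] in
lemma tK_nonneg (h : IsMet D) (σ : KD Y) (y : Y) : 0 ≤ tK D σ y := by
  exact le_tK zero_le_one fun _ _ => h.nonneg _ _
omit [Fintype Y] [DecidableEq Y] in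
lemma tK_lip (h : IsMet D) (σ : KD Y) (x y : Y) : tK D σ x ≤ tK D σ y + D x y := by
  refine sub_le_iff_le_add.1 (le_tK ?_ fun a ha => ?_)
  · linarith [tK_le_one (D := D) σ x, h.nonneg x y]
  · linarith [tK_le (D := D) ha x, h.tri x y (σ.cen a)]

omit [Fintype Y] [DecidableEq Y] in
lemma lb_far (h : IsMet D) {σ : KD Y} (hσ : KInv D σ) {a b : Option Y} (ha : a ∈ σ.alive)
    (hb : b ∈ σ.alive) (hab : b ≠ a) {y : Y} (hy : D y (σ.cen a) ≤ 1) : 3 ≤ D y (σ.cen b) := by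
  linarith [hσ.sep b hb a ha hab, h.tri (σ.cen b) y (σ.cen a), h.symm y (σ.cen b)]
omit [Fintype Y] [DecidableEq Y] in
/-- next to a living king the nearest king is that king -/
lemma tK_eq (h : IsMet D) {σ : KD Y} (hσ : KInv D σ) {a : Option Y} (ha : a ∈ σ.alive) {y : Y}
    (hy : D y (σ.cen a) ≤ 1) : tK D σ y = D y (σ.cen a) := by
  refine le_antisymm (tK_le ha y) (le_tK hy fun b hb => ?_)
  rcases eq_or_ne b a with rfl | hab
  · rfl
  · linarith [lb_far h hσ ha hb hab hy]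
omit [Fintype Y] [DecidableEq Y] in
lemma kingOf_eq_some (h : IsMet D) {σ : KD Y} (hσ : KInv D σ) {R : ℝ} (hR : R ≤ 1) {y : Y}
    {a : Option Y} : kingOf D σ R y = some a ↔ a ∈ σ.alive ∧ D y (σ.cen a) ≤ R := by
  unfold kingOf
  split_ifs with h1
  · refine ⟨fun e => Option.some.inj e ▸ h1.choose_spec, fun h2 => congrArg some ?_⟩
    by_contra hne
    linarith [lb_far h hσ h2.1 h1.choose_spec.1 hne (h2.2.trans hR), h1.choose_spec.2]
  · exact ⟨fun e => absurd e (by simp), fun h2 => absurd ⟨a, h2⟩ h1⟩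
omit [Fintype Y] [DecidableEq Y] in
lemma kingOf_eq_none {σ : KD Y} {R : ℝ} {y : Y} :
    kingOf D σ R y = none ↔ ∀ a ∈ σ.alive, R < D y (σ.cen a) := by
  unfold kingOf
  split_ifs with h1
  · obtain ⟨a, ha, h2⟩ := h1
    exact ⟨False.elim, fun h => absurd (h a ha) (not_lt.2 h2)⟩
  · exact ⟨fun _ a ha => not_le.1 fun h2 => h1 ⟨a, ha, h2⟩, fun _ => rfl⟩
omit [Fintype Y] [DecidableEq Y] in
lemma kingOf_setMu (σ : KD Y) (μ : Y → ℝ) (R : ℝ) (y : Y) :
    kingOf D (setMu σ μ) R y = kingOf D σ R y := by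
  rfl
omit [Fintype Y] [DecidableEq Y] in
/-- an uncaptured point is fully exposed -/
lemma cR_eq_one_of_none {σ : KD Y} {R : ℝ} (hR : 1 / 4 ≤ R) {y : Y} (h : kingOf D σ R y = none) :
    cR (tK D σ y) = 1 := by
  have := le_tK (D := D) (t := 1 / 4) (by norm_num)
    fun a ha => hR.trans (kingOf_eq_none.1 h a ha).le
  exact cl_of_one_le (by linarith)
omit [Fintype Y] [DecidableEq Y] in
lemma KInv.setMu {σ : KD Y} (hσ : KInv D σ) {μ : Y → ℝ} (hμ : ∀ y, 0 < μ y) :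
    KInv D (setMu σ μ) := by
  exact ⟨hμ, hσ.sep⟩
omit [Fintype Y] in
lemma KInv.addMu {σ : KD Y} (hσ : KInv D σ) (x : Y) {a : ℝ} (ha : 0 ≤ a) :
    KInv D (addMu σ x a) := by
  refine hσ.setMu fun y => ?_
  rcases eq_or_ne y x with rfl | h
  · rw [Function.update_self]
    linarith [hσ.pos y]
  · rw [Function.update_of_ne h]
    exact hσ.pos y
omit [Fintype Y] [DecidableEq Y] in
/-- cores of distinct living kings are disjoint -/
lemma sum_core_le_one (h : IsMet D) {σ : KD Y} (hσ : KInv D σ) (y : Y) :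
    ∑ a ∈ σ.alive, core (D y (σ.cen a)) ≤ 1 := by
  by_cases h1 : ∃ a ∈ σ.alive, D y (σ.cen a) ≤ 1
  · obtain ⟨a, ha, h1⟩ := h1
    exact (sum_eq_single_of_mem a ha fun b hb hab =>
      cl_of_nonpos (by linarith [lb_far h hσ ha hb hab h1])).trans_le (cl_le_one _)
  · push Not at h1
    exact (sum_eq_zero fun a ha => cl_of_nonpos (by linarith [h1 a ha])).trans_le zero_le_one

omit [DecidableEq Y] in
lemma lb_card (h : IsMet D) {σ : KD Y} (hσ : KInv D σ) : σ.alive.card ≤ Fintype.card Y := by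
  refine card_le_card_of_injOn σ.cen (fun _ _ => mem_univ _) fun a ha b hb e => ?_
  by_contra hne
  have := hσ.sep a ha b hb hne
  rw [e, h.self] at this
  linarith
omit [DecidableEq Y] in
/-- centres of living kings are distinct, so a dead label exists -/
lemma exists_dead (h : IsMet D) {σ : KD Y} (hσ : KInv D σ) : ∃ b, b ∉ σ.alive := by
  by_contra hn
  push Not at hn
  have := lb_card h hσ
  rw [eq_univ_of_forall hn, card_univ, Fintype.card_option] at this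
  omega
omit [DecidableEq Y] in
lemma card_alive_le (h : IsMet D) {σ : KD Y} (hσ : KInv D σ) :
    σ.alive.card ≤ Fintype.card Y := by
  exact lb_card h hσ

/-! ### exposed masses, the potential -/

omit [DecidableEq Y] in
lemma nuR_le_nuL (c : Ctx k D m η ν) (σ : KD Y) (y : Y) : nuR D η ν σ y ≤ nuL D η ν σ y := by
  exact add_le_add_left (mul_le_mul_of_nonneg_right (cR_le_cL _) (c.ν0 y)) _
omit [DecidableEq Y] in
lemma eta_le_nuR (c : Ctx k D m η ν) (σ : KD Y) (y : Y) : η ≤ nuR D η ν σ y := by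
  exact le_add_of_nonneg_left (mul_nonneg (cl_nonneg _) (c.ν0 y))
omit [DecidableEq Y] in
lemma nuL_le (c : Ctx k D m η ν) (σ : KD Y) (y : Y) : nuL D η ν σ y ≤ ν y + η := by
  exact add_le_add_left (mul_le_of_le_one_left (c.ν0 y) (cl_le_one _)) _
omit [DecidableEq Y] in
lemma sum_nuL_le (c : Ctx k D m η ν) (σ : KD Y) : ∑ y, nuL D η ν σ y ≤ k + 1 := by
  refine (sum_le_sum fun y _ => nuL_le c σ y).trans ?_
  rw [sum_add_distrib, c.νsum, sum_const, card_univ, nsmul_eq_mul]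
  linarith [c.ηcard]
omit [DecidableEq Y] in
lemma Psi_nonneg (c : Ctx k D m η ν) {σ : KD Y} (hσ : KInv D σ) : 0 ≤ Psi D m η ν σ := by
  refine sum_nonneg fun y _ => ?_
  have h1 := c.ηpos.le.trans (eta_le_nuR c σ y)
  exact add_nonneg (mul_nonneg h1 (psiR_nonneg c.met c.mpos hσ.pos y))
    (mul_nonneg (h1.trans (nuR_le_nuL c σ y)) (psiL_nonneg c.met hσ.pos y))
omit [DecidableEq Y] in
lemma sum_pot (σ : KD Y) : ∑ y, ν y * pot D m σ y + pot0 D m η σ = Pot D m η ν σ := by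
  have e1 : ∑ a ∈ σ.alive, PK D ν (σ.cen a) =
      ∑ y, ν y * ∑ a ∈ σ.alive, qk (D y (σ.cen a)) + eps1 / 8 * σ.alive.card := by
    simp only [PK, Wk, Core, sum_add_distrib, sum_const, nsmul_eq_mul, mul_sum, ← sum_sub_distrib]
    rw [sum_comm, mul_comm (eps1 / 8)]
    refine congrArg (· + _) (sum_congr rfl fun _ _ => sum_congr rfl fun _ _ => ?_)
    rw [qk]
    ring
  rw [Pot, e1, pot0, Psi, mul_add KK, mul_sum, mul_sum, mul_sum, ← add_assoc, ← add_assoc,
    ← sum_add_distrib, ← sum_add_distrib, mul_assoc KK]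
  refine congrArg (· + _) (sum_congr rfl fun y _ => ?_)
  rw [pot, nuR, nuL]
  ring
omit [DecidableEq Y] in
lemma pot_lower (h : IsMet D) (hm : 0 < m) {σ : KD Y} (hσ : KInv D σ) (y : Y) :
    -2 ^ 28 ≤ pot D m σ y := by
  have h1 := mul_nonneg (cl_nonneg (64 * tK D σ y - 1)) (psiR_nonneg h hm hσ.pos y)
  have h2 := mul_nonneg (cl_nonneg (512 * tK D σ y - 1)) (psiL_nonneg h hσ.pos y)
  have h3 := sum_core_le_one h hσ y
  have h4 := sum_nonneg fun a (_ : a ∈ σ.alive) => wk_nonneg (h.nonneg y (σ.cen a))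
  simp only [pot, qk, sum_sub_distrib, ← mul_sum, KK, eps1, cR, cL]
  linarith
omit [DecidableEq Y] in
lemma pot0_nonneg (h : IsMet D) (hm : 0 < m) (hη : 0 ≤ η) {σ : KD Y} (hσ : KInv D σ) :
    0 ≤ pot0 D m η σ := by
  have h1 := sum_nonneg fun y (_ : y ∈ univ) =>
    add_nonneg (psiR_nonneg h hm hσ.pos y) (psiL_nonneg h hσ.pos y)
  unfold pot0 KK eps1
  positivity

end Crest.Agent.R314
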