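import Crest.Agent.R314.Defs

/-!
# Part D (one scale): definitions of the potential

All distances are normalised (`D = dist / r`).  `wide D μ y = ∑ μ w / (1 + D y w)` is written `N(y)`,
`bm D μ y R` is the mass of the closed ball, `tent` is written `T(y)`.
-/

set_option autoImplicit false

open Finset

namespace Crest.Agent.R314

universe u

/-- standing hypotheses -/
structure Ctx {Y : Type u} [Fintype Y] (k : ℕ) (D : Y → Y → ℝ) (m : ℕ) (η : ℝ) (ν : Y → ℝ) :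
    Prop where
  met : IsMet D
  mpos : 0 < m
  grid : ∀ x y, x ≠ y → 1 / (4 * (m : ℝ)) ≤ D x y
  hk : 2 ≤ k
  ηpos : 0 < η
  ηcard : η * Fintype.card Y ≤ 1
  ν0 : ∀ y, 0 ≤ ν y
  νsum : ∑ y, ν y = k

/-- clamp to `[0,1]` -/
noncomputable def cl (t : ℝ) : ℝ := max 0 (min 1 t)
/-- exposure of the bounded term: `0` on `[0,1/512]`, `1` beyond `1/256` -/
noncomputable def cL (t : ℝ) : ℝ := cl (512 * t - 1)
/-- exposure of the logarithmic term: `0` on `[0,1/64]`, `1` beyond `1/32` -/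
noncomputable def cR (t : ℝ) : ℝ := cl (64 * t - 1)
/-- core profile: `1` on `[0,1/512]`, `0` beyond `1/256` -/
noncomputable def core (t : ℝ) : ℝ := cl (2 - 512 * t)
/-- ring profile of a king -/
noncomputable def wk (t : ℝ) : ℝ := if t ≤ 1 then t ^ 2 else 1 / t
noncomputable def eps1 : ℝ := 1 / 2 ^ 25
noncomputable def KK : ℝ := 2 ^ 53
noncomputable def qk (t : ℝ) : ℝ := wk t - eps1 * core t

variable {Y : Type u} [Fintype Y] [DecidableEq Y]

/-- quadratic tent mass, radius `1/16` -/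
noncomputable def tent (D : Y → Y → ℝ) (μ : Y → ℝ) (y : Y) : ℝ :=
  ∑ w, μ w * (max 0 (1 - 16 * D y w)) ^ 2

/-- distance to the nearest living king, capped at `1` -/
noncomputable def tK (D : Y → Y → ℝ) (σ : KD Y) (y : Y) : ℝ :=
  σ.alive.fold min 1 fun a => D y (σ.cen a)

/-- wide share -/
noncomputable def sh (D : Y → Y → ℝ) (μ : Y → ℝ) (y : Y) : ℝ :=
  Real.sqrt (tent D μ y / wide D μ y)

noncomputable def psiR (D : Y → Y → ℝ) (m : ℕ) (μ : Y → ℝ) (y : Y) : ℝ :=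
  Real.log (2 * wide D μ y) - (∑ i ∈ range m, Real.log (bm D μ y (rad m i))) / m + 1 -
    (∑ i ∈ range m, Real.sqrt (tent D μ y / bm D μ y (rad m i))) / m

noncomputable def psiL (D : Y → Y → ℝ) (μ : Y → ℝ) (y : Y) : ℝ := 2 - sh D μ y

noncomputable def nuR (D : Y → Y → ℝ) (η : ℝ) (ν : Y → ℝ) (σ : KD Y) (y : Y) : ℝ :=
  cR (tK D σ y) * ν y + η

noncomputable def nuL (D : Y → Y → ℝ) (η : ℝ) (ν : Y → ℝ) (σ : KD Y) (y : Y) : ℝ :=
  cL (tK D σ y) * ν y + η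

/-- the race potential -/
noncomputable def Psi (D : Y → Y → ℝ) (m : ℕ) (η : ℝ) (ν : Y → ℝ) (σ : KD Y) : ℝ :=
  ∑ y, (nuR D η ν σ y * psiR D m σ.mu y + nuL D η ν σ y * psiL D σ.mu y)

noncomputable def Wk (D : Y → Y → ℝ) (ν : Y → ℝ) (z : Y) : ℝ := ∑ y, ν y * wk (D y z)
noncomputable def Core (D : Y → Y → ℝ) (ν : Y → ℝ) (z : Y) : ℝ := ∑ y, ν y * core (D y z)
/-- potential of a king sitting at `z` -/
noncomputable def PK (D : Y → Y → ℝ) (ν : Y → ℝ) (z : Y) : ℝ :=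
  Wk D ν z - eps1 * Core D ν z + eps1 / 8

/-- a valid king position -/
def OK (D : Y → Y → ℝ) (ν : Y → ℝ) (z : Y) : Prop :=
  Wk D ν z ≤ 2 * eps1 * Core D ν z ∧ 1 / 17 ≤ Core D ν z

noncomputable def pot (D : Y → Y → ℝ) (m : ℕ) (σ : KD Y) (y : Y) : ℝ :=
  2 * (cR (tK D σ y) * psiR D m σ.mu y + cL (tK D σ y) * psiL D σ.mu y) +
    KK * ∑ a ∈ σ.alive, qk (D y (σ.cen a))

noncomputable def pot0 (D : Y → Y → ℝ) (m : ℕ) (η : ℝ) (σ : KD Y) : ℝ :=
  2 * η * ∑ y, (psiR D m σ.mu y + psiL D σ.mu y) + KK * (eps1 / 8) * σ.alive.card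

/-- total potential -/
noncomputable def Pot (D : Y → Y → ℝ) (m : ℕ) (η : ℝ) (ν : Y → ℝ) (σ : KD Y) : ℝ :=
  2 * Psi D m η ν σ + KK * ∑ a ∈ σ.alive, PK D ν (σ.cen a)

/-- relabelled mass -/
noncomputable def rel (D : Y → Y → ℝ) (m : ℕ) (ν : Y → ℝ) (σ σ' : KD Y) : ℝ :=
  ∑ y, ν y * lavg D m σ y σ' y

def setMu (σ : KD Y) (μ : Y → ℝ) : KD Y := ⟨σ.alive, σ.cen, μ⟩

def addMu (σ : KD Y) (x : Y) (a : ℝ) : KD Y :=
  setMu σ (Function.update σ.mu x (σ.mu x + a))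

/-- no change of the race weights is profitable (up to `e`) -/
structure Stat (k : ℕ) (D : Y → Y → ℝ) (m : ℕ) (η : ℝ) (ν : Y → ℝ) (σ : KD Y) (e : ℝ) : Prop where
  e0 : 0 ≤ e
  small : e * (4096 * (k + 1)) < η ^ 2
  stat : ∀ μ : Y → ℝ, (∀ y, 0 < μ y) →
    2 * Psi D m η ν σ ≤ 2 * Psi D m η ν (setMu σ μ) + rel D m ν σ (setMu σ μ) + e

/-- weight of `y` in the domination sums -/
noncomputable def vp (D : Y → Y → ℝ) (η : ℝ) (ν : Y → ℝ) (σ : KD Y) (y : Y) : ℝ :=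
  nuR D η ν σ y + nuL D η ν σ y * sh D σ.mu y / 4

/-- marginal cost of inserting weight at `x` -/
noncomputable def dom (D : Y → Y → ℝ) (η : ℝ) (ν : Y → ℝ) (σ : KD Y) (x : Y) : ℝ :=
  ∑ y, vp D η ν σ y / ((1 + D y x) * wide D σ.mu y)

/-- local gain at `y` when the weights grow from `μ` to `μ'` -/
noncomputable def gl (D : Y → Y → ℝ) (m : ℕ) (μ μ' : Y → ℝ) (y : Y) : ℝ :=
  (∑ i ∈ range m, (Real.sqrt (tent D μ' y) - Real.sqrt (tent D μ y)) /
    Real.sqrt (bm D μ' y (rad m i))) / m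

/-- wide gain at `y` when the weights grow from `μ` to `μ'` -/
noncomputable def gw (D : Y → Y → ℝ) (μ μ' : Y → ℝ) (y : Y) : ℝ :=
  (Real.sqrt (tent D μ' y) - Real.sqrt (tent D μ y)) / Real.sqrt (wide D μ' y)

/-- `x` is heavy: almost all nearby mass (in the wide sense) sits next to `x` -/
def Heavy (D : Y → Y → ℝ) (ν : Y → ℝ) (x : Y) : Prop :=
  1 / 2 ≤ bm D ν x (1 / 1024) ∧ ring D ν x ≤ wide D ν x / 2 ^ 31

end Crest.Agent.R314
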