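import Crest.Agent.R314.LDom
import Crest.Agent.R314.LCount

/-!
# Part D: removing the invalid kings
-/

set_option autoImplicit false

open Finset

namespace Crest.Agent.R314

universe u

variable {Y : Type u} [Fintype Y] [DecidableEq Y] {k m : ℕ} {D : Y → Y → ℝ} {η : ℝ} {ν : Y → ℝ}

omit [DecidableEq Y] in
/-- contrapositive: if `KK * PK < 2^24 (W + Core + 1) = (KK eps1/16)(W + Core + 1)` then
`W (1 - eps1/16) + eps1/16 < (17/16) eps1 Core`, which gives `OK` (`W, Core ≥ 0`) -/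
lemma PK_ge_of_not_ok (c : Ctx k D m η ν) {z : Y} (h : ¬ OK D ν z) :
    2 ^ 24 * (Wk D ν z + Core D ν z + 1) ≤ KK * PK D ν z := by
  have hW : 0 ≤ Wk D ν z :=
    sum_nonneg fun y _ => mul_nonneg (c.ν0 y) (wk_nonneg (c.met.nonneg _ _))
  have hC : 0 ≤ Core D ν z := sum_nonneg fun y _ => mul_nonneg (c.ν0 y) (cl_nonneg _)
  unfold OK at h
  unfold PK KK
  unfold eps1 at h ⊢
  rw [not_and_or, not_le, not_le] at h
  rcases h with h | h
  · nlinarith
  · nlinarith

omit [Fintype Y] in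
lemma lde_tK {σ σ' : KD Y} {a : Option Y} (hal : σ'.alive = σ.alive.erase a)
    (hcen : σ'.cen = σ.cen) (y : Y) :
    min (tK D σ' y) (D y (σ.cen a)) ≤ tK D σ y := by
  refine le_tK ((min_le_left _ _).trans (tK_le_one _ _)) fun b hb => ?_
  by_cases hba : b = a
  · rw [hba]; exact min_le_right _ _
  · have hb' : b ∈ σ'.alive := by rw [hal]; exact mem_erase.2 ⟨hba, hb⟩
    have := tK_le (D := D) hb' y
    rw [hcen] at this
    exact (min_le_left _ _).trans this

lemma lde_cR {s t d : ℝ} (h : min s d ≤ t) (hd : 1 / 32 ≤ d) : cR s ≤ cR t ∧ cL s ≤ cL t := by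
  rcases le_total s d with h1 | h1
  · rw [min_eq_left h1] at h
    exact ⟨cl_mono (by linarith), cl_mono (by linarith)⟩
  · rw [min_eq_right h1] at h
    have h2 : cR t = 1 := cl_of_one_le (by linarith)
    have h3 : cL t = 1 := cl_of_one_le (by linarith)
    rw [h2, h3]
    exact ⟨cl_le_one _, cl_le_one _⟩

/-- erasing a king next to which the weights are concentrated -/
lemma lde_psi (c : Ctx k D m η ν) {σ σ' : KD Y} (hσ : KInv D σ) {a : Option Y}
    (hal : σ'.alive = σ.alive.erase a) (hcen : σ'.cen = σ.cen) (hmu : σ'.mu = σ.mu)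
    (h3 : ∀ y, D y (σ.cen a) < 1 / 32 → psiR D m σ.mu y ≤ 3) :
    Psi D m η ν σ' ≤ Psi D m η ν σ + 5 * bm D ν (σ.cen a) 1 := by
  rw [Cn.bm_eq, mul_sum]
  unfold Psi
  rw [← sum_add_distrib, hmu]
  refine sum_le_sum fun y _ => ?_
  have hR := psiR_nonneg c.met c.mpos hσ.pos y
  have hL := psiL_nonneg c.met hσ.pos y
  have hL2 := psiL_le_two (D := D) σ.mu y
  have hν := c.ν0 y
  unfold nuR nuL
  by_cases hy : D y (σ.cen a) < 1 / 32
  · rw [if_pos (by rw [c.met.symm]; linarith)]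
    have h4 := h3 y hy
    have e1 : cR (tK D σ' y) ≤ 1 := cl_le_one _
    have e2 : 0 ≤ cR (tK D σ y) := cl_nonneg _
    have e3 : cL (tK D σ' y) ≤ 1 := cl_le_one _
    have e4 : 0 ≤ cL (tK D σ y) := cl_nonneg _
    have f1 : (cR (tK D σ' y) - cR (tK D σ y)) * psiR D m σ.mu y ≤ 3 := by nlinarith
    have f2 : (cL (tK D σ' y) - cL (tK D σ y)) * psiL D σ.mu y ≤ 2 := by nlinarith
    have g1 := mul_le_mul_of_nonneg_left f1 hν
    have g2 := mul_le_mul_of_nonneg_left f2 hν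
    nlinarith
  · obtain ⟨e1, e2⟩ := lde_cR (lde_tK (D := D) hal hcen y) (not_lt.1 hy)
    have g0 : (0 : ℝ) ≤ 5 * (if D (σ.cen a) y ≤ 1 then ν y else 0) := by
      split_ifs <;> positivity
    have g1 := mul_le_mul_of_nonneg_right (mul_le_mul_of_nonneg_right e1 hν) hR
    have g2 := mul_le_mul_of_nonneg_right (mul_le_mul_of_nonneg_right e2 hν) hL
    nlinarith

/-- Let `z = σ.cen a`.  First insert `α = wide μ z` at `z` (`insert_paid`, `dom_wide`,
`wide_nuL_le_Wk`: cost `≤ 52 (2^18 W + 1)`), then erase `a` from `alive`.  Erasing changes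
`cL (tK y)`, `cR (tK y)` only if `D y z < 1/32`, where `psiR ≤ 1 + log 6 ≤ 3` (`psiR_le` with `α`,
`N''(y) ≤ 3α`) and `psiL ≤ 2`: `2 ΔPsi ≤ 10 bm ν z 1`; `rel ≤ bm ν z 1` (`rel_le_bm`);
`bm_le_Core_add`.  Total `≤ 2^24 (W + Core + 1) ≤ KK PK z`.  Use `rel_triangle`. -/
lemma destroy_one (c : Ctx k D m η ν) {σ : KD Y} (hσ : KInv D σ) {e : ℝ}
    (hS : Stat k D m η ν σ e) {a : Option Y} (ha : a ∈ σ.alive) (hbad : ¬ OK D ν (σ.cen a)) :
    ∃ σ', KInv D σ' ∧ σ'.alive = σ.alive.erase a ∧ σ'.cen = σ.cen ∧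
      rel D m ν σ σ' + Pot D m η ν σ' ≤ Pot D m η ν σ := by
  have hα : 0 < wide D σ.mu (σ.cen a) := wide_pos c.met hσ.pos _
  set z := σ.cen a with hz
  set α := wide D σ.mu z with hαd
  have h1 : KInv D (addMu σ z α) := hσ.addMu z hα.le
  let σ' : KD Y := ⟨σ.alive.erase a, σ.cen, (addMu σ z α).mu⟩
  have h' : KInv D σ' :=
    ⟨h1.pos, fun b hb b' hb' hne => hσ.sep b (mem_of_mem_erase hb) b' (mem_of_mem_erase hb') hne⟩
  refine ⟨σ', h', rfl, rfl, ?_⟩
  have t1 := rel_triangle c hσ h1 h'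
  have t2 := insert_paid c hσ z hα.le
  have t3 := dom_wide c hσ hS z
  have t4 := wide_nuL_le_Wk c ha
  have t5 : rel D m ν (addMu σ z α) σ' ≤ bm D ν z 1 := by
    refine rel_le_bm c h1 h' rfl z 1 fun y hy i hi => ?_
    have hR : rad m i ≤ 1 := by linarith [rad_lt hi]
    refine Option.ext fun b => ?_
    rw [kingOf_eq_some c.met h1 hR, kingOf_eq_some c.met h' hR]
    constructor
    · rintro ⟨hb, hd⟩
      refine ⟨mem_erase.2 ⟨?_, hb⟩, hd⟩
      rintro rfl
      have hd' : D y z ≤ rad m i := hd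
      rw [c.met.symm] at hd'
      linarith
    · rintro ⟨hb, hd⟩
      exact ⟨mem_of_mem_erase hb, hd⟩
  have t6 : Psi D m η ν σ' ≤ Psi D m η ν (addMu σ z α) + 5 * bm D ν z 1 := by
    refine lde_psi c (σ := addMu σ z α) (σ' := σ') (a := a) h1 rfl rfl rfl fun y hy => ?_
    have hy' : D y z < 1 / 32 := hy
    have hd0 := c.met.nonneg y z
    have hb : α ≤ bm D (addMu σ z α).mu y (1 / 4) := by
      rw [bm_addMu, if_pos (by linarith)]
      linarith [bm_nonneg (D := D) (fun w => (hσ.pos w).le) y (1 / 4)]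
    have hw : wide D (addMu σ z α).mu y ≤ 3 * α := by
      rw [wide_addMu c.met]
      have w1 := wide_le_mul c.met (fun w => (hσ.pos w).le) z y
      rw [c.met.symm z y] at w1
      have w2 : α / (1 + D y z) ≤ α := div_le_self hα.le (by linarith)
      nlinarith
    have hp := psiR_le c.met c.mpos h1.pos y hα hb
    have hwp := wide_pos c.met h1.pos y
    have hl : Real.log (2 * wide D (addMu σ z α).mu y / α) ≤ (2 : ℕ) := by
      refine ld_exp 2 (by positivity) ?_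
      rw [div_le_iff₀ hα]
      nlinarith
    push_cast at hl
    linarith
  have t7 := bm_le_Core_add c z
  have t8 := PK_ge_of_not_ok c hbad
  have hW : 0 ≤ Wk D ν z :=
    sum_nonneg fun y _ => mul_nonneg (c.ν0 y) (wk_nonneg (c.met.nonneg _ _))
  have hC : 0 ≤ Core D ν z := sum_nonneg fun y _ => mul_nonneg (c.ν0 y) (cl_nonneg _)
  have e1 : Pot D m η ν (addMu σ z α) =
      2 * Psi D m η ν (addMu σ z α) + KK * ∑ b ∈ σ.alive, PK D ν (σ.cen b) := rfl
  have e2 : Pot D m η ν σ' =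
      2 * Psi D m η ν σ' + KK * ∑ b ∈ σ.alive.erase a, PK D ν (σ.cen b) := rfl
  have e3 := add_sum_erase σ.alive (fun b => PK D ν (σ.cen b)) ha
  simp only [← hz] at e3
  rw [← e3, mul_add] at e1
  rw [← hz] at t4
  rw [← hαd] at t3
  have t9 : 4 * α * dom D η ν σ z = 4 * (α * dom D η ν σ z) := by ring
  linarith

/-- induction on `σ.alive.card`: `reopt`; if some living king is invalid, `destroy_one` and recurse -/
lemma cleanup (c : Ctx k D m η ν) {e : ℝ} (he : 0 < e) (hs : e * (4096 * (k + 1)) < η ^ 2)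
    {σ : KD Y} (hσ : KInv D σ) :
    ∃ σ', KInv D σ' ∧ σ'.alive ⊆ σ.alive ∧ σ'.cen = σ.cen ∧
      (∀ a ∈ σ'.alive, OK D ν (σ'.cen a)) ∧ Stat k D m η ν σ' e ∧
      rel D m ν σ σ' + Pot D m η ν σ' ≤ Pot D m η ν σ + (σ.alive.card + 1) * e := by
  induction hn : σ.alive.card using Nat.strong_induction_on generalizing σ with
  | _ n ih =>
  obtain ⟨μ, hμ, hS, hr⟩ := reopt c hσ he hs
  have h1 : KInv D (setMu σ μ) := hσ.setMu hμ
  by_cases hok : ∀ a ∈ σ.alive, OK D ν (σ.cen a)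
  · refine ⟨setMu σ μ, h1, Subset.rfl, rfl, hok, hS, ?_⟩
    have : 0 ≤ (n : ℝ) * e := by positivity
    linarith
  · push Not at hok
    obtain ⟨a, ha, hbad⟩ := hok
    obtain ⟨σ₂, h2, hal, hcen, hr2⟩ := destroy_one c h1 hS (a := a) ha hbad
    have hal' : σ₂.alive = σ.alive.erase a := hal
    have hc : σ₂.alive.card + 1 = n := by rw [hal', card_erase_add_one ha, hn]
    obtain ⟨σ', h', hsub, hcen', hok', hS', hr'⟩ := ih σ₂.alive.card (by omega) h2 rfl
    refine ⟨σ', h', hsub.trans (by rw [hal']; exact erase_subset _ _), hcen'.trans hcen, hok', hS', ?_⟩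
    have t1 := rel_triangle c hσ h1 h'
    have t2 := rel_triangle c h1 h2 h'
    have hc' : (σ₂.alive.card : ℝ) + 1 = n := by exact_mod_cast hc
    rw [hc'] at hr'
    linarith

end Crest.Agent.R314
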