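import Crest.Agent.R314.LJac

/-!
# Part D: inserting weight at a point
-/

set_option autoImplicit false

open Finset

namespace Crest.Agent.R314

universe u

variable {Y : Type u} [Fintype Y] [DecidableEq Y] {k m : ℕ} {D : Y → Y → ℝ} {η : ℝ} {ν : Y → ℝ}

omit [Fintype Y] in
lemma li_mu (σ : KD Y) (x : Y) (a : ℝ) (w : Y) :
    (addMu σ x a).mu w = σ.mu w + if w = x then a else 0 := by
  change Function.update σ.mu x (σ.mu x + a) w = _
  split_ifs with h
  · rw [h, Function.update_self]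
  · rw [Function.update_of_ne h, add_zero]

omit [Fintype Y] in
lemma li_le (σ : KD Y) (x : Y) {a : ℝ} (ha : 0 ≤ a) (w : Y) : σ.mu w ≤ (addMu σ x a).mu w := by
  rw [li_mu]
  split_ifs <;> linarith

lemma li_tent {σ : KD Y} (x : Y) {a : ℝ} (ha : 0 ≤ a) (y : Y) :
    0 ≤ √(tent D (addMu σ x a).mu y) - √(tent D σ.mu y) :=
  sub_nonneg.2 (Real.sqrt_le_sqrt (sum_le_sum fun w _ =>
    mul_le_mul_of_nonneg_right (li_le σ x ha w) (sq_nonneg _)))

lemma li_log {u u' : ℝ} (hu : 0 < u) (hu' : 0 < u') : 1 - u / u' ≤ Real.log u' - Real.log u := by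
  have := Real.log_le_sub_one_of_pos (div_pos hu hu')
  rw [Real.log_div hu.ne' hu'.ne'] at this
  linarith

lemma li_s1 {T T' u u' : ℝ} (hu : 0 < u) (hT : T ≤ u) (h : u ≤ u') :
    (√T' - √T) / √u' - 1 / 2 * (Real.log u' - Real.log u) ≤ √(T' / u') - √(T / u) := by
  have hu' : 0 < u' := hu.trans_le h
  have hp := Real.sqrt_pos.2 hu
  have hq := Real.sqrt_pos.2 hu'
  have h1 := li_log hp hq
  have h2 : √T / √u ≤ 1 := (div_le_one hp).2 (Real.sqrt_le_sqrt hT)
  have h3 : √u / √u' ≤ 1 := (div_le_one hq).2 (Real.sqrt_le_sqrt h)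
  have h4 : √T / √u' = √T / √u * (√u / √u') := by field_simp
  rw [Real.log_sqrt hu.le, Real.log_sqrt hu'.le] at h1
  rw [Real.sqrt_div' _ hu.le, Real.sqrt_div' _ hu'.le, sub_div, h4]
  nlinarith

lemma li_s2 {T T' N b : ℝ} (hN : 0 < N) (hb : 0 ≤ b) :
    √(T / N) - √(T' / (N + b)) ≤ √(T / N) * (b / N) / 2 - (√T' - √T) / √(N + b) := by
  have hp := Real.sqrt_pos.2 hN
  have hq := Real.sqrt_pos.2 (show 0 < N + b by linarith)
  have h1 : √N ≤ √(N + b) := Real.sqrt_le_sqrt (by linarith)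
  have h2 := Real.mul_self_sqrt hN.le
  have h3 := Real.mul_self_sqrt (show 0 ≤ N + b by linarith)
  have h4 : √T / √(N + b) = √T / √N * (√N / √(N + b)) := by field_simp
  have h5 : 1 - b / N / 2 ≤ √N / √(N + b) := by
    rw [le_div_iff₀ hq, div_div, one_sub_div (by positivity), div_mul_eq_mul_div,
      div_le_iff₀ (by positivity)]
    generalize √N = p at *
    generalize √(N + b) = q at *
    obtain rfl : b = q * q - p * p := by linarith
    rw [← h2]
    nlinarith [mul_nonneg (mul_nonneg (sub_nonneg.2 h1) (sub_nonneg.2 h1))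
      (show 0 ≤ q + 2 * p by positivity)]
  have h6 := mul_le_mul_of_nonneg_left h5 (div_nonneg (Real.sqrt_nonneg T) hp.le)
  rw [Real.sqrt_div' _ hN.le, Real.sqrt_div' _ (show 0 ≤ N + b by linarith), sub_div, h4]
  linarith

lemma li_jac (h : IsMet D) {μ μ' : Y → ℝ} (hμ : ∀ w, 0 < μ w) (hle : ∀ w, μ w ≤ μ' w) (y : Y)
    {R : ℝ} (hR : 0 ≤ R) : jac (rstr μ (bl D y R)) (rstr μ' (bl D y R)) ≤
      Real.log (bm D μ' y R) - Real.log (bm D μ y R) := by
  have h1 := bm_pos h hμ y hR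
  have h2 : ∀ w, rstr μ (bl D y R) w ≤ rstr μ' (bl D y R) w := fun w => by
    unfold rstr
    split_ifs
    · exact hle w
    · rfl
  refine (jac_le_of h1 ?_ ?_).trans (li_log h1 (h1.trans_le (bm_mono_mu hle y R)))
  · simp only [min_eq_left (h2 _), sum_rstr_bl, le_refl]
  · simp only [max_eq_right (h2 _), sum_rstr_bl, le_refl]

lemma gl_nonneg (h : IsMet D) {σ : KD Y} (hσ : KInv D σ) (x : Y) {a : ℝ} (ha : 0 ≤ a) (y : Y) :
    0 ≤ gl D m σ.mu (addMu σ x a).mu y := by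
  have _ := h
  have _ := hσ
  exact div_nonneg (sum_nonneg fun i _ => div_nonneg (li_tent x ha y) (Real.sqrt_nonneg _))
    (Nat.cast_nonneg _)

lemma gw_nonneg (h : IsMet D) {σ : KD Y} (hσ : KInv D σ) (x : Y) {a : ℝ} (ha : 0 ≤ a) (y : Y) :
    0 ≤ gw D σ.mu (addMu σ x a).mu y := by
  have _ := h
  have _ := hσ
  exact div_nonneg (li_tent x ha y) (Real.sqrt_nonneg _)

lemma wide_addMu (h : IsMet D) (σ : KD Y) (x : Y) (a : ℝ) (y : Y) :
    wide D (addMu σ x a).mu y = wide D σ.mu y + a / (1 + D y x) := by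
  have _ := h
  simp only [wide, li_mu, add_div, sum_add_distrib, ite_div, zero_div, sum_ite_eq', mem_univ,
    if_true]

lemma bm_addMu (σ : KD Y) (x : Y) (a : ℝ) (y : Y) (R : ℝ) :
    bm D (addMu σ x a).mu y R = bm D σ.mu y R + if D y x ≤ R then a else 0 := by
  simp only [bm, li_mu, sum_add_distrib, sum_ite_eq', mem_bl]

lemma tent_addMu (σ : KD Y) (x : Y) (a : ℝ) (y : Y) :
    tent D (addMu σ x a).mu y = tent D σ.mu y + a * (max 0 (1 - 16 * D y x)) ^ 2 := by
  simp only [tent, li_mu, add_mul, sum_add_distrib, ite_mul, zero_mul, sum_ite_eq', mem_univ,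
    if_true]

/-- Write `u ≤ u''` for `bm y (rad i)` before and after, `κ = 1/(1 + D y x)`.
* `log (2N'') - log (2N) ≤ a κ / N`;
* `√(T''/u'') - √(T/u) = (√T'' - √T)/√u'' - √(T/u) (1 - √(u/u'')) ≥ gl_i - (1/2) log (u''/u)`
  (`T ≤ u`, `1 - √v ≤ -(1/2) log v`);
* `sh - sh'' = sh (1 - √(N/N'')) - gw ≤ sh a κ/(2N) - gw`;
* `rel ≤ ∑ nuR · avg log (u''/u)` (`rel_setMu_le`, `jac ≤ 1 - u/u'' ≤ log (u''/u)`).
The three `log (u''/u)` terms cancel: `2 (-1 + 1/2) + 1 = 0`.  The kings do not change. -/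
lemma insert_ineq (c : Ctx k D m η ν) {σ : KD Y} (hσ : KInv D σ) (x : Y) {a : ℝ} (ha : 0 ≤ a) :
    2 * Psi D m η ν (addMu σ x a) + rel D m ν σ (addMu σ x a) ≤
      2 * Psi D m η ν σ + 4 * a * dom D η ν σ x -
        2 * ∑ y, nuR D η ν σ y * gl D m σ.mu (addMu σ x a).mu y -
        2 * ∑ y, nuL D η ν σ y * gw D σ.mu (addMu σ x a).mu y := by
  have h := c.met
  have hσ' := hσ.addMu x ha
  have hr : ∀ i, 0 ≤ rad m i := fun i => by linarith [rad_ge m i]
  have h1 := rel_setMu_le c hσ hσ'.pos (fun y i => Real.log (bm D (addMu σ x a).mu y (rad m i)) -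
    Real.log (bm D σ.mu y (rad m i))) fun y i _ => li_jac h hσ.pos (li_le σ x ha) y (hr i)
  refine (add_le_add_right h1 _).trans ?_
  change 2 * ∑ y, (nuR D η ν σ y * psiR D m (addMu σ x a).mu y +
    nuL D η ν σ y * psiL D (addMu σ x a).mu y) + _ ≤ _
  rw [Psi, dom, mul_sum, mul_sum, mul_sum, mul_sum, mul_sum, ← sum_add_distrib, ← sum_add_distrib,
    ← sum_sub_distrib, ← sum_sub_distrib]
  refine sum_le_sum fun y _ => ?_
  have hN := wide_pos h hσ.pos y
  have hd := h.nonneg y x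
  have hb : 0 ≤ a / (1 + D y x) := by positivity
  have hR := c.ηpos.le.trans (eta_le_nuR c σ y)
  have hL := hR.trans (nuR_le_nuL c σ y)
  have a1 := div_le_div_of_nonneg_right (sum_le_sum fun i (_ : i ∈ range m) =>
    li_s1 (T' := tent D (addMu σ x a).mu y) (bm_pos h hσ.pos y (hr i))
      ((tent_le_bm h (fun w => (hσ.pos w).le) y).trans (bm_le_bm h (fun w => (hσ.pos w).le)
        (by rw [h.self]; linarith [rad_ge m i]))) (bm_mono_mu (li_le σ x ha) y _))
    (Nat.cast_nonneg m)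
  have a2 := li_s2 (T := tent D σ.mu y) (T' := tent D (addMu σ x a).mu y) hN hb
  have a3 : Real.log (2 * wide D (addMu σ x a).mu y) - Real.log (2 * wide D σ.mu y) ≤
      a / (1 + D y x) / wide D σ.mu y := by
    rw [wide_addMu h, ← Real.log_div (by positivity) (by positivity)]
    refine (Real.log_le_sub_one_of_pos (by positivity)).trans (le_of_eq ?_)
    field_simp
    ring
  rw [← wide_addMu h] at a2
  have e : 4 * a * (vp D η ν σ y / ((1 + D y x) * wide D σ.mu y)) =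
      4 * vp D η ν σ y * (a / (1 + D y x) / wide D σ.mu y) := by field_simp
  have a4 := mul_nonneg hR (div_nonneg hb hN.le)
  rw [e]
  simp only [sum_sub_distrib, ← mul_sum, sub_div, mul_div_assoc] at a1
  simp only [psiR, psiL, vp, gl, gw, sh, sum_sub_distrib, sub_div] at a2 ⊢
  linarith [mul_le_mul_of_nonneg_left a1 hR, mul_le_mul_of_nonneg_left a2 hL,
    mul_le_mul_of_nonneg_left a3 hR]

/-- paid insertion (drop the gains) -/
lemma insert_paid (c : Ctx k D m η ν) {σ : KD Y} (hσ : KInv D σ) (x : Y) {a : ℝ} (ha : 0 ≤ a) :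
    rel D m ν σ (addMu σ x a) + Pot D m η ν (addMu σ x a) ≤
      Pot D m η ν σ + 4 * a * dom D η ν σ x := by
  have h1 := insert_ineq c hσ x ha
  have hR := fun y => c.ηpos.le.trans (eta_le_nuR c σ y)
  have h2 := sum_nonneg fun y (_ : y ∈ univ) =>
    mul_nonneg (hR y) (gl_nonneg (m := m) c.met hσ x ha y)
  have h3 := sum_nonneg fun y (_ : y ∈ univ) =>
    mul_nonneg ((hR y).trans (nuR_le_nuL c σ y)) (gw_nonneg c.met hσ x ha y)
  change _ + (2 * Psi D m η ν (addMu σ x a) + KK * ∑ a ∈ σ.alive, PK D ν (σ.cen a)) ≤ _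
  rw [Pot]
  linarith

end Crest.Agent.R314
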