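import Crest.Agent.R314.LScale
import Crest.Agent.R314.LInsert

/-!
# Part D: at a stationary state there is enough weight next to every mass
-/

set_option autoImplicit false

open Finset

namespace Crest.Agent.R314

universe u

variable {Y : Type u} [Fintype Y] [DecidableEq Y] {k m : ℕ} {D : Y → Y → ℝ} {η : ℝ} {ν : Y → ℝ}

lemma ld_gain {T T' N N' β : ℝ} (hβ : 0 ≤ β) (hN : 0 < N) (h1 : T ≤ N * (β / 4) ^ 2)
    (h2 : β ^ 2 * N / 4 ≤ T') (h3 : 0 < N') (h4 : N' ≤ 4 * N) : β / 8 ≤ (√T' - √T) / √N' := by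
  have hp := Real.sqrt_pos.2 hN
  have e := Real.sq_sqrt hN.le
  have a1 : √T ≤ β / 4 * √N := Real.sqrt_le_iff.2 ⟨by positivity, by rw [mul_pow, e]; linarith⟩
  have a2 : β / 2 * √N ≤ √T' := Real.le_sqrt_of_sq_le (by rw [mul_pow, e]; linarith)
  have a3 : √N' ≤ 2 * √N := Real.sqrt_le_iff.2 ⟨by positivity, by rw [mul_pow, e]; linarith⟩
  rw [le_div_iff₀ (Real.sqrt_pos.2 h3)]
  nlinarith

lemma ld_tent (h : IsMet D) {σ : KD Y} (hσ : KInv D σ) {x y : Y} (hxy : D x y ≤ 1 / 32) {a : ℝ}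
    (ha : 0 ≤ a) : tent D σ.mu y ≤ bm D σ.mu x (3 / 32) ∧ a / 4 ≤ tent D (addMu σ x a).mu y := by
  have hμ : ∀ w, 0 ≤ σ.mu w := fun w => (hσ.pos w).le
  refine ⟨(tent_le_bm h hμ y).trans (bm_le_bm h hμ (by linarith)), ?_⟩
  have h1 : 1 / 2 ≤ max 0 (1 - 16 * D y x) := le_max_of_le_right (by linarith [h.symm x y])
  have h2 := mul_le_mul_of_nonneg_left (pow_le_pow_left₀ (by norm_num) h1 2) ha
  rw [tent_addMu]
  linarith [tent_nonneg (D := D) hμ y]

omit [DecidableEq Y] in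
lemma ld_sum {w g : Y → ℝ} (hw : ∀ y, 0 ≤ w y) (hg : ∀ y, 0 ≤ g y) {x : Y} {R b : ℝ}
    (h : ∀ y, D x y ≤ R → b ≤ g y) : bm D w x R * b ≤ ∑ y, w y * g y := by
  rw [bm, sum_mul]
  exact (sum_le_sum fun y hy => mul_le_mul_of_nonneg_left (h y (mem_bl.1 hy)) (hw y)).trans
    (sum_le_sum_of_subset_of_nonneg (subset_univ _) fun y _ _ => mul_nonneg (hw y) (hg y))

lemma ld_log {N b L V c : ℝ} (hN : 0 < N) (hL : 0 < L) (hV : 0 < V) (hc : 0 < c)
    (h : N * (V / (c * L)) ^ 2 ≤ b) :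
    Real.log (N / b) ≤ Real.log (c ^ 2) + 2 * Real.log (L / V) := by
  have hb : 0 < b := lt_of_lt_of_le (by positivity) h
  have h1 := Real.log_le_log (by positivity) h
  rw [Real.log_mul hN.ne' (by positivity), Real.log_pow, Real.log_div hV.ne' (by positivity),
    Real.log_mul hc.ne' hL.ne'] at h1
  rw [Real.log_div hN.ne' hb.ne', Real.log_div hL.ne' hV.ne', Real.log_pow]
  push_cast at h1 ⊢
  linarith

lemma ld_exp {t : ℝ} (n : ℕ) (ht : 0 < t) (h : t ≤ 2.7 ^ n) : Real.log t ≤ n := by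
  rw [Real.log_le_iff_le_exp ht, ← Real.exp_one_pow]
  exact h.trans (pow_le_pow_left₀ (by norm_num) (by linarith [Real.exp_one_gt_d9]) n)

omit [DecidableEq Y] in
lemma ld_pos (c : Ctx k D m η ν) (σ : KD Y) (y : Y) :
    0 < nuR D η ν σ y ∧ 0 < nuL D η ν σ y :=
  ⟨c.ηpos.trans_le (eta_le_nuR c σ y),
    (c.ηpos.trans_le (eta_le_nuR c σ y)).trans_le (nuR_le_nuL c σ y)⟩

lemma ld_end {V L e : ℝ} (hη : 0 < η) (he : 0 ≤ e) (hs : e * (4096 * (k + 1)) < η ^ 2)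
    (hV : η ≤ V) (hL0 : 0 < L) (hL : L ≤ k + 1) : e < V * (V / (512 * L)) / 8 := by
  rw [← mul_div_assoc, div_div, lt_div_iff₀ (by positivity)]
  nlinarith

/-- Let `V = bm nuL x (1/32) ≥ η`, `L = wide nuL x ≤ k+1`, `N = wide μ x`, `β = V/(416 L) ≤ 1`
(`V ≤ (33/32) L`), `a = β² N`.  Suppose `bm μ x (3/32) < (β/4)² N`.  For `D x y ≤ 1/32`:
`T''(y) ≥ a/4`, `T(y) ≤ bm μ y (1/16) ≤ bm μ x (3/32)`, `N''(y) ≤ (33/32) N + a ≤ 4N`, so
`gw y ≥ β/8`.  `Stat` applied to `(addMu σ x a).mu`, `insert_ineq`, `dom_wide` give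
`V β/4 ≤ 52 β² L + e`, i.e. `V²/(3328 L) ≤ e`, contradicting `hS.small`. -/
lemma f2w (c : Ctx k D m η ν) {σ : KD Y} (hσ : KInv D σ) {e : ℝ} (hS : Stat k D m η ν σ e)
    (x : Y) :
    wide D σ.mu x * (bm D (nuL D η ν σ) x (1 / 32) / (1664 * wide D (nuL D η ν σ) x)) ^ 2 ≤
      bm D σ.mu x (3 / 32) := by
  have h := c.met
  have hμ : ∀ w, 0 ≤ σ.mu w := fun w => (hσ.pos w).le
  have hL := fun y => (ld_pos c σ y).2
  have hL' := fun y => (hL y).le
  have hN := wide_pos h hσ.pos x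
  have a1 := wide_pos h hL x
  have a2 := (wide_le_sum h hL' x).trans (sum_nuL_le c σ)
  have a3 := ((eta_le_nuR c σ x).trans (nuR_le_nuL c σ x)).trans
    (le_bm h hL' (x := x) (R := 1 / 32) (by rw [h.self]; norm_num))
  have a4 := bm_le_wide h hL' x (R := 1 / 32) (by norm_num)
  have a5 := dom_wide c hσ hS x
  have a6 := ld_end c.ηpos hS.e0 hS.small a3 a1 a2
  have hV := c.ηpos.trans_le a3
  generalize hV' : bm D (nuL D η ν σ) x (1 / 32) = V at *
  generalize wide D (nuL D η ν σ) x = L at *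
  obtain ⟨β, hβ⟩ : ∃ β, β = V / (416 * L) := ⟨_, rfl⟩
  have hβ0 : 0 < β := by rw [hβ]; positivity
  have hβL : β * (416 * L) = V := by rw [hβ]; field_simp
  have hβ1 : β ≤ 1 := by
    rw [hβ, div_le_one (by positivity)]
    linarith
  have hβ2 : V / (512 * L) ≤ β := by
    rw [hβ]
    gcongr
    norm_num
  have e1 : V / (1664 * L) = β / 4 := by
    rw [hβ]
    field_simp
    norm_num
  rw [e1]
  by_contra hlt
  have ha : 0 ≤ β ^ 2 * wide D σ.mu x := by positivity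
  have hσ' := hσ.addMu x ha
  have b1 := hS.stat _ hσ'.pos
  have b2 := insert_ineq c hσ x ha
  have b3 := sum_nonneg fun y (_ : y ∈ univ) =>
    mul_nonneg (ld_pos c σ y).1.le (gl_nonneg (m := m) h hσ x ha y)
  have b4 := ld_sum hL' (gw_nonneg h hσ x ha) (x := x) (R := 1 / 32) (b := β / 8) fun y hy => by
    obtain ⟨t1, t2⟩ := ld_tent h hσ hy ha
    refine ld_gain hβ0.le hN (t1.trans (not_le.1 hlt).le) t2 (wide_pos h hσ'.pos y) ?_
    have t3 := wide_le_mul h hμ x y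
    have t4 := div_le_self ha (show 1 ≤ 1 + D y x by linarith [h.nonneg y x])
    have t5 : β ^ 2 ≤ 1 := pow_le_one₀ hβ0.le hβ1
    rw [wide_addMu h]
    nlinarith
  rw [hV'] at b4
  change _ ≤ 2 * Psi D m η ν (addMu σ x _) + rel D m ν σ (addMu σ x _) + e at b1
  have b5 := mul_le_mul_of_nonneg_left a5 (sq_nonneg β)
  have b6 := mul_le_mul_of_nonneg_left hβ2 hV.le
  have b7 : β ^ 2 * (13 * L) = V * β / 32 := by
    rw [← hβL]
    ring
  linarith

/-- Same with `V = bm nuR x (1/32)`, `H = bm nuL x (3/2)`, `μ₁ = bm μ x 1`, `β = V/(512 H) ≤ 1`,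
`a = β² μ₁`: for `D x y ≤ 1/32` every `bm'' y (rad i) ≤ μ₁ + a ≤ 2 μ₁`, so `gl y ≥ β/8` if
`bm μ x (3/32) < (β/4)² μ₁`; `dom_local` gives `V β/4 ≤ 64 β² H + e`, i.e. `V²/(4096 H) ≤ e`. -/
lemma f2l (c : Ctx k D m η ν) {σ : KD Y} (hσ : KInv D σ) {e : ℝ} (hS : Stat k D m η ν σ e)
    (x : Y) :
    bm D σ.mu x 1 * (bm D (nuR D η ν σ) x (1 / 32) / (2048 * bm D (nuL D η ν σ) x (3 / 2))) ^ 2 ≤
      bm D σ.mu x (3 / 32) := by
  have h := c.met
  have hμ : ∀ w, 0 ≤ σ.mu w := fun w => (hσ.pos w).le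
  have hR := fun y => (ld_pos c σ y).1.le
  have hL := fun y => (ld_pos c σ y).2
  have hL' := fun y => (hL y).le
  have hN := bm_pos h hσ.pos x zero_le_one
  have a1 := bm_pos h hL x (R := 3 / 2) (by norm_num)
  have a2 := (bm_le_sum (D := D) hL' x (3 / 2)).trans (sum_nuL_le c σ)
  have a3 := (eta_le_nuR c σ x).trans
    (le_bm h hR (x := x) (R := 1 / 32) (by rw [h.self]; norm_num))
  have a4 := (bm_mono_mu (D := D) (nuR_le_nuL c σ) x (1 / 32)).trans
    (bm_le_bm h hL' (x := x) (R' := 3 / 2) (by rw [h.self]; norm_num))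
  have a5 := dom_local c hσ hS x
  have a6 := ld_end c.ηpos hS.e0 hS.small a3 a1 a2
  have hV := c.ηpos.trans_le a3
  generalize hV' : bm D (nuR D η ν σ) x (1 / 32) = V at *
  generalize bm D (nuL D η ν σ) x (3 / 2) = L at *
  obtain ⟨β, hβ⟩ : ∃ β, β = V / (512 * L) := ⟨_, rfl⟩
  have hβ0 : 0 < β := by rw [hβ]; positivity
  have hβL : β * (512 * L) = V := by rw [hβ]; field_simp
  have hβ1 : β ≤ 1 := by
    rw [hβ, div_le_one (by positivity)]
    linarith
  have e1 : V / (2048 * L) = β / 4 := by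
    rw [hβ]
    field_simp
    norm_num
  rw [e1]
  rw [← hβ] at a6
  by_contra hlt
  have ha : 0 ≤ β ^ 2 * bm D σ.mu x 1 := by positivity
  have hσ' := hσ.addMu x ha
  have b1 := hS.stat _ hσ'.pos
  have b2 := insert_ineq c hσ x ha
  have b3 := sum_nonneg fun y (_ : y ∈ univ) => mul_nonneg (hL' y) (gw_nonneg h hσ x ha y)
  have b4 := ld_sum hR (gl_nonneg (m := m) h hσ x ha) (x := x) (R := 1 / 32) (b := β / 8)
    fun y hy => lb_le_avg c.mpos fun i hi => by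
      obtain ⟨t1, t2⟩ := ld_tent h hσ hy ha
      refine ld_gain hβ0.le hN (t1.trans (not_le.1 hlt).le) t2
        (bm_pos h hσ'.pos y (by linarith [rad_ge m i])) ?_
      have t3 := bm_le_bm h hμ (x := x) (y := y) (R := rad m i) (R' := 1) (by linarith [rad_lt hi])
      have t5 : β ^ 2 ≤ 1 := pow_le_one₀ hβ0.le hβ1
      rw [bm_addMu]
      split_ifs <;> nlinarith
  rw [hV'] at b4
  change _ ≤ 2 * Psi D m η ν (addMu σ x _) + rel D m ν σ (addMu σ x _) + e at b1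
  have b5 := mul_le_mul_of_nonneg_left a5 (sq_nonneg β)
  have b7 : β ^ 2 * (16 * L) = V * β / 32 := by
    rw [← hβL]
    ring
  linarith

/-- logarithmic form of `f2w` (`2 log 1664 ≤ 15`) -/
lemma log_wide_le (c : Ctx k D m η ν) {σ : KD Y} (hσ : KInv D σ) {e : ℝ}
    (hS : Stat k D m η ν σ e) (x : Y) :
    Real.log (wide D σ.mu x / bm D σ.mu x (3 / 32)) ≤
      15 + 2 * Real.log (wide D (nuL D η ν σ) x / bm D (nuL D η ν σ) x (1 / 32)) := by
  have hL := fun y => (ld_pos c σ y).2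
  have h1 := ld_log (wide_pos c.met hσ.pos x) (wide_pos c.met hL x)
    (bm_pos c.met hL x (by norm_num)) (by norm_num) (f2w c hσ hS x)
  have h2 := ld_exp (t := 1664 ^ 2) 15 (by norm_num) (by norm_num)
  exact h1.trans (add_le_add_left (h2.trans (by norm_num)) _)

/-- logarithmic form of `f2l` (`2 log 2048 ≤ 16`) -/
lemma log_local_le (c : Ctx k D m η ν) {σ : KD Y} (hσ : KInv D σ) {e : ℝ}
    (hS : Stat k D m η ν σ e) (x : Y) :
    Real.log (bm D σ.mu x 1 / bm D σ.mu x (3 / 32)) ≤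
      16 + 2 * Real.log (bm D (nuL D η ν σ) x (3 / 2) / bm D (nuR D η ν σ) x (1 / 32)) := by
  have h1 := ld_log (bm_pos c.met hσ.pos x zero_le_one)
    (bm_pos c.met (fun y => (ld_pos c σ y).2) x (by norm_num))
    (bm_pos c.met (fun y => (ld_pos c σ y).1) x (by norm_num)) (by norm_num) (f2l c hσ hS x)
  have h2 := ld_exp (t := 2048 ^ 2) 16 (by norm_num) (by norm_num)
  exact h1.trans (add_le_add_left (h2.trans (by norm_num)) _)

/-- `psiR_le` with `a = bm μ x (3/32) ≤ bm μ y (1/4)`, `N(y) ≤ 2 N(x)`, and `log_wide_le` -/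
lemma psiR_stat (c : Ctx k D m η ν) {σ : KD Y} (hσ : KInv D σ) {e : ℝ}
    (hS : Stat k D m η ν σ e) {x y : Y} (hxy : D x y ≤ 1 / 8) :
    psiR D m σ.mu y ≤
      18 + 2 * Real.log (wide D (nuL D η ν σ) x / bm D (nuL D η ν σ) x (1 / 32)) := by
  have h := c.met
  have hμ : ∀ w, 0 ≤ σ.mu w := fun w => (hσ.pos w).le
  have h1 := bm_pos h hσ.pos x (R := 3 / 32) (by norm_num)
  have h2 := psiR_le h c.mpos hσ.pos y h1 (bm_le_bm h hμ (by linarith [h.symm x y]))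
  have h3 := log_wide_le c hσ hS x
  have h4 := wide_le_mul h hμ x y
  have h5 := wide_pos h hσ.pos x
  have h6 := wide_pos h hσ.pos y
  have h7 : Real.log (2 * wide D σ.mu y / bm D σ.mu x (3 / 32)) ≤
      Real.log (4 * (wide D σ.mu x / bm D σ.mu x (3 / 32))) := by
    refine Real.log_le_log (by positivity) ?_
    rw [← mul_div_assoc]
    exact div_le_div_of_nonneg_right (by nlinarith) h1.le
  have h8 := ld_exp (t := 4) 2 (by norm_num) (by norm_num)
  rw [Real.log_mul (by norm_num) (by positivity)] at h7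
  push_cast at h8
  linarith

end Crest.Agent.R314
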