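import Crest.Agent.R314.LJac

/-!
# Part D: scaling weights down is not profitable
-/

set_option autoImplicit false

open Finset

namespace Crest.Agent.R314

universe u

variable {Y : Type u} [Fintype Y] [DecidableEq Y] {k m : ℕ} {D : Y → Y → ℝ} {η : ℝ} {ν : Y → ℝ}

lemma ls_log {b b' U : ℝ} (hb : 0 < b) (h0 : 0 ≤ U) (h1 : U ≤ 1 / 2) (h : (1 - U) * b ≤ b') :
    Real.log b - Real.log b' ≤ 2 * U := by
  have hb' : 0 < b' := (mul_pos (by linarith) hb).trans_le h
  rw [← Real.log_div hb.ne' hb'.ne']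
  refine (Real.log_le_sub_one_of_pos (div_pos hb hb')).trans ?_
  rw [sub_le_iff_le_add, div_le_iff₀ hb']
  nlinarith [mul_le_mul_of_nonneg_left h (show 0 ≤ 2 * U + 1 by linarith),
    mul_nonneg (mul_nonneg h0 (sub_nonneg.2 h1)) hb.le]

lemma ls_s1 {T T' b b' U : ℝ} (hb' : 0 < b') (hbb : b' ≤ b) (hT : 0 ≤ T) (hTb : T ≤ b) (h0 : 0 ≤ U)
    (h1 : U ≤ 1 / 2) (h : (1 - U) * T ≤ T') : √(T / b) - √(T' / b') ≤ U := by
  have hb : 0 < b := hb'.trans_le hbb
  have h2 : √(T / b) ≤ 1 := Real.sqrt_le_one.2 ((div_le_one hb).2 hTb)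
  have h3 : (1 - U) * √(T / b) ≤ √(T' / b') := by
    refine Real.le_sqrt_of_sq_le ?_
    rw [mul_pow, Real.sq_sqrt (by positivity), ← mul_div_assoc]
    have h4 : 0 ≤ (1 - U) * T := mul_nonneg (by linarith) hT
    exact div_le_div₀ (h4.trans h) (by nlinarith) hb' hbb
  nlinarith

lemma ls_s2 {T T' N n U : ℝ} (hN : 0 < N) (hn : 0 ≤ n) (hN' : 0 < N - n) (hT : 0 ≤ T) (h0 : 0 ≤ U)
    (h1 : U ≤ 1 / 2) (h : (1 - U) * T ≤ T') (h2 : √(T / N) ≤ 2) :
    √(T / N) - √(T' / (N - n)) ≤ 2 * U - √(T / N) * (n / N) / 4 := by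
  obtain ⟨v, rfl⟩ : ∃ v, n = v * N := ⟨n / N, by field_simp⟩
  have hv : 0 ≤ v := nonneg_of_mul_nonneg_left hn hN
  rw [mul_div_cancel_right₀ _ hN.ne']
  have h3 : (1 - U) * (1 + v / 2) * √(T / N) ≤ √(T' / (N - v * N)) := by
    refine Real.le_sqrt_of_sq_le ?_
    rw [mul_pow, Real.sq_sqrt (by positivity), le_div_iff₀ hN']
    have h4 : 0 ≤ (1 - U) * T := mul_nonneg (by linarith) hT
    have h5 : (1 + v / 2) ^ 2 * (1 - v) ≤ 1 := by nlinarith [sq_nonneg v, mul_nonneg hv (sq_nonneg v)]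
    have h6 : (1 - U) ^ 2 * T ≤ T' := by nlinarith
    calc _ = (1 - U) ^ 2 * T * ((1 + v / 2) ^ 2 * (1 - v)) := by field_simp
      _ ≤ (1 - U) ^ 2 * T := mul_le_of_le_one_right (by positivity) h5
      _ ≤ T' := h6
  have h4 := Real.sqrt_nonneg (T / N)
  nlinarith [mul_nonneg (mul_nonneg h4 hv) (sub_nonneg.2 h1), mul_le_mul_of_nonneg_left h2 h0]

omit [DecidableEq Y] in
lemma ls_e_le (c : Ctx k D m η ν) {σ : KD Y} {e : ℝ} [DecidableEq Y] (hS : Stat k D m η ν σ e)
    (x : Y) : e ≤ nuL D η ν σ x := by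
  have h1 : (1 : ℝ) ≤ Fintype.card Y := by exact_mod_cast Fintype.card_pos_iff.2 ⟨x⟩
  have h2 := c.ηpos
  have h3 : η ≤ 1 := by nlinarith [c.ηcard]
  have h4 := hS.small
  have h5 := hS.e0
  have h6 : (0 : ℝ) ≤ k := Nat.cast_nonneg k
  have h7 : e ≤ η := by nlinarith [mul_nonneg h5 h6]
  exact h7.trans ((eta_le_nuR c σ x).trans (nuR_le_nuL c σ x))

lemma ls_vp (c : Ctx k D m η ν) {σ : KD Y} (hσ : KInv D σ) (y : Y) :
    0 ≤ vp D η ν σ y ∧ vp D η ν σ y ≤ 3 / 2 * nuL D η ν σ y := by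
  have hR := c.ηpos.le.trans (eta_le_nuR c σ y)
  have hRL := nuR_le_nuL c σ y
  have h1 := mul_nonneg (hR.trans hRL) (sh_nonneg (D := D) σ.mu y)
  have h2 := mul_le_mul_of_nonneg_left (sh_le_two c.met hσ.pos y) (hR.trans hRL)
  unfold vp
  constructor <;> linarith

/-- Test `Stat` with `μ'' w = μ w (1 - u w)` (`u w ≤ U w ≤ 1/2`).  Put `v y = N^u(y)/N(y) ∈ [0,1/2]`,
`N^u = wide D (μ u)`, so `N'' = N (1 - v)`.  All radii are `≤ 1/2`, so `bm'' ≥ (1-U) bm`,
`T'' ≥ (1-U) T`, `bm'' ≤ bm`.  Then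
* `psiR'' - psiR ≤ -v + 2U + U` (`log (1-v) ≤ -v`, `-log (1-U) ≤ 2U`,
  `√(T''/bm'') ≥ (1-U) √(T/bm)` and `T ≤ bm`);
* `psiL'' - psiL = sh - sh'' ≤ 2U - sh v/4` (`sh'' ≥ (1-U) sh (1 + v/2)`, `sh ≤ 2`);
* `rel ≤ ∑ nuR U` (`rel_setMu_le`, `jac ≤ U`).
Hence `2 ∑ vp v ≤ 11 ∑ nuL U + e` using `nuR ≤ nuL`. -/
lemma scale_down (c : Ctx k D m η ν) {σ : KD Y} (hσ : KInv D σ) {e : ℝ}
    (hS : Stat k D m η ν σ e) (u U : Y → ℝ) (hu : ∀ w, 0 ≤ u w) (hU : ∀ y, U y ≤ 1 / 2)
    (huU : ∀ y w, D y w ≤ 1 / 2 → u w ≤ U y) :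
    ∑ y, vp D η ν σ y * (wide D (fun w => σ.mu w * u w) y / wide D σ.mu y) ≤
      6 * ∑ y, nuL D η ν σ y * U y + e := by
  have h := c.met
  have hu2 : ∀ w, u w ≤ 1 / 2 := fun w => (huU w w (by rw [h.self]; norm_num)).trans (hU w)
  have hU0 : ∀ y, 0 ≤ U y := fun y => (hu y).trans (huU y y (by rw [h.self]; norm_num))
  have hμ := hσ.pos
  have hμ' : ∀ w, 0 < σ.mu w * (1 - u w) := fun w => mul_pos (hμ w) (by linarith [hu2 w])
  have hle : ∀ w, σ.mu w * (1 - u w) ≤ σ.mu w := fun w =>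
    mul_le_of_le_one_right (hμ w).le (by linarith [hu w])
  have hr : ∀ i, 0 ≤ rad m i := fun i => by linarith [rad_ge m i]
  have hb : ∀ y, ∀ i < m, (1 - U y) * bm D σ.mu y (rad m i) ≤
      bm D (fun w => σ.mu w * (1 - u w)) y (rad m i) := fun y i hi => by
    rw [bm, bm, mul_sum]
    refine sum_le_sum fun w hw => ?_
    have := huU y w ((mem_bl.1 hw).trans (rad_lt hi).le)
    nlinarith [hμ w]
  have hT : ∀ y, (1 - U y) * tent D σ.mu y ≤ tent D (fun w => σ.mu w * (1 - u w)) y := fun y => by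
    rw [tent, tent, mul_sum]
    refine sum_le_sum fun w _ => ?_
    by_cases hw : D y w ≤ 1 / 2
    · rw [← mul_assoc]
      refine mul_le_mul_of_nonneg_right ?_ (sq_nonneg _)
      nlinarith [hμ w, huU y w hw]
    · rw [max_eq_left (by linarith [not_le.1 hw])]
      simp
  have h1 := rel_setMu_le c hσ hμ' (fun y _ => U y) fun y i hi => by
    have h1 := bm_pos h hμ y (hr i)
    have h2 : ∀ w, rstr (fun w => σ.mu w * (1 - u w)) (bl D y (rad m i)) w ≤
        rstr σ.mu (bl D y (rad m i)) w := fun w => by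
      unfold rstr
      split_ifs
      · exact hle w
      · rfl
    refine (jac_le_of (lo := (1 - U y) * bm D σ.mu y (rad m i)) (hi := bm D σ.mu y (rad m i))
      (mul_pos (by linarith [hU y]) h1) ?_ ?_).trans (le_of_eq ?_)
    · simp only [min_eq_right (h2 _), sum_rstr_bl]
      exact hb y i hi
    · simp only [max_eq_left (h2 _), sum_rstr_bl, le_refl]
    · field_simp
      ring
  have h2 := hS.stat _ hμ'
  have h3 : 2 * Psi D m η ν (setMu σ fun w => σ.mu w * (1 - u w)) +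
      ∑ y, nuR D η ν σ y * ((∑ _i ∈ range m, U y) / m) +
      2 * ∑ y, vp D η ν σ y * (wide D (fun w => σ.mu w * u w) y / wide D σ.mu y) ≤
      2 * Psi D m η ν σ + 11 * ∑ y, nuL D η ν σ y * U y := by
    change 2 * ∑ y, (nuR D η ν σ y * psiR D m (fun w => σ.mu w * (1 - u w)) y +
      nuL D η ν σ y * psiL D (fun w => σ.mu w * (1 - u w)) y) + _ + _ ≤ _
    rw [Psi, mul_sum, mul_sum, mul_sum, mul_sum, ← sum_add_distrib, ← sum_add_distrib,
      ← sum_add_distrib]
    refine sum_le_sum fun y _ => ?_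
    have hN := wide_pos h hμ y
    have hN' := wide_pos h hμ' y
    have hR := c.ηpos.le.trans (eta_le_nuR c σ y)
    have hRL := nuR_le_nuL c σ y
    have hL := hR.trans hRL
    have hw : wide D (fun w => σ.mu w * (1 - u w)) y =
        wide D σ.mu y - wide D (fun w => σ.mu w * u w) y := by
      rw [wide, wide, wide, ← sum_sub_distrib]
      exact sum_congr rfl fun w _ => by ring
    have hv0 := wide_nonneg h (fun w => mul_nonneg (hμ w).le (hu w)) y
    have a0 : (∑ _i ∈ range m, U y) / m ≤ U y := lb_avg_le c.mpos fun _ _ => le_rfl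
    have a1 : (∑ i ∈ range m, (Real.log (bm D σ.mu y (rad m i)) -
        Real.log (bm D (fun w => σ.mu w * (1 - u w)) y (rad m i)))) / m ≤ 2 * U y :=
      lb_avg_le c.mpos fun i hi => ls_log (bm_pos h hμ y (hr i)) (hU0 y) (hU y) (hb y i hi)
    have a2 : (∑ i ∈ range m, (√(tent D σ.mu y / bm D σ.mu y (rad m i)) -
        √(tent D (fun w => σ.mu w * (1 - u w)) y /
          bm D (fun w => σ.mu w * (1 - u w)) y (rad m i)))) / m ≤ U y :=
      lb_avg_le c.mpos fun i _ => ls_s1 (bm_pos h hμ' y (hr i)) (bm_mono_mu hle y _)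
        (tent_nonneg (fun w => (hμ w).le) y)
        ((tent_le_bm h (fun w => (hμ w).le) y).trans (bm_le_bm h (fun w => (hμ w).le)
          (by rw [h.self]; linarith [rad_ge m i]))) (hU0 y) (hU y) (hT y)
    have a3 : Real.log (2 * wide D (fun w => σ.mu w * (1 - u w)) y) - Real.log (2 * wide D σ.mu y) ≤
        -(wide D (fun w => σ.mu w * u w) y / wide D σ.mu y) := by
      rw [← Real.log_div (by positivity) (by positivity)]
      refine (Real.log_le_sub_one_of_pos (by positivity)).trans (le_of_eq ?_)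
      rw [hw]
      field_simp
      ring
    have a4 := ls_s2 hN hv0 (hw ▸ hN') (tent_nonneg (fun w => (hμ w).le) y) (hU0 y) (hU y) (hT y)
      (sh_le_two h hμ y)
    rw [← hw] at a4
    have a5 := mul_le_mul_of_nonneg_right hRL (hU0 y)
    simp only [psiR, psiL, vp, sh, sum_sub_distrib, sub_div] at a1 a2 ⊢
    linarith [mul_le_mul_of_nonneg_left a0 hR, mul_le_mul_of_nonneg_left a1 hR,
      mul_le_mul_of_nonneg_left a2 hR, mul_le_mul_of_nonneg_left a3 hR,
      mul_le_mul_of_nonneg_left a4 hL]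
  have h4 : 0 ≤ ∑ y, nuL D η ν σ y * U y := sum_nonneg fun y _ =>
    mul_nonneg ((c.ηpos.le.trans (eta_le_nuR c σ y)).trans (nuR_le_nuL c σ y)) (hU0 y)
  linarith [hS.e0]

/-- With `κ t = 1/(1+t)`: `κ s κ t ≤ κ (s+t) (κ s + κ t)`, so
`N(x) dom x = ∑_y ∑_w vp y μ w κ(y,x) κ(x,w) / N(y) ≤ ∑_y vp y κ(y,x) + ∑_y vp y N^{u₀}(y)/N(y)`,
`u₀ w = κ(x,w)`.  Apply `scale_down` with `u = u₀/2`, `U y = min (1/2) ((3/4) κ(y,x))`; use
`vp ≤ (3/2) nuL` and `e ≤ η ≤ nuL x ≤ wide nuL x` (`hS.small`, `η ≤ 1`). -/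
lemma dom_wide (c : Ctx k D m η ν) {σ : KD Y} (hσ : KInv D σ) {e : ℝ}
    (hS : Stat k D m η ν σ e) (x : Y) :
    wide D σ.mu x * dom D η ν σ x ≤ 13 * wide D (nuL D η ν σ) x := by
  have h := c.met
  have hμ := hσ.pos
  have hL := fun y => (c.ηpos.le.trans (eta_le_nuR c σ y)).trans (nuR_le_nuL c σ y)
  have h1 := scale_down c hσ hS (fun w => 1 / 2 / (1 + D x w))
    (fun y => min (1 / 2) (3 / 4 / (1 + D x y)))
    (fun w => by have := h.nonneg x w; positivity) (fun y => min_le_left _ _) fun y w hyw => by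
      have a1 := h.nonneg x w
      have a2 := h.nonneg x y
      have a3 := h.tri x w y
      rw [h.symm w y] at a3
      refine le_min (div_le_self (by norm_num) (by linarith)) ?_
      rw [div_le_div_iff₀ (by positivity) (by positivity)]
      linarith
  have h2 : ∑ y, nuL D η ν σ y * min (1 / 2) (3 / 4 / (1 + D x y)) ≤
      3 / 4 * wide D (nuL D η ν σ) x := by
    rw [wide, mul_sum]
    refine sum_le_sum fun y _ => (mul_le_mul_of_nonneg_left (min_le_right _ _) (hL y)).trans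
      (le_of_eq (by ring))
  have h3 : e ≤ wide D (nuL D η ν σ) x := by
    have := bm_le_wide h hL x le_rfl
    linarith [ls_e_le c hS x, le_bm h hL (x := x) (w := x) (R := 0) (h.self x).le]
  have h4 : wide D σ.mu x * dom D η ν σ x ≤ 3 / 2 * wide D (nuL D η ν σ) x +
      2 * ∑ y, vp D η ν σ y * (wide D (fun w => σ.mu w * (1 / 2 / (1 + D x w))) y /
        wide D σ.mu y) := by
    rw [dom, wide.eq_1 D (nuL D η ν σ), mul_sum, mul_sum, mul_sum, ← sum_add_distrib]
    refine sum_le_sum fun y _ => ?_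
    have hN := wide_pos h hμ y
    have a2 := h.nonneg x y
    obtain ⟨b1, b2⟩ := ls_vp c hσ y
    have a1 : wide D σ.mu x / (1 + D x y) ≤ wide D σ.mu y / (1 + D x y) +
        2 * wide D (fun w => σ.mu w * (1 / 2 / (1 + D x w))) y := by
      rw [wide, wide, wide, sum_div, sum_div, mul_sum, ← sum_add_distrib]
      refine sum_le_sum fun w _ => ?_
      have a3 := h.nonneg x w
      have a4 := h.nonneg y w
      have a5 := h.tri y x w
      rw [h.symm y x] at a5
      have a6 := hμ w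
      rw [← sub_nonneg]
      have : σ.mu w / (1 + D y w) / (1 + D x y) + 2 * (σ.mu w * (1 / 2 / (1 + D x w)) / (1 + D y w)) -
          σ.mu w / (1 + D x w) / (1 + D x y) =
          σ.mu w * (1 + D x w + D x y - D y w) / ((1 + D y w) * (1 + D x y) * (1 + D x w)) := by
        field_simp
        ring
      rw [this]
      exact div_nonneg (mul_nonneg a6.le (by linarith)) (by positivity)
    rw [h.symm y x]
    calc _ = vp D η ν σ y / wide D σ.mu y * (wide D σ.mu x / (1 + D x y)) := by field_simp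
      _ ≤ vp D η ν σ y / wide D σ.mu y * (wide D σ.mu y / (1 + D x y) +
          2 * wide D (fun w => σ.mu w * (1 / 2 / (1 + D x w))) y) :=
        mul_le_mul_of_nonneg_left a1 (by positivity)
      _ = vp D η ν σ y / (1 + D x y) + 2 * (vp D η ν σ y *
          (wide D (fun w => σ.mu w * (1 / 2 / (1 + D x w))) y / wide D σ.mu y)) := by field_simp
      _ ≤ _ := by
        rw [← mul_div_assoc (3 / 2)]
        gcongr
  linarith [wide_nonneg h hL x]

/-- For `w ∈ bl x 1`: `κ(y,w) ≥ κ(y,x)/2`.  Apply `scale_down` with `u = (1/2) 1_{bl x 1}`,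
`U = (1/2) 1_{bl x (3/2)}`: `bm x 1 · dom x ≤ 4 (3 H + e) ≤ 16 H`, `H = bm nuL x (3/2) ≥ η ≥ e`. -/
lemma dom_local (c : Ctx k D m η ν) {σ : KD Y} (hσ : KInv D σ) {e : ℝ}
    (hS : Stat k D m η ν σ e) (x : Y) :
    bm D σ.mu x 1 * dom D η ν σ x ≤ 16 * bm D (nuL D η ν σ) x (3 / 2) := by
  have h := c.met
  have hμ := hσ.pos
  have hL := fun y => (c.ηpos.le.trans (eta_le_nuR c σ y)).trans (nuR_le_nuL c σ y)
  have h1 := scale_down c hσ hS (fun w => if D x w ≤ 1 then 1 / 2 else 0)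
    (fun y => if D x y ≤ 3 / 2 then 1 / 2 else 0)
    (fun w => by split_ifs <;> norm_num) (fun y => by split_ifs <;> norm_num) fun y w hyw => by
      have a3 := h.tri x w y
      rw [h.symm w y] at a3
      split_ifs with b1 b2 b3
      · rfl
      · exact absurd (by linarith) b2
      · norm_num
      · rfl
  have h2 : ∑ y, nuL D η ν σ y * (if D x y ≤ 3 / 2 then 1 / 2 else 0) =
      1 / 2 * bm D (nuL D η ν σ) x (3 / 2) := by
    rw [bm, bl, sum_filter, mul_sum]
    refine sum_congr rfl fun y _ => ?_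
    split_ifs <;> ring
  have h3 : e ≤ bm D (nuL D η ν σ) x (3 / 2) :=
    (ls_e_le c hS x).trans (le_bm h hL (by rw [h.self]; norm_num))
  have h4 : bm D σ.mu x 1 * dom D η ν σ x ≤
      4 * ∑ y, vp D η ν σ y * (wide D (fun w => σ.mu w * if D x w ≤ 1 then 1 / 2 else 0) y /
        wide D σ.mu y) := by
    rw [dom, mul_sum, mul_sum]
    refine sum_le_sum fun y _ => ?_
    have hN := wide_pos h hμ y
    have a2 := h.nonneg y x
    obtain ⟨b1, -⟩ := ls_vp c hσ y
    have a1 : bm D σ.mu x 1 / (1 + D y x) ≤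
        4 * wide D (fun w => σ.mu w * if D x w ≤ 1 then 1 / 2 else 0) y := by
      rw [wide, bm, bl, sum_filter, sum_div, mul_sum]
      refine sum_le_sum fun w _ => ?_
      have a4 := h.nonneg y w
      have a5 := h.tri y x w
      have a6 := hμ w
      split_ifs with hw
      · rw [← mul_div_assoc, div_le_div_iff₀ (by positivity) (by positivity)]
        nlinarith
      · simp
    calc _ = vp D η ν σ y / wide D σ.mu y * (bm D σ.mu x 1 / (1 + D y x)) := by field_simp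
      _ ≤ vp D η ν σ y / wide D σ.mu y *
          (4 * wide D (fun w => σ.mu w * if D x w ≤ 1 then 1 / 2 else 0) y) :=
        mul_le_mul_of_nonneg_left a1 (by positivity)
      _ = _ := by ring
  linarith

end Crest.Agent.R314
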