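import Crest.Agent.R314.Defs

/-! # Posterior profiles are profiles (row 314) -/

set_option autoImplicit false

open Finset

namespace Crest.Agent.R314

universe u

/-- Weak majorisation implies the inequality for hinge functions.
Proof: let `T = {p | θ < y p}`, `t = T.card`; `∑ (y p - θ)₊ = ∑_{p∈T} y p - t θ ≤
∑_{i : Fin k, i < t} x i - t θ ≤ ∑_{i<t} (x i - θ) ≤ ∑ (x i - θ)₊` (the number of `i : Fin k`
with `i < t` is `≤ t` and `θ ≥ 0`). -/
theorem prof_hinge {P : Type*} [Fintype P] {k : ℕ} (x : Fin k → ℝ) (y : P → ℝ)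
    (hmaj : ∀ T : Finset P, ∑ p ∈ T, y p ≤ ∑ i ∈ univ.filter (fun i : Fin k => (i : ℕ) < T.card), x i)
    (θ : ℝ) (hθ : 0 ≤ θ) : ∑ p, max (y p - θ) 0 ≤ ∑ i, max (x i - θ) 0 := by
  classical
  set T := univ.filter fun p => θ < y p with hT
  set S := univ.filter fun i : Fin k => (i : ℕ) < T.card with hS
  have h1 : ∑ p, max (y p - θ) 0 = ∑ p ∈ T, (y p - θ) := by
    rw [hT, sum_filter]
    refine sum_congr rfl fun p _ => ?_
    split_ifs with h
    · exact max_eq_left (by linarith)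
    · exact max_eq_right (by linarith)
  have h2 : (S.card : ℝ) ≤ T.card := by
    rw [hS, Fin.card_filter_val_lt]
    exact_mod_cast min_le_right _ _
  have h3 : ∑ i ∈ S, (x i - θ) ≤ ∑ i, max (x i - θ) 0 :=
    (sum_le_sum fun i _ => le_max_left _ _).trans
      (sum_le_sum_of_subset_of_nonneg (subset_univ _) fun i _ _ => le_max_right _ _)
  have h4 := hmaj T
  have h5 := mul_le_mul_of_nonneg_right h2 hθ
  rw [h1]
  simp only [sum_sub_distrib, sum_const, nsmul_eq_mul] at h3 ⊢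
  linarith

theorem prof_rep_aux (V : Finset ℝ) : ∀ (a : ℝ) (g : ℝ → ℝ), ConvexOn ℝ (Set.Icc a 1) g → g a = 0 →
    (∀ t ∈ Set.Icc a 1, 0 ≤ g t) → (∀ t ∈ V, a < t ∧ t ≤ 1) →
    ∃ (Θ : Finset ℝ) (c : ℝ → ℝ), (∀ θ ∈ Θ, a ≤ θ ∧ 0 ≤ c θ) ∧
      ∀ t ∈ V, g t = ∑ θ ∈ Θ, c θ * max (t - θ) 0 := by
  induction V using Finset.induction_on_min with
  | empty => exact fun a g _ _ _ _ => ⟨∅, 0, by simp, by simp⟩
  | insert b s hb ih =>
    intro a g hc h0 hp hV
    obtain ⟨hab, hb1⟩ := hV b (mem_insert_self _ _)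
    have hba : 0 < b - a := sub_pos.2 hab
    have hm : g b / (b - a) * (b - a) = g b := div_mul_cancel₀ _ hba.ne'
    have hm0 : 0 ≤ g b / (b - a) := div_nonneg (hp b ⟨hab.le, hb1⟩) hba.le
    have hsub : Set.Icc b 1 ⊆ Set.Icc a 1 := Set.Icc_subset_Icc_left hab.le
    obtain ⟨Θ, c, h1, h2⟩ := ih b (fun t => g t - g b / (b - a) * (t - a))
      ⟨convex_Icc _ _, fun x hx y hy p q hp hq hpq => by
        have h3 := hc.2 (hsub hx) (hsub hy) hp hq hpq
        obtain rfl : q = 1 - p := by linarith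
        simp only [smul_eq_mul] at h3 ⊢
        linarith⟩ (by simp only [hm, sub_self])
      (fun t ht => by
        have h3 := hc.secant_mono ⟨le_rfl, hab.le.trans hb1⟩ ⟨hab.le, hb1⟩ (hsub ht) hab.ne'
          (hab.trans_le ht.1).ne' ht.1
        rw [h0, sub_zero, sub_zero, le_div_iff₀ (sub_pos.2 (hab.trans_le ht.1))] at h3
        exact sub_nonneg.2 h3)
      fun t ht => ⟨hb t ht, (hV t (mem_insert_of_mem ht)).2⟩
    have ha : a ∉ Θ := fun h => absurd (h1 a h).1 (not_le.2 hab)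
    have hu : ∀ θ ∈ Θ, Function.update c a (g b / (b - a)) θ = c θ := fun θ hθ =>
      Function.update_of_ne (ne_of_mem_of_not_mem hθ ha) _ _
    refine ⟨insert a Θ, Function.update c a (g b / (b - a)), fun θ hθ => ?_, fun t ht => ?_⟩
    · rcases mem_insert.1 hθ with rfl | hθ
      · exact ⟨le_rfl, by rwa [Function.update_self]⟩
      · exact ⟨hab.le.trans (h1 θ hθ).1, by rw [hu θ hθ]; exact (h1 θ hθ).2⟩
    · rw [sum_insert ha, Function.update_self, sum_congr rfl fun θ hθ => by rw [hu θ hθ],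
        max_eq_left (sub_pos.2 (hV t ht).1).le]
      rcases mem_insert.1 ht with rfl | ht'
      · rw [hm, sum_eq_zero fun θ hθ => by
          rw [max_eq_right (sub_nonpos.2 (h1 θ hθ).1), mul_zero], add_zero]
      · rw [← h2 t ht']
        ring

/-- On a finite subset `V` of `[0,1]` a convex monotone `g` with `g 0 = 0` is a nonnegative
combination of hinges.  Proof: induction on the (sorted) set / on `V.card` removing the largest
point, or piecewise linear interpolation through `0 = t₀ < t₁ < … `: with slopes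
`m_l = (g t_{l+1} - g t_l)/(t_{l+1} - t_l)` (nondecreasing by `ConvexOn.slope_mono_adjacent`,
`m_0 ≥ 0` by monotonicity) take `c_{t_0} = m_0`, `c_{t_l} = m_l - m_{l-1}`.
(An alternative: prove `prof_convex` below directly by another route and delete this lemma.) -/
theorem prof_hinge_rep (g : ℝ → ℝ) (hc : ConvexOn ℝ (Set.Icc 0 1) g)
    (hm : MonotoneOn g (Set.Icc 0 1)) (h0 : g 0 = 0) (V : Finset ℝ)
    (hV : ∀ t ∈ V, t ∈ Set.Icc (0 : ℝ) 1) :
    ∃ (Θ : Finset ℝ) (c : ℝ → ℝ), (∀ θ ∈ Θ, 0 ≤ θ ∧ 0 ≤ c θ) ∧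
      ∀ t ∈ V, g t = ∑ θ ∈ Θ, c θ * max (t - θ) 0 := by
  obtain ⟨Θ, c, h1, h2⟩ := prof_rep_aux (V.filter fun t => 0 < t) 0 g hc h0
    (fun t ht => h0 ▸ hm ⟨le_rfl, zero_le_one⟩ ht ht.1)
    fun t ht => ⟨(mem_filter.1 ht).2, (hV t (mem_filter.1 ht).1).2⟩
  refine ⟨Θ, c, h1, fun t ht => ?_⟩
  rcases (hV t ht).1.eq_or_lt with rfl | h3
  · rw [h0]
    exact (sum_eq_zero fun θ hθ => by
      rw [max_eq_right (sub_nonpos.2 (h1 θ hθ).1), mul_zero]).symm
  · exact h2 t (mem_filter.2 ⟨ht, h3⟩)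

/-- weak majorisation inequality (Tomić–Weyl), from the two lemmas above -/
theorem prof_convex {P : Type*} [Fintype P] {k : ℕ} (x : Fin k → ℝ) (y : P → ℝ)
    (hx : ∀ i, x i ∈ Set.Icc (0 : ℝ) 1) (hy : ∀ p, y p ∈ Set.Icc (0 : ℝ) 1)
    (hmaj : ∀ T : Finset P, ∑ p ∈ T, y p ≤ ∑ i ∈ univ.filter (fun i : Fin k => (i : ℕ) < T.card), x i)
    (g : ℝ → ℝ) (hc : ConvexOn ℝ (Set.Icc 0 1) g) (hm : MonotoneOn g (Set.Icc 0 1))
    (h0 : g 0 = 0) : ∑ p, g (y p) ≤ ∑ i, g (x i) := by
  obtain ⟨Θ, c, h1, h2⟩ := prof_hinge_rep g hc hm h0 (univ.image x ∪ univ.image y) fun t ht => by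
    rcases mem_union.1 ht with ht | ht
    · obtain ⟨i, -, rfl⟩ := mem_image.1 ht
      exact hx i
    · obtain ⟨p, -, rfl⟩ := mem_image.1 ht
      exact hy p
  rw [sum_congr rfl fun p _ => h2 (y p) (mem_union_right _ (mem_image_of_mem y (mem_univ p))),
    sum_congr rfl fun i _ => h2 (x i) (mem_union_left _ (mem_image_of_mem x (mem_univ i))),
    sum_comm, sum_comm (s := univ)]
  refine sum_le_sum fun θ hθ => ?_
  rw [← mul_sum, ← mul_sum]
  exact mul_le_mul_of_nonneg_left (prof_hinge x y hmaj θ (h1 θ hθ).1) (h1 θ hθ).2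

/-- `∑ₐ cnt pos (a :: v) ≤ cnt pos v` (the filters are disjoint: `a :: v` and `b :: v` both
suffixes of the same list forces `a = b`; and `a :: v <:+ l → v <:+ l`). -/
theorem cnt_super {Lab : Type u} [Fintype Lab] [DecidableEq Lab] {k : ℕ} (pos : Fin k → List Lab)
    (v : List Lab) : ∑ a, cnt pos (a :: v) ≤ cnt pos v := by
  unfold cnt
  rw [← card_biUnion]
  · refine card_le_card fun i hi => ?_
    obtain ⟨a, -, ha⟩ := mem_biUnion.1 hi
    exact mem_filter.2 ⟨mem_univ _, (List.suffix_cons a v).trans (mem_filter.1 ha).2⟩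
  · intro a _ b _ hab
    refine disjoint_left.2 fun i h1 h2 => hab ?_
    have h3 := List.suffix_of_suffix_length_le (mem_filter.1 h1).2 (mem_filter.1 h2).2 (by simp)
    exact (List.cons.inj (h3.eq_of_length (by simp))).1

theorem prof_count {Lab : Type u} [Fintype Lab] [DecidableEq Lab] {k : ℕ} (pos : Fin k → List Lab)
    (v : List Lab) (T : Finset (Lab × Fin k)) :
    (T.filter fun p => (p.2 : ℕ) < cnt pos (p.1 :: v)).card ≤
      ((univ.filter fun i : Fin k => (i : ℕ) < T.card).filter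
        fun i : Fin k => (i : ℕ) < cnt pos v).card := by
  have h1 : cnt pos v ≤ k := (card_filter_le _ _).trans (by simp)
  have h2 := card_filter_le T fun p => (p.2 : ℕ) < cnt pos (p.1 :: v)
  have h3 : (T.filter fun p => (p.2 : ℕ) < cnt pos (p.1 :: v)).card ≤ cnt pos v := by
    refine (card_le_card (filter_subset_filter _ (subset_univ T))).trans
      (le_trans ?_ (cnt_super pos v))
    rw [card_filter, Fintype.sum_prod_type]
    refine sum_le_sum fun a _ => ?_
    rw [← card_filter]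
    exact (Fin.card_filter_val_lt (m := cnt pos (a :: v))).trans_le (min_le_right _ _)
  simp only [filter_filter, ← lt_min_iff, Fin.card_filter_val_lt]
  omega

/-- Proof: `mem`, `root` (`cnt _ [] = k`), `anti` are immediate.  `super`: apply `prof_convex` with
`P = Lab × Fin k`; for fixed `ω`, `#{(a,i) ∈ T | i < N_a} ≤ min T.card (∑ₐ N_a) ≤ min T.card N_v
= #{i : Fin k | i < T.card ∧ i < N_v}` because `N_v ≤ k`. -/
theorem profStmt : ProfStmt.{u} := by
  intro k Lab Y Ω _ _ _ J π hπ cfg path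
  have hmem : ∀ v i, prof π cfg path v i ∈ Set.Icc (0 : ℝ) 1 := by
    intro v i
    refine ⟨sum_nonneg fun ω _ => mul_nonneg (hπ.1 ω) (by split_ifs <;> norm_num), ?_⟩
    rw [← hπ.2]
    exact sum_le_sum fun ω _ => mul_le_of_le_one_right (hπ.1 ω) (by split_ifs <;> norm_num)
  refine ⟨hmem, fun i => ?_, fun v i j hij => ?_, fun g hc hm h0 v _ => ?_⟩
  · simpa [prof, cnt] using hπ.2
  · refine sum_le_sum fun ω _ => mul_le_mul_of_nonneg_left ?_ (hπ.1 ω)
    have h1 : (i : ℕ) ≤ j := hij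
    split_ifs with h2 h3
    · exact le_rfl
    · omega
    · exact zero_le_one
    · exact le_rfl
  · rw [← Fintype.sum_prod_type' fun a i => g (prof π cfg path (a :: v) i)]
    refine prof_convex (prof π cfg path v) (fun p : Lab × Fin k => prof π cfg path (p.1 :: v) p.2)
      (hmem v) (fun p => hmem _ _) (fun T => ?_) g hc hm h0
    unfold prof
    rw [sum_comm, sum_comm (s := univ.filter _)]
    refine sum_le_sum fun ω _ => ?_
    rw [← mul_sum, ← mul_sum, sum_boole, sum_boole]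
    exact mul_le_mul_of_nonneg_left (by exact_mod_cast prof_count _ v T) (hπ.1 ω)

end Crest.Agent.R314
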