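import Crest.Agent.R314.RDefs

/-!
# R314 part A — removing the additive constant (repeat and return)

Let `V` be the minimum of `E(a) = ∑ ω, π ω * detCost a s σ_ω` over all `a` (attained: `E(a)` depends only on the
values of `a` on the finitely many lists of length `≤ T₀ = max |σ_ω|`), `O = ∑ π ω * pathCost s (P ω)`.
Let `ρ = List.ofFn s`, `δ > 0` a lower bound of the non-zero distances of `Y`, `M` with `M δ ≥ k · diam Y`.
Block of `ω`: `σ_ω ++ ρ^M ++ (s 0 repeated T₀ - |σ_ω| times)`; all blocks have the same length `T₁`.  The offline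
path serves `σ_ω` by `P ω`, then every request `s i` by server `i`: it ends in `s` and costs at most
`2 · pathCost s (P ω)` (`sum_dist_endCfg_le`).  Apply `BayesStmt` to `Fin N → Ω` with the product weights and the
concatenation of `N` blocks (`T = N T₁`).  Lower bound for every `a`: write `m(c) = min_τ ∑ i, dist (c i) (s (τ i))`
(`τ` a permutation).  (1) from any history `h` and configuration `c`, the expected cost of serving `σ_ω` is at
least `V - m(c)` (the algorithm `l ↦ τ (a (h ++ l))` started from `s`; relabel the servers and use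
`pathCost_le_add`); (2) the cost paid on `ρ^M ++ filler` is at least `m(c_end)`: either each of the `M` rounds
costs `≥ δ`, or some round costs `0`, then the configuration after it covers all `s i`, so it is a permutation
of `s` (injective, `k` servers), and afterwards `sum_dist_endCfg_le` applies.  By induction on `N` the expected
total cost from `(h, c)` is at least `N V - m(c)`.  So `N V ≤ C log² · 2 N O + B` for all `N`.
-/

set_option autoImplicit false

open Crest.LogicCS.KServer Finset

namespace Crest.Agent.R314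

universe u

section Aux

variable {Y : Type u} {k : ℕ}

/-- the path of a deterministic algorithm -/
def rrPath : (List Y → Fin k) → List Y → List (Y × Fin k)
  | _, [] => []
  | a, r :: σ => (r, a [r]) :: rrPath (fun l => a (r :: l)) σ

theorem rr_zip (a : List Y → Fin k) (σ : List Y) : σ.zip (detChoices a σ) = rrPath a σ := by
  induction σ generalizing a with
  | nil => rfl
  | cons r σ ih =>
    rw [rrPath, ← ih]
    simp [detChoices, List.ofFn_succ]

theorem rr_fst (a : List Y → Fin k) (σ : List Y) : (rrPath a σ).map Prod.fst = σ := by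
  induction σ generalizing a with
  | nil => rfl
  | cons r σ ih => simp [rrPath, ih]

theorem rr_append (a : List Y → Fin k) (σ σ' : List Y) :
    rrPath a (σ ++ σ') = rrPath a σ ++ rrPath (fun l => a (σ ++ l)) σ' := by
  induction σ generalizing a with
  | nil => rfl
  | cons r σ ih => simp [rrPath, ih]

theorem rr_comp (f : Fin k → Fin k) (a : List Y → Fin k) (σ : List Y) :
    rrPath (fun l => f (a l)) σ = (rrPath a σ).map fun p => (p.1, f p.2) := by
  induction σ generalizing a with
  | nil => rfl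
  | cons r σ ih => simp [rrPath, ← ih]

theorem rr_ofFn {α : Type*} {T : ℕ} {l : List α} (h : l.length = T) :
    ∃ g : Fin T → α, List.ofFn g = l := by
  subst h
  exact ⟨l.get, List.ofFn_get l⟩

variable [MetricSpace Y]

theorem rr_detCost (a : List Y → Fin k) (s : Fin k → Y) (σ : List Y) :
    detCost a s σ = pathCost s (rrPath a σ) := by
  rw [detCost, rr_zip]

theorem rr_relabel (τ : Equiv.Perm (Fin k)) (c : Fin k → Y) (Q : List (Y × Fin k)) :
    pathCost (c ∘ τ) (Q.map fun p => (p.1, τ.symm p.2)) = pathCost c Q := by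
  induction Q generalizing c with
  | nil => rfl
  | cons p Q ih =>
    obtain ⟨r, i⟩ := p
    simp only [List.map_cons, pathCost, Function.comp_apply, Equiv.apply_symm_apply]
    rw [← Function.update_comp_equiv, ih]

/-- distance to the start, up to relabelling -/
noncomputable def rrM (s c : Fin k → Y) : ℝ :=
  univ.inf' univ_nonempty fun τ : Equiv.Perm (Fin k) => ∑ i, dist (s i) (c (τ i))

theorem rrM_le (s c : Fin k → Y) (τ : Equiv.Perm (Fin k)) :
    rrM s c ≤ ∑ i, dist (s i) (c (τ i)) := inf'_le _ (mem_univ τ)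

theorem rr_lower (s c : Fin k → Y) (a : List Y → Fin k) :
    ∃ a' : List Y → Fin k, ∀ σ, detCost a' s σ ≤ pathCost c (rrPath a σ) + rrM s c := by
  obtain ⟨τ, -, hτ⟩ := exists_mem_eq_inf' (univ_nonempty (α := Equiv.Perm (Fin k)))
    fun τ => ∑ i, dist (s i) (c (τ i))
  refine ⟨fun l => τ.symm (a l), fun σ => ?_⟩
  rw [rr_detCost, rr_comp, ← rr_relabel τ c, rrM, hτ]
  exact pathCost_le_add _ _ _

theorem rr_cover {δ : ℝ} (hδ : ∀ x y : Y, dist x y < δ → x = y) (c : Fin k → Y)
    (Q : List (Y × Fin k)) (h : pathCost c Q < δ) : ∀ r ∈ Q.map Prod.fst, ∃ i, c i = r := by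
  induction Q with
  | nil => simp
  | cons p Q ih =>
    obtain ⟨r, i⟩ := p
    have h1 := pathCost_nonneg (Function.update c i r) Q
    rw [pathCost] at h
    have h2 : c i = r := hδ _ _ (by linarith)
    rw [← h2, Function.update_eq_self, dist_self, zero_add] at h
    intro r' hr'
    rcases List.mem_cons.1 hr' with rfl | hr'
    · exact ⟨i, h2⟩
    · exact ih h r' hr'

theorem rr_of_cover {s : Fin k → Y} (hs : Function.Injective s) {c : Fin k → Y}
    (h : ∀ j, ∃ i, c i = s j) (Q : List (Y × Fin k)) : rrM s (endCfg c Q) ≤ pathCost c Q := by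
  choose f hf using h
  have hb : Function.Bijective f := Finite.injective_iff_bijective.1 fun j j' e =>
    hs (by rw [← hf, ← hf, e])
  refine (rrM_le s _ (Equiv.ofBijective f hb)).trans (le_trans (le_of_eq ?_) (sum_dist_endCfg_le c Q))
  rw [← hb.sum_comp fun a => dist (c a) (endCfg c Q a)]
  exact sum_congr rfl fun j _ => by rw [hf]; rfl

theorem rr_rounds {s : Fin k → Y} (hs : Function.Injective s) {δ : ℝ} (hδ0 : 0 ≤ δ)
    (hδ : ∀ x y : Y, dist x y < δ → x = y) (M : ℕ) (rest : List Y) (a : List Y → Fin k)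
    (c : Fin k → Y) :
    min (M * δ) (rrM s (endCfg c (rrPath a ((List.replicate M (List.ofFn s)).flatten ++ rest)))) ≤
      pathCost c (rrPath a ((List.replicate M (List.ofFn s)).flatten ++ rest)) := by
  induction M generalizing a c with
  | zero => exact (min_le_left _ _).trans (by simpa using pathCost_nonneg _ _)
  | succ M ih =>
    by_cases h : pathCost c (rrPath a (List.ofFn s)) < δ
    · refine (min_le_right _ _).trans (rr_of_cover hs (fun j => rr_cover hδ c _ h _ ?_) _)
      rw [rr_fst]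
      exact List.mem_ofFn.2 ⟨j, rfl⟩
    · rw [List.replicate_succ, List.flatten_cons, List.append_assoc, rr_append, pathCost_append,
        endCfg_append]
      have h1 := ih (fun l => a (List.ofFn s ++ l)) (endCfg c (rrPath a (List.ofFn s)))
      rcases min_le_iff.1 h1 with h2 | h2
      · refine (min_le_left _ _).trans ?_
        push_cast
        linarith
      · refine (min_le_right _ _).trans ?_
        linarith

theorem rr_home (s c : Fin k → Y) (Q : List (Y × Fin k)) (h : ∀ p ∈ Q, p.1 = s p.2) :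
    pathCost c Q ≤ ∑ a, dist (c a) (s a) ∧
      ∀ i, (c i = s i ∨ ∃ p ∈ Q, p.2 = i) → endCfg c Q i = s i := by
  induction Q generalizing c with
  | nil => exact ⟨sum_nonneg fun _ _ => dist_nonneg, fun i hi => by simpa [endCfg] using hi⟩
  | cons p Q ih =>
    obtain ⟨r, j⟩ := p
    obtain rfl : r = s j := h _ List.mem_cons_self
    obtain ⟨h1, h2⟩ := ih (Function.update c j (s j)) fun p hp => h p (List.mem_cons_of_mem _ hp)
    refine ⟨?_, fun i hi => h2 i ?_⟩
    · have h3 := sum_dist_update_le c s j (s j)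
      rw [Function.update_eq_self] at h3
      rw [pathCost]
      linarith
    · by_cases hij : i = j
      · exact Or.inl (by rw [hij, Function.update_self])
      · rw [Function.update_of_ne hij]
        refine hi.imp_right ?_
        rintro ⟨p, hp, rfl⟩
        rcases List.mem_cons.1 hp with rfl | hp
        · exact absurd rfl hij
        · exact ⟨p, hp, rfl⟩

/-- one block -/
theorem rr_block [Fintype Y] {s : Fin k → Y} (hs : Function.Injective s) (i0 : Fin k) (T₀ : ℕ) :
    ∃ T₁ : ℕ, ∀ P : List (Y × Fin k), P.length ≤ T₀ → ∃ Q : List (Y × Fin k), Q.length = T₁ ∧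
      endCfg s Q = s ∧ pathCost s Q ≤ 2 * pathCost s P ∧ ∀ a c,
        pathCost c (rrPath a (P.map Prod.fst)) + rrM s (endCfg c (rrPath a (Q.map Prod.fst))) ≤
          pathCost c (rrPath a (Q.map Prod.fst)) := by
  classical
  obtain ⟨p₀, -, hp₀⟩ := exists_min_image univ
    (fun p : Y × Y => if p.1 = p.2 then 1 else dist p.1 p.2) ⟨(s i0, s i0), mem_univ _⟩
  obtain ⟨δ, hδ0, hδ⟩ : ∃ δ : ℝ, 0 < δ ∧ ∀ x y : Y, dist x y < δ → x = y := by
    refine ⟨if p₀.1 = p₀.2 then 1 else dist p₀.1 p₀.2, ?_, fun x y h => by_contra fun hxy => ?_⟩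
    · split_ifs with h
      · exact one_pos
      · exact dist_pos.2 h
    · have := hp₀ (x, y) (mem_univ _)
      rw [if_neg hxy] at this
      exact absurd h (not_lt.2 this)
  obtain ⟨K, hK⟩ := (Set.finite_range (rrM s)).bddAbove
  obtain ⟨M, hM⟩ := exists_nat_ge (K / δ)
  rw [div_le_iff₀ hδ0] at hM
  refine ⟨T₀ + (M + 1) * k, fun P hP => ?_⟩
  let R : List (Y × Fin k) := (List.replicate (M + 1) (List.ofFn fun i => (s i, i))).flatten ++
    List.replicate (T₀ - P.length) (s i0, i0)
  have hR : R.map Prod.fst = (List.replicate (M + 1) (List.ofFn s)).flatten ++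
      List.replicate (T₀ - P.length) (s i0) := by
    simp only [R, List.map_append, List.map_flatten, List.map_replicate, List.map_ofFn]
    rfl
  obtain ⟨h1, h2⟩ := rr_home s (endCfg s P) R fun p hp => by
    rcases List.mem_append.1 hp with hp | hp
    · obtain ⟨l, hl, hp⟩ := List.mem_flatten.1 hp
      rw [List.eq_of_mem_replicate hl] at hp
      obtain ⟨i, rfl⟩ := List.mem_ofFn.1 hp
      rfl
    · rw [List.eq_of_mem_replicate hp]
  refine ⟨P ++ R, ?_, ?_, ?_, fun a c => ?_⟩
  · simp only [R, List.length_append, List.length_flatten, List.map_replicate, List.length_ofFn,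
      List.sum_replicate, List.length_replicate, smul_eq_mul]
    omega
  · rw [endCfg_append]
    funext i
    refine h2 i (Or.inr ⟨(s i, i), List.mem_append_left _ (List.mem_flatten.2 ⟨_,
      List.mem_replicate.2 ⟨M.succ_ne_zero, rfl⟩, List.mem_ofFn.2 ⟨i, rfl⟩⟩), rfl⟩)
  · have h3 := sum_dist_endCfg_le s P
    simp only [dist_comm (s _)] at h3
    rw [pathCost_append]
    linarith
  · rw [List.map_append, hR, rr_append, pathCost_append, endCfg_append, add_le_add_iff_left]
    refine le_trans (le_min ?_ le_rfl) (rr_rounds hs hδ0.le hδ _ _ _ _)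
    refine (hK ⟨_, rfl⟩).trans ?_
    push_cast
    linarith

/-- `N` independent blocks -/
theorem rr_iter {s : Fin k → Y} {Ω : Type u} [Fintype Ω] {π : Ω → ℝ} (hπ : π ∈ stdSimplex ℝ Ω)
    {T₁ : ℕ} {Q : Ω → List (Y × Fin k)} (hl : ∀ ω, (Q ω).length = T₁)
    (he : ∀ ω, endCfg s (Q ω) = s) {V : ℝ}
    (hV : ∀ a c, V - rrM s c ≤ ∑ ω, π ω * (pathCost c (rrPath a ((Q ω).map Prod.fst)) -
      rrM s (endCfg c (rrPath a ((Q ω).map Prod.fst))))) (N : ℕ) :
    ∃ (Ω' : Type u) (_ : Fintype Ω') (π' : Ω' → ℝ) (Q' : Ω' → List (Y × Fin k)),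
      π' ∈ stdSimplex ℝ Ω' ∧ (∀ ω, (Q' ω).length = N * T₁) ∧
      ∑ ω, π' ω * pathCost s (Q' ω) = N * ∑ ω, π ω * pathCost s (Q ω) ∧
      ∀ a c, N * V - rrM s c ≤ ∑ ω, π' ω * pathCost c (rrPath a ((Q' ω).map Prod.fst)) := by
  induction N with
  | zero =>
    refine ⟨PUnit, inferInstance, fun _ => 1, fun _ => [], ⟨fun _ => zero_le_one, by simp⟩,
      by simp, by simp [pathCost], fun a c => ?_⟩
    have : 0 ≤ rrM s c := (le_inf'_iff _ _).2 fun _ _ => sum_nonneg fun _ _ => dist_nonneg
    simpa [rrPath, pathCost] using this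
  | succ N ih =>
    obtain ⟨Ω', _, π', Q', hπ', hl', hc', hV'⟩ := ih
    refine ⟨Ω × Ω', inferInstance, fun p => π p.1 * π' p.2, fun p => Q p.1 ++ Q' p.2,
      ⟨fun p => mul_nonneg (hπ.1 _) (hπ'.1 _), ?_⟩, fun p => ?_, ?_, fun a c => ?_⟩
    · simp only [Fintype.sum_prod_type, ← mul_sum, hπ'.2, mul_one, hπ.2]
    · rw [List.length_append, hl, hl']
      ring
    · simp only [Fintype.sum_prod_type, pathCost_append, he, mul_add, sum_add_distrib, mul_assoc,
        ← mul_sum, ← sum_mul, hπ'.2, hπ.2, hc']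
      push_cast
      ring_nf
    · simp only [Fintype.sum_prod_type, List.map_append, rr_append, pathCost_append, mul_assoc,
        ← mul_sum]
      simp only [mul_add (π' _), sum_add_distrib, ← sum_mul, hπ'.2, one_mul]
      have h1 := hV a c
      have h2 : ∑ ω, π ω * (N * V) = N * V := by rw [← sum_mul, hπ.2, one_mul]
      push_cast
      refine le_trans (b := ∑ ω, π ω * (pathCost c (rrPath a ((Q ω).map Prod.fst)) -
        rrM s (endCfg c (rrPath a ((Q ω).map Prod.fst)))) + ∑ ω, π ω * (N * V)) (by linarith) ?_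
      rw [← sum_add_distrib]
      refine sum_le_sum fun ω _ => ?_
      rw [← mul_add]
      refine mul_le_mul_of_nonneg_left ?_ (hπ.1 ω)
      have := hV' (fun l => a ((Q ω).map Prod.fst ++ l)) (endCfg c (rrPath a ((Q ω).map Prod.fst)))
      linarith

theorem rr_min [Fintype Y] (i0 : Fin k) (s : Fin k → Y) {Ω : Type u} [Fintype Ω] (π : Ω → ℝ)
    (σ : Ω → List Y) : ∃ a₀ : List Y → Fin k, ∀ a : List Y → Fin k,
      ∑ ω, π ω * detCost a₀ s (σ ω) ≤ ∑ ω, π ω * detCost a s (σ ω) := by
  have hf : (Set.range fun (a : List Y → Fin k) (ω : Ω) => rrPath a (σ ω)).Finite := by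
    refine (Set.Finite.pi' fun ω => List.finite_length_eq (Y × Fin k) (σ ω).length).subset ?_
    rintro _ ⟨a, rfl⟩ ω
    simpa using congrArg List.length (rr_fst a (σ ω))
  obtain ⟨_, ⟨a₀, rfl⟩, h⟩ := Set.exists_min_image _ (fun Q => ∑ ω, π ω * pathCost s (Q ω)) hf
    ⟨_, fun _ => i0, rfl⟩
  refine ⟨a₀, fun a => ?_⟩
  simp only [rr_detCost]
  exact h _ ⟨a, rfl⟩

end Aux

theorem strict_of_bayes (C : ℝ) (h : BayesStmt.{u} C) : StrictStmt.{u} (2 * max C 0) := by
  intro k hk Y _ _ _ s hs Ω _ π hπ P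
  have i0 : Fin k := ⟨0, by omega⟩
  obtain ⟨B, hB⟩ := h k hk Y s
  obtain ⟨a₀, ha₀⟩ := rr_min i0 s π fun ω => (P ω).map Prod.fst
  refine ⟨a₀, ?_⟩
  obtain ⟨T₁, hT⟩ := rr_block hs i0 (univ.sup fun ω => (P ω).length)
  choose Q hl he hc hQ using fun ω => hT (P ω) (le_sup (f := fun ω => (P ω).length) (mem_univ ω))
  generalize ∑ ω, π ω * detCost a₀ s ((P ω).map Prod.fst) = V at ha₀ ⊢
  have hV : ∀ a c, V - rrM s c ≤ ∑ ω, π ω * (pathCost c (rrPath a ((Q ω).map Prod.fst)) -
      rrM s (endCfg c (rrPath a ((Q ω).map Prod.fst)))) := by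
    intro a c
    obtain ⟨a', ha'⟩ := rr_lower s c a
    have h2 : ∑ ω, π ω * rrM s c = rrM s c := by rw [← sum_mul, hπ.2, one_mul]
    rw [sub_le_iff_le_add, ← h2, ← sum_add_distrib]
    refine (ha₀ a').trans (sum_le_sum fun ω _ => ?_)
    rw [← mul_add]
    refine mul_le_mul_of_nonneg_left ?_ (hπ.1 ω)
    linarith [ha' ((P ω).map Prod.fst), hQ ω a c]
  have hL : 0 ≤ Real.log (k + 1) ^ 2 := sq_nonneg _
  have hm : rrM s s ≤ 0 := by simpa using rrM_le s s 1
  have hQP : ∑ ω, π ω * pathCost s (Q ω) ≤ 2 * ∑ ω, π ω * pathCost s (P ω) := by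
    rw [mul_sum]
    exact sum_le_sum fun ω _ => by nlinarith [hπ.1 ω, hc ω]
  have hQ0 : 0 ≤ ∑ ω, π ω * pathCost s (Q ω) :=
    sum_nonneg fun ω _ => mul_nonneg (hπ.1 ω) (pathCost_nonneg _ _)
  have key : ∀ N : ℕ, N * V ≤
      N * (2 * max C 0 * Real.log (k + 1) ^ 2 * ∑ ω, π ω * pathCost s (P ω)) + B := by
    intro N
    obtain ⟨Ω', _, π', Q', hπ', hl', hc', hV'⟩ := rr_iter hπ hl he hV N
    choose g hg using fun ω => rr_ofFn (hl' ω)
    obtain ⟨a, ha⟩ := hB Ω' π' hπ' _ (fun ω t => (g ω t).1) fun ω t => (g ω t).2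
    have e1 : ∀ ω, (List.ofFn fun t => (g ω t).1) = (Q' ω).map Prod.fst := fun ω => by
      rw [← hg, List.map_ofFn]
      rfl
    simp only [e1, Prod.mk.eta, hg, rr_detCost, hc'] at ha
    have h1 := hV' a s
    have h2 : C * Real.log (k + 1) ^ 2 * ∑ ω, π ω * pathCost s (Q ω) ≤
        max C 0 * Real.log (k + 1) ^ 2 * (2 * ∑ ω, π ω * pathCost s (P ω)) :=
      mul_le_mul (mul_le_mul_of_nonneg_right (le_max_left _ _) hL) hQP hQ0
        (mul_nonneg (le_max_right _ _) hL)
    have h3 := mul_le_mul_of_nonneg_left h2 (Nat.cast_nonneg (α := ℝ) N)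
    linarith
  by_contra hc
  rw [not_le, ← sub_pos] at hc
  obtain ⟨N, hN⟩ := exists_nat_gt (B / (V - 2 * max C 0 * Real.log (k + 1) ^ 2 *
    ∑ ω, π ω * pathCost s (P ω)))
  rw [div_lt_iff₀ hc] at hN
  linarith [key N]

end Crest.Agent.R314
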