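import Crest.Agent.R314.Defs

/-! # Rounding with `Q` parallel integral configurations (row 314) -/

set_option autoImplicit false

open Finset

namespace Crest.Agent.R314

universe u

/-- entries of a vector differ by at most one -/
def Bal {Q : ℕ} (c : Fin Q → ℕ) : Prop := ∀ θ θ', c θ ≤ c θ' + 1

/-- `ℓ¹` distance of two matrices -/
noncomputable def mdist {Q : ℕ} {Lab : Type u} [Fintype Lab] (M M' : Fin Q → Lab → ℕ) : ℝ :=
  ∑ θ, ∑ b, |(M' θ b : ℝ) - M θ b|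

section aux
variable {Q : ℕ} {Lab : Type u} [Fintype Lab]

theorem rnd_mdist_self (M : Fin Q → Lab → ℕ) : mdist M M = 0 := by simp [mdist]

theorem rnd_mdist_comm (M M' : Fin Q → Lab → ℕ) : mdist M M' = mdist M' M := by
  simp only [mdist, abs_sub_comm]

theorem rnd_mdist_tri (M M' M'' : Fin Q → Lab → ℕ) : mdist M M'' ≤ mdist M M' + mdist M' M'' := by
  simp only [mdist, ← sum_add_distrib]
  refine sum_le_sum fun θ _ => sum_le_sum fun b _ => ?_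
  have := abs_sub_le (M'' θ b : ℝ) (M' θ b) (M θ b)
  linarith

variable [DecidableEq Lab]

/-- `M'` is `M` with one unit added at `(θ₀, b₀)` -/
def RInc (M M' : Fin Q → Lab → ℕ) (θ₀ : Fin Q) (b₀ : Lab) : Prop :=
  ∀ θ b, M' θ b = M θ b + if θ = θ₀ ∧ b = b₀ then 1 else 0

variable {M M' : Fin Q → Lab → ℕ} {θ₀ θ₁ : Fin Q} {b₀ : Lab}

omit [Fintype Lab] in
theorem rnd_exists_inc (M : Fin Q → Lab → ℕ) (θ₀ : Fin Q) (b₀ : Lab) : ∃ M', RInc M M' θ₀ b₀ :=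
  ⟨_, fun _ _ => rfl⟩

omit [Fintype Lab] in
theorem rnd_exists_dec (h : 1 ≤ M θ₀ b₀) : ∃ M', RInc M' M θ₀ b₀ := by
  refine ⟨fun θ b => M θ b - if θ = θ₀ ∧ b = b₀ then 1 else 0, fun θ b => ?_⟩
  beta_reduce
  split_ifs with h'
  · rw [h'.1, h'.2]
    omega
  · omega

theorem RInc.row (h : RInc M M' θ₀ b₀) (θ : Fin Q) :
    ∑ b, M' θ b = ∑ b, M θ b + if θ = θ₀ then 1 else 0 := by
  simp only [h θ, sum_add_distrib]
  by_cases h' : θ = θ₀ <;> simp [h']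

omit [Fintype Lab] in
theorem RInc.col (h : RInc M M' θ₀ b₀) (b : Lab) :
    ∑ θ, M' θ b = ∑ θ, M θ b + if b = b₀ then 1 else 0 := by
  simp only [h _ b, sum_add_distrib]
  by_cases h' : b = b₀ <;> simp [h']

theorem RInc.mdist (h : RInc M M' θ₀ b₀) : mdist M M' = 1 := by
  have e : ∀ θ b, |(M' θ b : ℝ) - M θ b| = if θ = θ₀ then if b = b₀ then 1 else 0 else 0 := by
    intro θ b
    rw [h θ b]
    by_cases h1 : θ = θ₀ <;> by_cases h2 : b = b₀ <;> simp [h1, h2]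
  simp [R314.mdist, e]

omit [Fintype Lab] in
theorem RInc.bal (h : RInc M M' θ₀ b₀) (hM : ∀ b, Bal fun θ => M θ b)
    (hmin : ∀ θ, M θ₀ b₀ ≤ M θ b₀) (b : Lab) : Bal fun θ => M' θ b := by
  intro θ θ'
  have h1 : M θ b ≤ M θ' b + 1 := hM b θ θ'
  have h2 := h θ b
  have h3 := h θ' b
  change M' θ b ≤ M' θ' b + 1
  by_cases h' : θ = θ₀ ∧ b = b₀
  · obtain ⟨rfl, rfl⟩ := h'
    have := hmin θ'
    split_ifs at h2 h3 <;> omega
  · rw [if_neg h'] at h2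
    omega

omit [Fintype Lab] in
theorem RInc.bal' (h : RInc M' M θ₀ b₀) (hM : ∀ b, Bal fun θ => M θ b)
    (hmax : ∀ θ, M θ b₀ ≤ M θ₀ b₀) (b : Lab) : Bal fun θ => M' θ b := by
  intro θ θ'
  have h1 : M θ b ≤ M θ' b + 1 := hM b θ θ'
  have h2 := h θ b
  have h3 := h θ' b
  change M' θ b ≤ M' θ' b + 1
  by_cases h' : θ' = θ₀ ∧ b = b₀
  · obtain ⟨rfl, rfl⟩ := h'
    have := hmax θ
    split_ifs at h2 h3 <;> omega
  · rw [if_neg h'] at h3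
    omega

/-- move one unit of column `b₀` from `θ₁` to `θ₀` -/
theorem rnd_swap (hM : ∀ b, Bal fun θ => M θ b) (hlt : M θ₀ b₀ < M θ₁ b₀) :
    ∃ M' : Fin Q → Lab → ℕ, (∀ b, Bal fun θ => M' θ b) ∧ (∀ b, ∑ θ, M' θ b = ∑ θ, M θ b) ∧
      (∀ θ, (∑ b, M' θ b + if θ = θ₁ then 1 else 0) = ∑ b, M θ b + if θ = θ₀ then 1 else 0) ∧
      (∀ θ b, b ≠ b₀ → M' θ b = M θ b) ∧ mdist M M' ≤ 2 := by
  obtain ⟨M₁, h₁⟩ := rnd_exists_dec (M := M) (θ₀ := θ₁) (b₀ := b₀) (by omega)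
  obtain ⟨M₂, h₂⟩ := rnd_exists_inc M₁ θ₀ b₀
  have hb₁ := h₁.bal' hM fun θ => by
    have : M θ b₀ ≤ M θ₀ b₀ + 1 := hM b₀ θ θ₀
    omega
  have hne : θ₀ ≠ θ₁ := by
    rintro rfl
    omega
  refine ⟨M₂, h₂.bal hb₁ fun θ => ?_, fun b => ?_, fun θ => ?_, fun θ b hb => ?_, ?_⟩
  · have e1 := h₁ θ₀ b₀
    have e2 := h₁ θ b₀
    have e3 : M θ₁ b₀ ≤ M θ b₀ + 1 := hM b₀ θ₁ θ
    rw [if_neg fun h => hne h.1] at e1
    split_ifs at e2 with h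
    · rw [h.1] at e2 ⊢
      omega
    · omega
  · rw [h₂.col, h₁.col]
  · rw [h₂.row, h₁.row]
    ring
  · rw [h₂, h₁, if_neg fun h => hb h.2, if_neg fun h => hb h.2]
  · have := rnd_mdist_tri M M₁ M₂
    rw [rnd_mdist_comm M M₁, h₁.mdist, h₂.mdist] at this
    linarith

theorem rnd_remove (t : Lab → ℕ) (n : ℕ) : ∀ M : Fin Q → Lab → ℕ, (∀ b, Bal fun θ => M θ b) →
    (∀ b, t b ≤ ∑ θ, M θ b) → ∑ b, ∑ θ, M θ b = ∑ b, t b + n →
    ∃ M' : Fin Q → Lab → ℕ, (∀ b, Bal fun θ => M' θ b) ∧ (∀ b, ∑ θ, M' θ b = t b) ∧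
      (∀ θ b, M' θ b ≤ M θ b) ∧ mdist M M' ≤ n := by
  induction n with
  | zero =>
    intro M hM ht hn
    refine ⟨M, hM, fun b => ?_, fun _ _ => le_rfl, by simp [rnd_mdist_self]⟩
    exact ((sum_eq_sum_iff_of_le fun b _ => ht b).1 hn.symm b (mem_univ b)).symm
  | succ n ih =>
    intro M hM ht hn
    obtain ⟨b₀, -, hb₀⟩ := exists_lt_of_sum_lt (s := univ) (f := t) (g := fun b => ∑ θ, M θ b)
      (by omega)
    obtain ⟨θ', -, hθ'⟩ := exists_ne_zero_of_sum_ne_zero (s := univ) (f := fun θ => M θ b₀)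
      (by omega)
    obtain ⟨θ₀, -, hθ₀⟩ := exists_max_image univ (fun θ => M θ b₀) ⟨θ', mem_univ _⟩
    have h1 : 1 ≤ M θ₀ b₀ := by
      have := hθ₀ θ' (mem_univ _)
      omega
    obtain ⟨M₁, h₁⟩ := rnd_exists_dec h1
    obtain ⟨M', a1, a2, a3, a4⟩ := ih M₁ (h₁.bal' hM fun θ => hθ₀ θ (mem_univ _))
      (fun b => by
        have e := h₁.col b
        have := ht b
        split_ifs at e with h
        · subst h
          omega
        · omega)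
      (by
        simp only [h₁.col, sum_add_distrib, sum_ite_eq', mem_univ, if_true] at hn
        omega)
    refine ⟨M', a1, a2, fun θ b => (a3 θ b).trans (by rw [h₁ θ b]; omega), ?_⟩
    have := rnd_mdist_tri M M₁ M'
    rw [rnd_mdist_comm M M₁, h₁.mdist] at this
    push_cast
    linarith

theorem rnd_cap (c : Fin Q → ℕ) (hc : Bal c) (n : ℕ) : ∀ M : Fin Q → Lab → ℕ,
    (∀ b, Bal fun θ => M θ b) → ∑ θ, ∑ b, M θ b ≤ ∑ θ, c θ → ∑ θ, (∑ b, M θ b - c θ) = n →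
    ∃ M' : Fin Q → Lab → ℕ, (∀ b, Bal fun θ => M' θ b) ∧ (∀ b, ∑ θ, M' θ b = ∑ θ, M θ b) ∧
      (∀ θ, ∑ b, M' θ b ≤ c θ) ∧ mdist M M' ≤ 2 * n := by
  induction n with
  | zero =>
    intro M hM _ hn
    refine ⟨M, hM, fun _ => rfl, fun θ => ?_, by simp [rnd_mdist_self]⟩
    have := sum_eq_zero_iff.1 hn θ (mem_univ θ)
    omega
  | succ n ih =>
    intro M hM hs hn
    obtain ⟨θ₁, -, hθ₁⟩ := exists_ne_zero_of_sum_ne_zero (s := univ)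
      (f := fun θ => ∑ b, M θ b - c θ) (by omega)
    have h1 : c θ₁ < ∑ b, M θ₁ b := by omega
    have h0 : ∃ θ₀, ∑ b, M θ₀ b < c θ₀ := by
      by_contra hne
      push Not at hne
      exact absurd (sum_lt_sum (fun θ _ => hne θ) ⟨θ₁, mem_univ _, h1⟩) (not_lt.2 hs)
    obtain ⟨θ₀, h0⟩ := h0
    have h2 := hc θ₀ θ₁
    obtain ⟨b₀, -, hb₀⟩ := exists_lt_of_sum_lt (s := univ) (f := fun b => M θ₀ b)
      (g := fun b => M θ₁ b) (by omega)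
    obtain ⟨M₁, a1, a2, a3, -, a5⟩ := rnd_swap hM hb₀
    have hne : θ₀ ≠ θ₁ := by
      rintro rfl
      omega
    obtain ⟨M', b1, b2, b3, b4⟩ := ih M₁ a1
      (by rw [sum_comm, sum_congr rfl fun b _ => a2 b, sum_comm]; exact hs)
      (by
        have e : ∀ θ, ∑ b, M θ b - c θ = (∑ b, M₁ θ b - c θ) + if θ = θ₁ then 1 else 0 := by
          intro θ
          have := a3 θ
          by_cases e1 : θ = θ₁
          · subst e1
            rw [if_pos rfl, if_neg hne.symm] at this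
            rw [if_pos rfl]
            omega
          · rw [if_neg e1] at this ⊢
            split_ifs at this with e0
            · subst e0
              omega
            · omega
        simp only [e, sum_add_distrib, sum_ite_eq', mem_univ, if_true] at hn
        omega)
    refine ⟨M', b1, fun b => (b2 b).trans (a2 b), b3, ?_⟩
    have := rnd_mdist_tri M M₁ M'
    push_cast
    linarith

theorem rnd_add_one (hM : ∀ b, Bal fun θ => M θ b) {c : Fin Q → ℕ} (hc : Bal c)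
    (hr : ∀ θ, ∑ b, M θ b ≤ c θ) (h0 : ∑ b, M θ₀ b < c θ₀) (b₀ : Lab) :
    ∃ M' : Fin Q → Lab → ℕ, (∀ b, Bal fun θ => M' θ b) ∧
      (∀ b, ∑ θ, M' θ b = ∑ θ, M θ b + if b = b₀ then 1 else 0) ∧
      (∀ θ, ∑ b, M' θ b ≤ c θ) ∧ mdist M M' ≤ 3 := by
  have easy : ∀ θ, ∑ b, M θ b < c θ → (∀ θ', M θ b₀ ≤ M θ' b₀) →
      ∃ M' : Fin Q → Lab → ℕ, (∀ b, Bal fun θ => M' θ b) ∧
        (∀ b, ∑ θ, M' θ b = ∑ θ, M θ b + if b = b₀ then 1 else 0) ∧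
        (∀ θ, ∑ b, M' θ b ≤ c θ) ∧ mdist M M' ≤ 3 := by
    intro θ h1 h2
    obtain ⟨M', h'⟩ := rnd_exists_inc M θ b₀
    refine ⟨M', h'.bal hM h2, h'.col, fun θ' => ?_, by rw [h'.mdist]; norm_num⟩
    rw [h'.row]
    split_ifs with h
    · subst h
      omega
    · exact hr θ'
  obtain ⟨θ₁, -, hθ₁⟩ := exists_min_image univ (fun θ => M θ b₀) ⟨θ₀, mem_univ _⟩
  have hmin : ∀ θ, M θ₁ b₀ ≤ M θ b₀ := fun θ => hθ₁ θ (mem_univ _)
  by_cases h1 : ∑ b, M θ₁ b < c θ₁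
  · exact easy θ₁ h1 hmin
  by_cases h2 : M θ₀ b₀ ≤ M θ₁ b₀
  · exact easy θ₀ h0 fun θ => h2.trans (hmin θ)
  have h3 := hc θ₀ θ₁
  have h4 : ∃ b', M θ₀ b' < M θ₁ b' := by
    by_contra hne
    push Not at hne
    have := sum_lt_sum (s := univ) (fun b _ => hne b) ⟨b₀, mem_univ _, not_le.1 h2⟩
    omega
  obtain ⟨b', hb'⟩ := h4
  have hne : b₀ ≠ b' := by
    rintro rfl
    omega
  have hne' : θ₀ ≠ θ₁ := by
    rintro rfl
    omega
  obtain ⟨M₁, a1, a2, a3, a4, a5⟩ := rnd_swap hM hb'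
  obtain ⟨M', h'⟩ := rnd_exists_inc M₁ θ₁ b₀
  refine ⟨M', h'.bal a1 fun θ => ?_, fun b => by rw [h'.col, a2], fun θ => ?_, ?_⟩
  · rw [a4 _ _ hne, a4 _ _ hne]
    exact hmin θ
  · rw [h'.row, a3]
    split_ifs with h
    · subst h
      omega
    · exact hr θ
  · have := rnd_mdist_tri M M₁ M'
    rw [h'.mdist] at this
    linarith

theorem rnd_add (c : Fin Q → ℕ) (hc : Bal c) (t : Lab → ℕ) (hs : ∑ b, t b ≤ ∑ θ, c θ) (n : ℕ) :
    ∀ M : Fin Q → Lab → ℕ, (∀ b, Bal fun θ => M θ b) → (∀ θ, ∑ b, M θ b ≤ c θ) →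
    (∀ b, ∑ θ, M θ b ≤ t b) → ∑ b, t b = ∑ b, ∑ θ, M θ b + n →
    ∃ M' : Fin Q → Lab → ℕ, (∀ b, Bal fun θ => M' θ b) ∧ (∀ b, ∑ θ, M' θ b = t b) ∧
      (∀ θ, ∑ b, M' θ b ≤ c θ) ∧ mdist M M' ≤ 3 * n := by
  induction n with
  | zero =>
    intro M hM hr ht hn
    refine ⟨M, hM, fun b => ?_, hr, by simp [rnd_mdist_self]⟩
    exact (sum_eq_sum_iff_of_le fun b _ => ht b).1 hn.symm b (mem_univ b)
  | succ n ih =>
    intro M hM hr ht hn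
    obtain ⟨b₀, -, hb₀⟩ := exists_lt_of_sum_lt (s := univ) (f := fun b => ∑ θ, M θ b) (g := t)
      (by omega)
    obtain ⟨θ₀, -, hθ₀⟩ := exists_lt_of_sum_lt (s := univ) (f := fun θ => ∑ b, M θ b) (g := c)
      (by rw [sum_comm]; omega)
    obtain ⟨M₁, a1, a2, a3, a4⟩ := rnd_add_one hM hc hr hθ₀ b₀
    obtain ⟨M', b1, b2, b3, b4⟩ := ih M₁ a1 a3
      (fun b => by
        have := ht b
        rw [a2]
        split_ifs with h
        · subst h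
          omega
        · omega)
      (by
        simp only [a2, sum_add_distrib, sum_ite_eq', mem_univ, if_true]
        omega)
    refine ⟨M', b1, b2, b3, ?_⟩
    have := rnd_mdist_tri M M₁ M'
    push_cast
    linarith

end aux

/-- Step 1 (removals).  Induction on `∑_b (colsum b - t b)`: remove one unit from a maximal entry of
a column whose sum exceeds `t b` (stays balanced). -/
theorem round_remove {Q : ℕ} {Lab : Type u} [Fintype Lab] [DecidableEq Lab]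
    (M : Fin Q → Lab → ℕ) (hM : ∀ b, Bal fun θ => M θ b) (t : Lab → ℕ)
    (ht : ∀ b, t b ≤ ∑ θ, M θ b) :
    ∃ M' : Fin Q → Lab → ℕ, (∀ b, Bal fun θ => M' θ b) ∧ (∀ b, ∑ θ, M' θ b = t b) ∧
      (∀ θ b, M' θ b ≤ M θ b) ∧ mdist M M' ≤ ∑ b, ((∑ θ, M θ b : ℕ) - (t b : ℝ)) := by
  obtain ⟨n, hn⟩ := Nat.exists_eq_add_of_le (sum_le_sum fun b (_ : b ∈ univ) => ht b)
  obtain ⟨M', a1, a2, a3, a4⟩ := rnd_remove t n M hM ht hn
  refine ⟨M', a1, a2, a3, a4.trans_eq ?_⟩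
  rw [sum_sub_distrib, ← Nat.cast_sum, ← Nat.cast_sum, hn]
  push_cast
  ring

/-- Step 2 (new caps).  Induction on the excess `∑_θ (rowsum θ - c θ)` (truncated): if row `θ₁`
exceeds its cap, some row `θ₀` has `rowsum θ₀ < c θ₀` (total count), so
`rowsum θ₁ ≥ c θ₁ + 1 ≥ c θ₀ > rowsum θ₀`, hence `M θ₀ b < M θ₁ b` for some `b`; move one unit of
column `b` from `θ₁` to `θ₀` (the two entries are swapped, so the column stays balanced). -/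
theorem round_cap {Q : ℕ} {Lab : Type u} [Fintype Lab] [DecidableEq Lab]
    (M : Fin Q → Lab → ℕ) (hM : ∀ b, Bal fun θ => M θ b) (c : Fin Q → ℕ) (hc : Bal c)
    (hs : ∑ θ, ∑ b, M θ b ≤ ∑ θ, c θ) :
    ∃ M' : Fin Q → Lab → ℕ, (∀ b, Bal fun θ => M' θ b) ∧ (∀ b, ∑ θ, M' θ b = ∑ θ, M θ b) ∧
      (∀ θ, ∑ b, M' θ b ≤ c θ) ∧ mdist M M' ≤ 2 * ∑ θ, ((∑ b, M θ b - c θ : ℕ) : ℝ) := by
  obtain ⟨M', a1, a2, a3, a4⟩ := rnd_cap c hc _ M hM hs rfl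
  exact ⟨M', a1, a2, a3, by rwa [← Nat.cast_sum]⟩

/-- Step 3 (additions).  Induction on `∑_b (t b - colsum b)`.  To add a unit to column `b`: some row
`θ₀` has slack; let `θ₁` carry a minimal entry of column `b`.  If `M θ₀ b` is minimal or `θ₁` has
slack add there.  Otherwise `rowsum θ₁ = c θ₁ ≥ c θ₀ - 1 ≥ rowsum θ₀` and `M θ₁ b < M θ₀ b`, so
`M θ₀ b' < M θ₁ b'` for some `b' ≠ b`; swap these two entries and add at `(θ₁, b)` (3 changes). -/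
theorem round_add {Q : ℕ} {Lab : Type u} [Fintype Lab] [DecidableEq Lab]
    (M : Fin Q → Lab → ℕ) (hM : ∀ b, Bal fun θ => M θ b) (c : Fin Q → ℕ) (hc : Bal c)
    (hr : ∀ θ, ∑ b, M θ b ≤ c θ) (t : Lab → ℕ) (ht : ∀ b, ∑ θ, M θ b ≤ t b)
    (hs : ∑ b, t b ≤ ∑ θ, c θ) :
    ∃ M' : Fin Q → Lab → ℕ, (∀ b, Bal fun θ => M' θ b) ∧ (∀ b, ∑ θ, M' θ b = t b) ∧
      (∀ θ, ∑ b, M' θ b ≤ c θ) ∧ mdist M M' ≤ 3 * ∑ b, ((t b : ℝ) - (∑ θ, M θ b : ℕ)) := by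
  obtain ⟨n, hn⟩ := Nat.exists_eq_add_of_le (sum_le_sum fun b (_ : b ∈ univ) => ht b)
  obtain ⟨M', a1, a2, a3, a4⟩ := rnd_add c hc t hs n M hM hr ht hn
  refine ⟨M', a1, a2, a3, a4.trans_eq ?_⟩
  rw [sum_sub_distrib, ← Nat.cast_sum, ← Nat.cast_sum, hn]
  push_cast
  ring

/-- The star lemma: steps 1 (to `min (t b) (colsum b)`), 2, 3 and the triangle inequality;
the excess in step 2 is `≤ ∑_θ |c' θ - c θ|`. -/
theorem round_star {Q : ℕ} {Lab : Type u} [Fintype Lab] [DecidableEq Lab]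
    (M : Fin Q → Lab → ℕ) (hM : ∀ b, Bal fun θ => M θ b) (c : Fin Q → ℕ)
    (hr : ∀ θ, ∑ b, M θ b ≤ c θ) (c' : Fin Q → ℕ) (hc' : Bal c') (t : Lab → ℕ)
    (hs : ∑ b, t b ≤ ∑ θ, c' θ) :
    ∃ M' : Fin Q → Lab → ℕ, (∀ b, Bal fun θ => M' θ b) ∧ (∀ b, ∑ θ, M' θ b = t b) ∧
      (∀ θ, ∑ b, M' θ b ≤ c' θ) ∧
      mdist M M' ≤ 3 * ∑ b, |(t b : ℝ) - (∑ θ, M θ b : ℕ)| + 2 * ∑ θ, |(c' θ : ℝ) - c θ| := by
  obtain ⟨M₁, a1, a2, a3, a4⟩ := round_remove M hM (fun b => min (t b) (∑ θ, M θ b))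
    fun b => min_le_right _ _
  obtain ⟨M₂, b1, b2, b3, b4⟩ := round_cap M₁ a1 c' hc' (by
    rw [sum_comm]
    exact (sum_le_sum fun b _ => (a2 b).trans_le (min_le_left _ _)).trans hs)
  obtain ⟨M₃, c1, c2, c3, c4⟩ := round_add M₂ b1 c' hc' b3 t
    (fun b => ((b2 b).trans (a2 b)).trans_le (min_le_left _ _)) hs
  refine ⟨M₃, c1, c2, c3, ?_⟩
  have t1 := rnd_mdist_tri M M₁ M₃
  have t2 := rnd_mdist_tri M₁ M₂ M₃
  have h1 : ∑ θ, ((∑ b, M₁ θ b - c' θ : ℕ) : ℝ) ≤ ∑ θ, |(c' θ : ℝ) - c θ| := by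
    refine sum_le_sum fun θ _ => ?_
    have e1 : ∑ b, M₁ θ b ≤ c θ := (sum_le_sum fun b _ => a3 θ b).trans (hr θ)
    rcases le_total (∑ b, M₁ θ b) (c' θ) with h | h
    · rw [Nat.sub_eq_zero_of_le h, Nat.cast_zero]
      exact abs_nonneg _
    · rw [Nat.cast_sub h, abs_sub_comm]
      refine le_trans ?_ (le_abs_self _)
      have : ((∑ b, M₁ θ b : ℕ) : ℝ) ≤ c θ := by exact_mod_cast e1
      linarith
  have h2 : ∑ b, (((∑ θ, M θ b : ℕ) : ℝ) - ((min (t b) (∑ θ, M θ b) : ℕ) : ℝ)) +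
      3 * ∑ b, ((t b : ℝ) - (∑ θ, M₂ θ b : ℕ)) ≤ 3 * ∑ b, |(t b : ℝ) - (∑ θ, M θ b : ℕ)| := by
    rw [mul_sum, mul_sum, ← sum_add_distrib]
    refine sum_le_sum fun b _ => ?_
    rw [b2, a2]
    have e1 := le_abs_self ((t b : ℝ) - (∑ θ, M θ b : ℕ))
    have e2 := neg_abs_le ((t b : ℝ) - (∑ θ, M θ b : ℕ))
    have e3 := abs_nonneg ((t b : ℝ) - (∑ θ, M θ b : ℕ))
    rcases le_total (t b) (∑ θ, M θ b) with h | h
    · rw [min_eq_left h]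
      linarith
    · rw [min_eq_right h]
      linarith
  linarith

end Crest.Agent.R314
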