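import Crest.Agent.R314.TBasic
import Crest.Agent.R314.TStar

/-! # Accuracy implies the invariants (row 314, part B) -/

set_option autoImplicit false

open Finset

namespace Crest.Agent.R314.T

universe u

variable {Lab : Type u} [Fintype Lab] [DecidableEq Lab] {k : ℕ} {β : Base Lab k} {Γ : ℝ} {J : ℕ}
  {s : Prof Lab k} {gh : List Lab → ℝ}

omit [DecidableEq Lab] in
theorem acc_near (h : β.AccB s) (hs : s ∈ cube Lab k) (c : List Lab) :
    β.n c ≤ 5 / 4 * sq (s c) ∧ sq (s c) ≤ 5 / 4 * β.n c :=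
  near_sq_le (h.a01 c) (hs c) (h.near c)


/-- an active child has `sq (s c) ≥ 1/10` -/
theorem act_sq_ge (h : β.AccB s) (hs : s ∈ cube Lab k) {b : Lab} {v : List Lab}
    (ha : β.act (b :: v)) : 1 / 10 ≤ sq (s (b :: v)) := by
  have h1 := (acc_near h hs (b :: v)).1
  have h2 := (h.nh (b :: v)).1
  have h3 : 1 / 4 ≤ β.nh (b :: v) := ha.2
  linarith

/-- One step of the path sum.  Light `b`: `1 - log u ≤ 1 + log (16 nb/n_b) ≤ 5 + log (m_v/m_b)` and
`m_v ≥ m_b + m_h ≥ 1.32 m_b`, so `log (m_v/m_b) ≥ 1/4`.  Heavy: `σ ≤ ℓ/nb` with `ℓ = ∑_{b≠h} n_b ≤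
5/4 (m_v - m_h)`, `nb = ℓ + n_h`, `m_h ≤ 5/4 n_h`, hence `σ ≤ 2 (1 - m_h/m_v) ≤ 2 log (m_v/m_h)`. -/
theorem th_le_log (hΓ : 0 < Γ) (h : β.AccB s) (hs : IsProf J s) {b : Lab} {v : List Lab}
    (hv : v.length < J) (ha : β.act (b :: v)) :
    β.th Γ b v * Γ ≤ 21 * Real.log (sq (s v) / sq (s (b :: v))) := by
  have hmb := act_sq_ge h hs.mem ha
  have hsup := sq_super hs hv
  have hmv : sq (s (b :: v)) ≤ sq (s v) :=
    (single_le_sum (f := fun b => sq (s (b :: v))) (fun _ _ => sq_nonneg' _) (mem_univ b)).trans hsup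
  have hnb : β.n (b :: v) ≤ β.nb v := β.n_le_nb v b
  have hn1 := acc_near h hs.mem (b :: v)
  have hnbpos : 0 < β.nb v := by linarith [hn1.2]
  have hmh := h.mh v
  have hmhpos : 0 < β.mh v := by linarith [hmh.2]
  have hx : 0 < sq (s v) / sq (s (b :: v)) := div_pos (by linarith) (by linarith)
  have hlog := Real.one_sub_inv_le_log_of_pos hx
  rw [inv_div] at hlog
  by_cases hb : b = β.h v
  · have e : β.th Γ b v * Γ = ∑ b' ∈ β.lt v, β.u b' v := by
      rw [hb, β.th_h, div_mul_cancel₀ _ hΓ.ne']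
    rw [e]
    set l : ℝ := ∑ b' ∈ univ.erase b, β.n (b' :: v) with hl
    have hl0 : 0 ≤ l := sum_nonneg fun _ _ => β.n_nonneg _
    have h1 : ∑ b' ∈ β.lt v, β.u b' v ≤ l / β.nb v := by
      calc ∑ b' ∈ β.lt v, β.u b' v ≤ ∑ b' ∈ β.lt v, β.n (b' :: v) / β.nb v := by
            refine sum_le_sum fun b' _ => ?_
            unfold Base.u
            rw [div_le_div_iff₀ (by positivity) hnbpos]
            have h2 := (h.nh (b' :: v)).1
            have h3 := β.n_nonneg (b' :: v)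
            nlinarith [hmh.2]
        _ ≤ ∑ b' ∈ univ.erase b, β.n (b' :: v) / β.nb v := by
            refine sum_le_sum_of_subset_of_nonneg (fun b' hb' => ?_) fun b' _ _ =>
              div_nonneg (β.n_nonneg _) hnbpos.le
            rw [mem_erase]
            exact ⟨hb ▸ (β.mem_lt.1 hb').1, mem_univ _⟩
        _ = l / β.nb v := by rw [hl, sum_div]
    have h2 : β.nb v = l + β.n (b :: v) := by
      rw [hl, Base.nb, sum_erase_add _ _ (mem_univ b)]
    have h3 : l ≤ 5 / 4 * (sq (s v) - sq (s (b :: v))) := by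
      have h4 : l ≤ ∑ b' ∈ univ.erase b, 5 / 4 * sq (s (b' :: v)) :=
        sum_le_sum fun b' _ => (acc_near h hs.mem _).1
      rw [← mul_sum] at h4
      have h5 := sum_erase_add univ (fun b' => sq (s (b' :: v))) (mem_univ b)
      linarith
    have h4 : l / β.nb v ≤ 2 * (1 - sq (s (b :: v)) / sq (s v)) := by
      have hv0 : 0 < sq (s v) := by linarith
      have e2 : 2 * (1 - sq (s (b :: v)) / sq (s v)) =
          2 * (sq (s v) - sq (s (b :: v))) / sq (s v) := by field_simp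
      rw [e2, div_le_div_iff₀ hnbpos hv0, h2]
      have h5 := hn1.2
      have h6 : 0 ≤ sq (s v) - sq (s (b :: v)) := by linarith
      have h7 := mul_le_mul_of_nonneg_right h3 (by linarith : 0 ≤ sq (s (b :: v)))
      have h8 := mul_le_mul_of_nonneg_left h5 h6
      have h9 := mul_nonneg hl0 h6
      have h10 := mul_nonneg h6 (by linarith : 0 ≤ sq (s (b :: v)))
      nlinarith
    have h5 : 0 ≤ Real.log (sq (s v) / sq (s (b :: v))) :=
      Real.log_nonneg ((one_le_div (by linarith)).2 hmv)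
    linarith
  · have hlt : b ∈ β.lt v := β.mem_lt.2 ⟨hb, ha⟩
    rw [β.th_of_lt hlt, div_mul_cancel₀ _ hΓ.ne']
    have h1 : β.nb v ≤ 5 / 4 * sq (s v) := by
      have h4 : β.nb v ≤ ∑ b', 5 / 4 * sq (s (b' :: v)) :=
        sum_le_sum fun b' _ => (acc_near h hs.mem _).1
      rw [← mul_sum] at h4
      linarith
    have h2 : (32 * (sq (s v) / sq (s (b :: v))))⁻¹ ≤ β.u b v := by
      rw [← mul_div_assoc, inv_div]
      unfold Base.u
      rw [div_le_div_iff₀ (by linarith) (by positivity)]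
      have h3 := (h.nh (b :: v)).2
      have h4 := hn1.2
      have h5 : sq (s (b :: v)) ≤ 5 / 2 * β.nh (b :: v) := by linarith
      have h6 : β.mh v ≤ 5 / 2 * sq (s v) := by linarith [hmh.1]
      have h7 := mul_le_mul h5 h6 hmhpos.le (by linarith)
      have h8 : 0 ≤ β.nh (b :: v) * sq (s v) := mul_nonneg (by linarith) (by linarith)
      nlinarith
    have h3 := Real.log_le_log (by positivity) h2
    rw [Real.log_inv, Real.log_mul (by norm_num) hx.ne'] at h3
    have h4 : Real.log 32 ≤ 7 / 2 := by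
      have : (32 : ℝ) = 2 ^ 5 := by norm_num
      rw [this, Real.log_pow]
      have := Real.log_two_lt_d9
      push_cast
      linarith
    have h5 : sq (s (b :: v)) + sq (s (β.h v :: v)) ≤ sq (s v) := by
      refine le_trans ?_ hsup
      rw [← sum_pair (f := fun b => sq (s (b :: v))) hb]
      exact sum_le_sum_of_subset_of_nonneg (subset_univ _) fun _ _ _ => sq_nonneg' _
    have h6 := h.hv v b
    have h7 := (acc_near h hs.mem (β.h v :: v)).1
    have h8 : sq (s (b :: v)) / sq (s v) ≤ 25 / 33 := by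
      rw [div_le_div_iff₀ (by linarith) (by norm_num)]
      linarith [hn1.2]
    linarith

omit [DecidableEq Lab] in
theorem acc_sq_root (hs : IsProf J s) : sq (s []) = k := by
  simp [sq, hs.root]

theorem acc_log_step {a x y : ℝ} (ha : 0 < a) (hx : 0 < x) (hy : 0 < y) :
    Real.log (a / x) + Real.log (x / y) = Real.log (a / y) := by
  rw [← Real.log_mul (by positivity) (by positivity)]
  congr 1
  field_simp


/-- path sum: no clipping at active nodes -/
theorem lam_path (hk : 2 ≤ k) (hΓ : 0 < Γ) (h : β.AccB s) (hs : IsProf J s) :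
    ∀ c : List Lab, c.length ≤ J → β.act c →
      1 / 10 ≤ sq (s c) ∧ β.lam Γ c * Γ ≤ 252 * Real.log (k / sq (s c)) := by
  have hk' : (2 : ℝ) ≤ k := by exact_mod_cast hk
  intro c
  induction c with
  | nil =>
    intro _ _
    rw [acc_sq_root hs, div_self (by linarith)]
    refine ⟨by linarith, ?_⟩
    simp [Base.lam]
  | cons b v ih =>
    intro hc ha
    have hv : v.length < J := by simpa using hc
    obtain ⟨h1, h2⟩ := ih hv.le ha.1
    have h3 := act_sq_ge h hs.mem ha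
    refine ⟨h3, ?_⟩
    have h4 := th_le_log hΓ h hs hv ha
    have h5 : β.lam Γ (b :: v) ≤ β.lam Γ v + 12 * β.th Γ b v := min_le_right _ _
    have h6 := mul_le_mul_of_nonneg_right h5 hΓ.le
    rw [← acc_log_step (a := k) (x := sq (s v)) (by linarith) (by linarith) (by linarith)]
    linarith

theorem lam_cons (hk : 2 ≤ k) (hΓ : 0 < Γ) (hΓk : 300 * Real.log (10 * k) ≤ Γ) (h : β.AccB s)
    (hs : IsProf J s) {b : Lab} {v : List Lab} (hv : v.length < J) (ha : β.act (b :: v)) :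
    β.lam Γ (b :: v) = β.lam Γ v + 12 * β.th Γ b v ∧ β.th Γ b v ≤ 1 := by
  have hk' : (2 : ℝ) ≤ k := by exact_mod_cast hk
  obtain ⟨h1, h2⟩ := lam_path hk hΓ h hs v hv.le ha.1
  have h3 := act_sq_ge h hs.mem ha
  have h4 := th_le_log hΓ h hs hv ha
  have h5 := acc_log_step (a := k) (x := sq (s v)) (y := sq (s (b :: v))) (by linarith)
    (by linarith) (by linarith)
  have h6 : Real.log (k / sq (s (b :: v))) ≤ Real.log (10 * k) := by
    refine Real.log_le_log (div_pos (by linarith) (by linarith)) ?_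
    rw [div_le_iff₀ (by linarith)]
    nlinarith
  have h7 : 0 ≤ Real.log (10 * k) := Real.log_nonneg (by linarith)
  have h8 : β.lam Γ v + 12 * β.th Γ b v ≤ 1 := by
    refine le_of_mul_le_mul_right ?_ hΓ
    linarith
  have h9 := ((h.uok J).lam_mem hΓ v hv.le).1
  exact ⟨min_eq_right h8, by linarith⟩

/-- the inductive step at one node -/
theorem inv_step (hk : 2 ≤ k) (hΓ : 1 ≤ Γ) (hΓk : 300 * Real.log (10 * k) ≤ Γ) (h : β.AccB s)
    (hg : β.AccG Γ J gh s) (hs : IsProf J s) {v : List Lab} (hv : v.length < J)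
    (hz : β.chi v * Gf (β.lam Γ v) (s v) ≤ β.z Γ gh v) :
    β.Inv Γ gh s v ∧ ∑ b ∈ β.lt v, gh (b :: v) ≤ 2 ∧ ∑ b, β.gl Γ gh v b ≤ 2 ∧
      ∀ b, β.chi (b :: v) * Gf (β.lam Γ (b :: v)) (s (b :: v)) ≤ β.z Γ gh (b :: v) := by
  have hΓ0 : 0 < Γ := by linarith
  have hu := h.uok J
  have hl := hu.lam_mem hΓ0 v hv.le
  have hΛ : ∀ b, 0 ≤ β.Lam Γ s v b := fun b => (h.Lam_mem hs.mem hΓ0 hv.le b).1
  have hΛ0 : ∀ b, ¬ β.act (b :: v) → β.Lam Γ s v b = 0 := fun b hb => by
    unfold Base.Lam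
    rw [β.chi_of_not hb, zero_mul]
  have hD : β.D Γ gh v ≤ ∑ b, β.Lam Γ s v b := by
    refine max_le (sum_nonneg fun b _ => hΛ b) ?_
    have h1 : ∑ b, β.Lam Γ s v b = ∑ b, β.chi (b :: v) * β.R (b :: v) -
        ∑ b, β.chi (b :: v) * Gf (β.lam Γ v) (s (b :: v)) := by
      rw [← sum_sub_distrib]
      exact sum_congr rfl fun b _ => by unfold Base.Lam; ring
    have h2 : ∑ b, β.chi (b :: v) * Gf (β.lam Γ v) (s (b :: v)) ≤
        ∑ b, β.chi v * Gf (β.lam Γ v) (s (b :: v)) := by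
      refine sum_le_sum fun b _ => mul_le_mul_of_nonneg_right ?_ (Gf_nonneg (hs.mem _) hl)
      by_cases ha : β.act (b :: v)
      · rw [β.chi_of_act ha, β.chi_of_act ha.1]
      · rw [β.chi_of_not ha]; exact β.chi_nonneg v
    rw [← mul_sum] at h2
    have h3 := mul_le_mul_of_nonneg_left (Gf_super hs hl hv) (β.chi_nonneg v)
    linarith
  have hθh := hu.th_h_le hΓ0 hv
  have hθh1 : β.th Γ (β.h v) v ≤ 1 := hθh.trans ((div_le_one hΓ0).2 hΓ)
  have hθ1 : ∀ b ∈ β.lt v, β.th Γ b v ≤ 1 := fun b hb =>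
    (lam_cons hk hΓ0 hΓk h hs hv (β.mem_lt.1 hb).2).2
  have hδs : ∑ b ∈ β.lt v, β.del b v ≤ 1 / 8 := by
    have h1 : ∑ b ∈ β.lt v, β.del b v ≤ ∑ b ∈ β.lt v, β.u b v / 8 :=
      sum_le_sum fun b hb => hu.del_le hv hb
    rw [← sum_div] at h1
    linarith [hu.u_sum v hv]
  have hθδ : ∑ b ∈ β.lt v, β.th Γ b v * β.del b v ≤ β.th Γ (β.h v) v / 8 := by
    rw [β.th_h, sum_div, sum_div]
    refine sum_le_sum fun b hb => ?_
    rw [β.th_of_lt hb]
    have h1 := hu.u_pos v hv b hb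
    have h2 := mul_le_mul_of_nonneg_left (mul_one_sub_log_le h1) h1.le
    have e : (1 - Real.log (β.u b v)) / Γ * β.del b v =
        β.u b v * (β.u b v * (1 - Real.log (β.u b v))) / Γ / 8 := by
      unfold Base.del; ring
    rw [e]
    rw [mul_one] at h2
    gcongr
  obtain ⟨s1, s2, s3, s4⟩ := star_alloc (β.lt v) (β.h v) (β.h_not_mem v) (β.Lam Γ s v)
    (fun b => β.th Γ b v) (fun b => β.del b v) (fun b => gh (b :: v)) (β.D Γ gh v)
    (β.th Γ (β.h v) v) hΛ (fun b h1 h2 => hΛ0 b fun h3 => h1 (β.mem_lt.2 ⟨h2, h3⟩))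
    (β.D_nonneg gh v) hD (hu.th_nonneg hΓ0 hv _)
    (fun b hb => ⟨hθh.trans (hu.th_ge hΓ0 hv hb), hθ1 b hb⟩)
    (fun b hb => (hu.del_pos hv hb).le) hδs hθδ (fun b hb => (hg v hv b hb).2)
    (β.gl Γ gh v) (fun _ => rfl)
  have hγ : ∀ b, β.D Γ gh v * β.gam Γ gh v b ≤ (1 + β.th Γ b v) * β.Lam Γ s v b := by
    intro b
    unfold Base.gam
    by_cases hb : b = β.h v
    · rw [if_pos hb, hb, β.gl_of_not gh (β.h_not_mem v), zero_add]
      exact s2
    · rw [if_neg hb, add_zero]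
      by_cases hb2 : b ∈ β.lt v
      · exact s1 b hb2
      · rw [β.gl_of_not gh hb2, mul_zero]
        exact mul_nonneg (by linarith [hu.th_nonneg hΓ0 hv b]) (hΛ b)
  refine ⟨⟨hΛ, fun b => (h.Lam_mem hs.mem hΓ0 hv.le b).2, hD, fun b => ?_, ?_⟩, s3, s4,
    fun b => ?_⟩
  · by_cases hb2 : b ∈ β.lt v
    · exact (s1 b hb2).trans (mul_le_mul_of_nonneg_right (by linarith [hθ1 b hb2]) (hΛ b))
    · rw [β.gl_of_not gh hb2, mul_zero]
      linarith [hΛ b]
  · exact s2.trans (mul_le_mul_of_nonneg_right (by linarith) (hΛ _))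
  · rw [Base.z_cons]
    have h1 := hγ b
    by_cases ha : β.act (b :: v)
    · have h2 := near_slack (h.a01 (b :: v)) (hs.mem (b :: v)) (h.near (b :: v)) hl
        (hu.th_nonneg hΓ0 hv b)
      rw [(lam_cons hk hΓ0 hΓk h hs hv ha).1]
      unfold Base.Lam at h1
      rw [β.chi_of_act ha, one_mul] at h1 ⊢
      rw [one_mul]
      unfold Base.R at h1 ⊢
      linarith
    · rw [hΛ0 b ha, mul_zero] at h1
      rw [β.chi_of_not ha, zero_mul, zero_mul]
      linarith

omit [DecidableEq Lab] in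
/-- a sure server below a child is a sure server below the parent -/
theorem acc_one_up (hs : IsProf J s) {b : Lab} {v : List Lab} (hv : v.length < J) {i : Fin k}
    (hi : s (b :: v) i = 1) : ∃ i', s v i' = 1 := by
  have : Nonempty (Fin k) := ⟨i⟩
  obtain ⟨i0, hi0⟩ := Finite.exists_max (s v)
  refine ⟨i0, le_antisymm (hs.mem v i0).2 ?_⟩
  by_contra hlt
  push Not at hlt
  have hc := (hs.mem v i0).1
  have hcv : ConvexOn ℝ (Set.Icc (0 : ℝ) 1) fun t : ℝ => max 0 (t - s v i0) :=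
    (convexOn_const 0 (convex_Icc 0 1)).sup
      ((convexOn_id (convex_Icc 0 1)).sub (concaveOn_const _ (convex_Icc 0 1)))
  have h1 := hs.super (fun t => max 0 (t - s v i0)) hcv
    (fun x _ y _ hxy => max_le_max le_rfl (by linarith)) (max_eq_left (by linarith)) v hv
  have h2 : ∑ j, max 0 (s v j - s v i0) = 0 :=
    sum_eq_zero fun j _ => max_eq_left (by linarith [hi0 j])
  have h3 : max 0 (s (b :: v) i - s v i0) ≤ ∑ j, max 0 (s (b :: v) j - s v i0) :=
    single_le_sum (f := fun j => max 0 (s (b :: v) j - s v i0)) (fun _ _ => le_max_left _ _)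
      (mem_univ i)
  have h4 : ∑ j, max 0 (s (b :: v) j - s v i0) ≤ ∑ a, ∑ j, max 0 (s (a :: v) j - s v i0) :=
    single_le_sum (f := fun a => ∑ j, max 0 (s (a :: v) j - s v i0))
      (fun _ _ => sum_nonneg fun _ _ => le_max_left _ _) (mem_univ b)
  have h5 := le_max_right 0 (s (b :: v) i - s v i0)
  linarith

omit [DecidableEq Lab] in
theorem acc_act_of_one (h : β.AccB s) (hs : IsProf J s) :
    ∀ v : List Lab, v.length ≤ J → (∃ i, s v i = 1) → β.act v := by
  intro v
  induction v with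
  | nil => intro _ _; trivial
  | cons b v ih =>
    rintro hc ⟨i, hi⟩
    have hv : v.length < J := by simpa using hc
    refine ⟨ih hv.le (acc_one_up hs hv hi), ?_⟩
    have h1 := one_le_sq hi
    have h2 := (acc_near h hs.mem (b :: v)).2
    have h3 := (h.nh (b :: v)).2
    linarith


theorem acc_main (hk : 2 ≤ k) (hΓ : 1 ≤ Γ) (hΓk : 300 * Real.log (10 * k) ≤ Γ) (h : β.AccB s)
    (hg : β.AccG Γ J gh s) (hs : IsProf J s) :
    β.Good Γ J gh ∧ (∀ v : List Lab, v.length < J → β.Inv Γ gh s v) ∧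
      (∀ v : List Lab, v.length ≤ J → v ≠ [] → β.z Γ gh v ≤ 3 * ∑ i, s v i) ∧
      ∀ v : List Lab, v.length ≤ J → (∃ i, s v i = 1) → 1 ≤ β.z Γ gh v := by
  have hΓ0 : 0 < Γ := by linarith
  have hu := h.uok J
  have key : ∀ v : List Lab, v.length ≤ J → β.chi v * Gf (β.lam Γ v) (s v) ≤ β.z Γ gh v := by
    intro v
    induction v with
    | nil =>
      intro _
      simp [β.chi_nil, Base.lam, Base.z, Gf, hs.root]
    | cons b v ih =>
      intro hc
      have hv : v.length < J := by simpa using hc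
      exact (inv_step hk hΓ hΓk h hg hs hv (ih hv.le)).2.2.2 b
  have st := fun v (hv : v.length < J) => inv_step hk hΓ hΓk h hg hs hv (key v hv.le)
  refine ⟨⟨h.a01, hu.u_pos, hu.u_sum, fun v hv b hb =>
    (lam_cons hk hΓ0 hΓk h hs hv (β.mem_lt.1 hb).2).2, fun v hv b hb => (hg v hv b hb).1,
    fun v hv => (st v hv).2.1, fun v hv => (st v hv).2.2.1, ⟨rfl, fun v hv => ?_, fun v hv => ?_⟩⟩,
    fun v hv => (st v hv).1, fun v hv hne => ?_, fun v hv hi => ?_⟩
  · exact (mul_nonneg (β.chi_nonneg v) (Gf_nonneg (hs.mem v) (hu.lam_mem hΓ0 v hv))).trans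
      (key v hv)
  · simp only [Base.z_cons]
    rw [sum_sub_distrib, ← mul_sum]
    have h1 := mul_le_mul_of_nonneg_left (β.one_le_gam_sum (Γ := Γ) gh v)
      (β.D_nonneg (Γ := Γ) gh v)
    have h2 : ∑ b', β.chi (b' :: v) * β.R (b' :: v) - β.z Γ gh v ≤ β.D Γ gh v := le_max_right _ _
    linarith
  · obtain ⟨b, w, rfl⟩ := List.exists_cons_of_ne_nil hne
    rw [Base.z_cons]
    have h1 := mul_nonneg (β.D_nonneg (Γ := Γ) gh w) (β.gam_nonneg (Γ := Γ) gh w b)
    have h2 := mul_le_mul_of_nonneg_right (β.chi_le_one (b :: w)) (β.R_nonneg (b :: w))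
    have h3 := β.R_le (b :: w)
    have h4 := (acc_near h hs.mem (b :: w)).1
    have h5 := sq_le_sum (x := s (b :: w)) (hs.mem (b :: w))
    have h6 := sq_nonneg' (s (b :: w))
    linarith
  · have h1 := key v hv
    rw [β.chi_of_act (acc_act_of_one h hs v hv hi), one_mul] at h1
    obtain ⟨i, hi⟩ := hi
    exact (one_le_Gf (hs.mem v) (hu.lam_mem hΓ0 v hv) hi).trans h1

end Crest.Agent.R314.T
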