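import Crest.Agent.R314.TSlot

/-! # Elementary facts on the derived parameters (row 314, part B) -/

set_option autoImplicit false

open Finset

namespace Crest.Agent.R314.T

universe u

variable {Lab : Type u} [Fintype Lab] [DecidableEq Lab] {k : ℕ}

namespace Base

variable (β : Base Lab k) {Γ : ℝ} {J : ℕ}

/-- positivity and normalisation of the relative sizes -/
structure UOK (J : ℕ) : Prop where
  u_pos : ∀ v : List Lab, v.length < J → ∀ b ∈ β.lt v, 0 < β.u b v
  u_sum : ∀ v : List Lab, v.length < J → ∑ b ∈ β.lt v, β.u b v ≤ 1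

lemma mem_lt {v : List Lab} {b : Lab} : b ∈ β.lt v ↔ b ≠ β.h v ∧ β.act (b :: v) := by
  simp [lt]

lemma h_not_mem (v : List Lab) : β.h v ∉ β.lt v := by simp [mem_lt]

omit [Fintype Lab] [DecidableEq Lab] in
lemma chi_of_act {c : List Lab} (h : β.act c) : β.chi c = 1 := by simp [chi, h]

omit [Fintype Lab] [DecidableEq Lab] in
lemma chi_of_not {c : List Lab} (h : ¬ β.act c) : β.chi c = 0 := by simp [chi, h]

omit [Fintype Lab] [DecidableEq Lab] in
lemma chi_nonneg (c : List Lab) : 0 ≤ β.chi c := by unfold chi; split_ifs <;> norm_num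

omit [Fintype Lab] [DecidableEq Lab] in
lemma chi_le_one (c : List Lab) : β.chi c ≤ 1 := by unfold chi; split_ifs <;> norm_num

omit [Fintype Lab] [DecidableEq Lab] in
lemma chi_nil : β.chi [] = 1 := β.chi_of_act trivial

omit [Fintype Lab] [DecidableEq Lab] in
lemma n_nonneg (c : List Lab) : 0 ≤ β.n c := sq_nonneg' _

omit [DecidableEq Lab] in
lemma n_le_nb (v : List Lab) (b : Lab) : β.n (b :: v) ≤ β.nb v :=
  single_le_sum (f := fun b => β.n (b :: v)) (fun _ _ => β.n_nonneg _) (mem_univ b)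

omit [DecidableEq Lab] in
lemma nb_nonneg (v : List Lab) : 0 ≤ β.nb v := sum_nonneg fun _ _ => β.n_nonneg _

omit [Fintype Lab] [DecidableEq Lab] in
lemma R_nonneg (c : List Lab) : 0 ≤ β.R c := capR_nonneg _

omit [Fintype Lab] [DecidableEq Lab] in
lemma R_le (c : List Lab) : β.R c ≤ 2 * β.n c := capR_le _

lemma nh_of_lt {v : List Lab} {b : Lab} (hb : b ∈ β.lt v) : 1 / 4 ≤ β.nh (b :: v) :=
  (β.mem_lt.1 hb).2.2

lemma th_of_lt {v : List Lab} {b : Lab} (hb : b ∈ β.lt v) :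
    β.th Γ b v = (1 - Real.log (β.u b v)) / Γ := by
  simp [th, (β.mem_lt.1 hb).1, hb]

lemma th_h (v : List Lab) : β.th Γ (β.h v) v = (∑ b' ∈ β.lt v, β.u b' v) / Γ := by simp [th]

lemma th_of_not {v : List Lab} {b : Lab} (h1 : b ≠ β.h v) (h2 : b ∉ β.lt v) :
    β.th Γ b v = 0 := by simp [th, h1, h2]

lemma gl_nonneg (gh : List Lab → ℝ) (v : List Lab) (b : Lab) : 0 ≤ β.gl Γ gh v b := by
  unfold gl; split_ifs
  · exact le_max_left _ _
  · exact le_rfl

lemma gl_of_not (gh : List Lab → ℝ) {v : List Lab} {b : Lab} (h : b ∉ β.lt v) :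
    β.gl Γ gh v b = 0 := by simp [gl, h]

lemma gam_nonneg (gh : List Lab → ℝ) (v : List Lab) (b : Lab) : 0 ≤ β.gam Γ gh v b := by
  unfold gam
  refine add_nonneg (β.gl_nonneg gh v b) ?_
  split_ifs
  · exact le_max_left _ _
  · exact le_rfl

lemma gam_sum (gh : List Lab → ℝ) (v : List Lab) :
    ∑ b, β.gam Γ gh v b = ∑ b, β.gl Γ gh v b + max 0 (1 - ∑ b, β.gl Γ gh v b) := by
  simp [gam, sum_add_distrib]

lemma one_le_gam_sum (gh : List Lab → ℝ) (v : List Lab) : 1 ≤ ∑ b, β.gam Γ gh v b := by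
  rw [gam_sum]
  have := le_max_right 0 (1 - ∑ b, β.gl Γ gh v b)
  linarith

lemma D_nonneg (gh : List Lab → ℝ) (v : List Lab) : 0 ≤ β.D Γ gh v := le_max_left _ _

lemma lam_le_one (c : List Lab) : β.lam Γ c ≤ 1 := by
  cases c with
  | nil => simp [lam]
  | cons b v => exact min_le_left _ _

variable {β}

lemma Good.uok {gh : List Lab → ℝ} (h : β.Good Γ J gh) : β.UOK J := ⟨h.u_pos, h.u_sum⟩

lemma Good.gam_sum_le {gh : List Lab → ℝ} (h : β.Good Γ J gh) {v : List Lab} (hv : v.length < J) :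
    ∑ b, β.gam Γ gh v b ≤ 2 := by
  rw [gam_sum]
  have h1 := h.gl_sum v hv
  have h2 : 0 ≤ ∑ b, β.gl Γ gh v b := sum_nonneg fun b _ => β.gl_nonneg gh v b
  rcases le_total 0 (1 - ∑ b, β.gl Γ gh v b) with h3 | h3
  · rw [max_eq_right h3]; linarith
  · rw [max_eq_left h3]; linarith

lemma UOK.u_le (h : β.UOK J) {v : List Lab} (hv : v.length < J) {b : Lab} (hb : b ∈ β.lt v) :
    β.u b v ≤ 1 :=
  (single_le_sum (f := fun b => β.u b v) (fun b hb => (h.u_pos v hv b hb).le) hb).trans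
    (h.u_sum v hv)

lemma UOK.mh_pos (h : β.UOK J) {v : List Lab} (hv : v.length < J) {b : Lab} (hb : b ∈ β.lt v) :
    0 < β.mh v := by
  have h1 := h.u_pos v hv b hb
  have h2 := β.nh_of_lt hb
  unfold u at h1
  by_contra h3
  push Not at h3
  have : β.nh (b :: v) / (4 * β.mh v) ≤ 0 :=
    div_nonpos_of_nonneg_of_nonpos (by linarith) (by linarith)
  linarith

lemma UOK.del_pos (h : β.UOK J) {v : List Lab} (hv : v.length < J) {b : Lab} (hb : b ∈ β.lt v) :
    0 < β.del b v := by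
  have := h.u_pos v hv b hb
  unfold del; positivity

lemma UOK.del_le (h : β.UOK J) {v : List Lab} (hv : v.length < J) {b : Lab} (hb : b ∈ β.lt v) :
    β.del b v ≤ β.u b v / 8 := by
  have h1 := h.u_pos v hv b hb
  have h2 := h.u_le hv hb
  unfold del; nlinarith

lemma UOK.one_le_L (h : β.UOK J) {v : List Lab} (hv : v.length < J) {b : Lab} (hb : b ∈ β.lt v) :
    1 ≤ 1 - Real.log (β.u b v) := by
  have := Real.log_nonpos (h.u_pos v hv b hb).le (h.u_le hv hb)
  linarith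

lemma UOK.th_ge (h : β.UOK J) (hΓ : 0 < Γ) {v : List Lab} (hv : v.length < J) {b : Lab}
    (hb : b ∈ β.lt v) : 1 / Γ ≤ β.th Γ b v := by
  rw [β.th_of_lt hb]
  exact div_le_div_of_nonneg_right (h.one_le_L hv hb) hΓ.le

lemma UOK.th_pos (h : β.UOK J) (hΓ : 0 < Γ) {v : List Lab} (hv : v.length < J) {b : Lab}
    (hb : b ∈ β.lt v) : 0 < β.th Γ b v :=
  lt_of_lt_of_le (by positivity) (h.th_ge hΓ hv hb)

lemma UOK.th_h_le (h : β.UOK J) (hΓ : 0 < Γ) {v : List Lab} (hv : v.length < J) :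
    β.th Γ (β.h v) v ≤ 1 / Γ := by
  rw [β.th_h]
  exact div_le_div_of_nonneg_right (h.u_sum v hv) hΓ.le

lemma UOK.th_nonneg (h : β.UOK J) (hΓ : 0 < Γ) {v : List Lab} (hv : v.length < J) (b : Lab) :
    0 ≤ β.th Γ b v := by
  by_cases h1 : b = β.h v
  · rw [h1, β.th_h]
    exact div_nonneg (sum_nonneg fun b hb => (h.u_pos v hv b hb).le) hΓ.le
  · by_cases h2 : b ∈ β.lt v
    · exact (h.th_pos hΓ hv h2).le
    · rw [β.th_of_not h1 h2]

lemma UOK.lam_mem (h : β.UOK J) (hΓ : 0 < Γ) :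
    ∀ c : List Lab, c.length ≤ J → β.lam Γ c ∈ Set.Icc (0 : ℝ) 1
  | [], _ => by simp [lam]
  | b :: v, hc => by
    have hv : v.length < J := by simpa using hc
    have h1 := (UOK.lam_mem h hΓ v hv.le).1
    have h2 := h.th_nonneg hΓ hv b
    exact ⟨le_min zero_le_one (by linarith), β.lam_le_one _⟩

lemma Good.th_le_one {gh : List Lab → ℝ} (h : β.Good Γ J gh) (hΓ : 1 ≤ Γ) {v : List Lab}
    (hv : v.length < J) (b : Lab) : β.th Γ b v ≤ 1 := by
  by_cases h1 : b = β.h v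
  · rw [h1]
    refine (h.uok.th_h_le (by linarith) hv).trans ?_
    rw [div_le_one (by linarith)]; exact hΓ
  · by_cases h2 : b ∈ β.lt v
    · exact h.th_le v hv b h2
    · rw [β.th_of_not h1 h2]; exact zero_le_one

lemma AccB.uok {s : Prof Lab k} (h : β.AccB s) (J : ℕ) : β.UOK J := by
  have hm : ∀ v : List Lab, ∀ b ∈ β.lt v, 0 < β.mh v := by
    intro v b hb
    have h1 := β.nh_of_lt hb
    have h2 := (h.nh (b :: v)).1
    have h3 := β.n_le_nb v b
    have h4 := (h.mh v).2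
    linarith
  refine ⟨fun v _ b hb => ?_, fun v _ => ?_⟩
  · have h1 := β.nh_of_lt hb
    have := hm v b hb
    unfold u; positivity
  · rcases (β.lt v).eq_empty_or_nonempty with h0 | ⟨b0, hb0⟩
    · simp [h0]
    have hp := hm v b0 hb0
    have h1 : ∑ b ∈ β.lt v, β.u b v ≤ ∑ b ∈ β.lt v, β.n (b :: v) / (2 * β.mh v) := by
      refine sum_le_sum fun b _ => ?_
      unfold u
      rw [div_le_div_iff₀ (by positivity) (by positivity)]
      have := (h.nh (b :: v)).1
      nlinarith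
    refine h1.trans ?_
    rw [← sum_div, div_le_one (by positivity)]
    refine le_trans ?_ (h.mh v).2
    exact sum_le_sum_of_subset_of_nonneg (subset_univ _) fun b _ _ => β.n_nonneg _

/-- `0 ≤ Λ ≤ 2 n` for accurate anchors -/
lemma AccB.Lam_mem {s : Prof Lab k} (h : β.AccB s) (hs : s ∈ cube Lab k) (hΓ : 0 < Γ)
    {v : List Lab} (hv : v.length ≤ J) (b : Lab) :
    0 ≤ β.Lam Γ s v b ∧ β.Lam Γ s v b ≤ 2 * β.n (b :: v) := by
  have hl := (h.uok J).lam_mem hΓ v hv
  have h1 := near_Gf_le (h.a01 (b :: v)) (hs (b :: v)) (h.near (b :: v)) hl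
  have h2 := Gf_nonneg (x := s (b :: v)) (hs (b :: v)) hl
  have h3 := β.R_le (b :: v)
  have h4 := β.n_nonneg (b :: v)
  unfold Lam
  by_cases ha : β.act (b :: v)
  · rw [β.chi_of_act ha, one_mul]
    unfold R at *
    constructor <;> linarith
  · rw [β.chi_of_not ha, zero_mul]
    constructor <;> linarith

end Base

end Crest.Agent.R314.T
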