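import Crest.Agent.R314.Nodes

/-!
# The `O(log k)` fractional algorithm on the label tree: definitions (row 314, part B)

State = `Base` (anchors `a` of the slot probabilities, lazy copies `nh`, `mh` of the sizes, heavy
child `h`) and ratio trackers `gh`.  `Γ ≈ 1000 log (k+1)`.
-/

set_option autoImplicit false

open Finset

namespace Crest.Agent.R314.T

universe u

section slot
variable {k : ℕ}

/-- size `∑ xⱼ²` -/
def sq (x : Fin k → ℝ) : ℝ := ∑ j, x j ^ 2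

/-- upper envelope -/
noncomputable def capR (x : Fin k → ℝ) : ℝ := ∑ j, min 1 (2 * x j ^ 2)

/-- risk functional -/
def Gf (l : ℝ) (x : Fin k → ℝ) : ℝ := ∑ j, ((1 - l) * x j ^ 2 + l * x j ^ 3)

/-- change of the squares -/
noncomputable def dsq (x y : Fin k → ℝ) : ℝ := ∑ j, |y j ^ 2 - x j ^ 2|

/-- all coordinates in `[0,1]` -/
def In01 (x : Fin k → ℝ) : Prop := ∀ j, x j ∈ Set.Icc (0 : ℝ) 1

/-- the anchors `a` are accurate for `x` -/
def Near (a x : Fin k → ℝ) : Prop := ∀ j, 9 / 10 * a j ≤ x j ∧ 9 / 10 * x j ≤ a j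

end slot

/-- one term of the ratio-tracking potential -/
noncomputable def Pt (θ δ g Λb ΛT : ℝ) : ℝ :=
  100 / θ * ((Λb + δ * ΛT) * Real.log (2 / (g + δ)) + ΛT * g)

structure Base (Lab : Type u) (k : ℕ) where
  a : List Lab → Fin k → ℝ
  nh : List Lab → ℝ
  mh : List Lab → ℝ
  h : List Lab → Lab

variable {Lab : Type u} [Fintype Lab] [DecidableEq Lab] {k : ℕ}

namespace Base

variable (β : Base Lab k) (Γ : ℝ)

def n (c : List Lab) : ℝ := sq (β.a c)

def nb (v : List Lab) : ℝ := ∑ b, β.n (b :: v)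

noncomputable def R (c : List Lab) : ℝ := capR (β.a c)

/-- active nodes -/
def act : List Lab → Prop
  | [] => True
  | b :: v => act v ∧ 1 / 4 ≤ β.nh (b :: v)

open Classical in
noncomputable def chi (c : List Lab) : ℝ := if β.act c then 1 else 0

open Classical in
/-- light active children -/
noncomputable def lt (v : List Lab) : Finset Lab := univ.filter fun b => b ≠ β.h v ∧ β.act (b :: v)

noncomputable def u (b : Lab) (v : List Lab) : ℝ := β.nh (b :: v) / (4 * β.mh v)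

noncomputable def del (b : Lab) (v : List Lab) : ℝ := β.u b v ^ 2 / 8

noncomputable def th (b : Lab) (v : List Lab) : ℝ :=
  if b = β.h v then (∑ b' ∈ β.lt v, β.u b' v) / Γ
  else if b ∈ β.lt v then (1 - Real.log (β.u b v)) / Γ else 0

noncomputable def lam : List Lab → ℝ
  | [] => 0
  | b :: v => min 1 (lam v + 12 * β.th Γ b v)

noncomputable def Lam (s : Prof Lab k) (v : List Lab) (b : Lab) : ℝ :=
  β.chi (b :: v) * (β.R (b :: v) - Gf (β.lam Γ v) (s (b :: v)))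

noncomputable def yy (s : Prof Lab k) (v : List Lab) (b : Lab) : ℝ :=
  β.Lam Γ s v b / ∑ b', β.Lam Γ s v b'

noncomputable def gl (gh : List Lab → ℝ) (v : List Lab) (b : Lab) : ℝ :=
  if b ∈ β.lt v then max 0 ((1 + β.th Γ b v / 2) * gh (b :: v) - β.th Γ b v * β.del b v) else 0

noncomputable def gam (gh : List Lab → ℝ) (v : List Lab) (b : Lab) : ℝ :=
  β.gl Γ gh v b + if b = β.h v then max 0 (1 - ∑ b', β.gl Γ gh v b') else 0

noncomputable def z (gh : List Lab → ℝ) : List Lab → ℝ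
  | [] => k
  | b :: v => β.chi (b :: v) * β.R (b :: v) -
      max 0 (∑ b', β.chi (b' :: v) * β.R (b' :: v) - z gh v) * β.gam Γ gh v b

noncomputable def D (gh : List Lab → ℝ) (v : List Lab) : ℝ :=
  max 0 (∑ b', β.chi (b' :: v) * β.R (b' :: v) - β.z Γ gh v)

lemma z_cons (gh : List Lab → ℝ) (b : Lab) (v : List Lab) :
    β.z Γ gh (b :: v) = β.chi (b :: v) * β.R (b :: v) - β.D Γ gh v * β.gam Γ gh v b := rfl

/-- ratio-tracking potential at `v`, as a function of the vector `Λ` -/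
noncomputable def Pn (gh : List Lab → ℝ) (v : List Lab) (Λ : Lab → ℝ) : ℝ :=
  ∑ b ∈ β.lt v, Pt (β.th Γ b v) (β.del b v) (gh (b :: v)) (Λ b) (∑ b', Λ b')

/-- hysteresis potential at `v` -/
noncomputable def Hn (v : List Lab) : ℝ :=
  ∑ b, |β.nh (b :: v) - β.n (b :: v)| + |β.mh v - β.nb v| + (β.nb v - β.n (β.h v :: v))

/-- anchor potential at `v` -/
def An (s : Prof Lab k) (v : List Lab) : ℝ :=
  ∑ b, ∑ j, (β.a (b :: v) j ^ 2 - 2 * β.a (b :: v) j * s (b :: v) j)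

noncomputable def Phi (J : ℕ) (gh : List Lab → ℝ) (s : Prof Lab k) : ℝ :=
  ∑ v ∈ inner Lab J, wc J v *
    (β.Pn Γ gh v (β.Lam Γ s v) + 400000 * Γ * β.Hn v + 25000000 * Γ * β.An s v)

/-- state-only invariants -/
structure Good (J : ℕ) (gh : List Lab → ℝ) : Prop where
  a01 : ∀ c, In01 (β.a c)
  u_pos : ∀ v : List Lab, v.length < J → ∀ b ∈ β.lt v, 0 < β.u b v
  u_sum : ∀ v : List Lab, v.length < J → ∑ b ∈ β.lt v, β.u b v ≤ 1
  th_le : ∀ v : List Lab, v.length < J → ∀ b ∈ β.lt v, β.th Γ b v ≤ 1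
  gh01 : ∀ v : List Lab, v.length < J → ∀ b ∈ β.lt v, gh (b :: v) ∈ Set.Icc (0 : ℝ) 1
  gh_sum : ∀ v : List Lab, v.length < J → ∑ b ∈ β.lt v, gh (b :: v) ≤ 2
  gl_sum : ∀ v : List Lab, v.length < J → ∑ b, β.gl Γ gh v b ≤ 2
  feas : Feas k J (β.z Γ gh)

/-- accuracy of the base state for the profile `s` -/
structure AccB (s : Prof Lab k) : Prop where
  a01 : ∀ c, In01 (β.a c)
  near : ∀ c, Near (β.a c) (s c)
  nh : ∀ c, β.nh c / 2 ≤ β.n c ∧ β.n c ≤ 2 * β.nh c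
  mh : ∀ v, β.mh v / 2 ≤ β.nb v ∧ β.nb v ≤ 2 * β.mh v
  hv : ∀ v b, β.n (b :: v) ≤ 2 * β.n (β.h v :: v)

/-- accuracy of the ratio trackers -/
def AccG (J : ℕ) (gh : List Lab → ℝ) (s : Prof Lab k) : Prop :=
  ∀ v : List Lab, v.length < J → ∀ b ∈ β.lt v, gh (b :: v) ∈ Set.Icc (0 : ℝ) 1 ∧
    |gh (b :: v) - β.yy Γ s v b| ≤
      β.th Γ b v / 7 * (max (gh (b :: v)) (β.yy Γ s v b) + β.del b v)

/-- consequences of accuracy at an inner node -/
structure Inv (gh : List Lab → ℝ) (s : Prof Lab k) (v : List Lab) : Prop where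
  Lam_nonneg : ∀ b, 0 ≤ β.Lam Γ s v b
  Lam_le : ∀ b, β.Lam Γ s v b ≤ 2 * β.n (b :: v)
  D_le : β.D Γ gh v ≤ ∑ b, β.Lam Γ s v b
  gl_le : ∀ b, β.D Γ gh v * β.gl Γ gh v b ≤ 2 * β.Lam Γ s v b
  rest_le : β.D Γ gh v * max 0 (1 - ∑ b, β.gl Γ gh v b) ≤ 2 * β.Lam Γ s v (β.h v)

end Base

/-- the parameters of the light child `b` of `v` are unchanged -/
def Kept (β β' : Base Lab k) (v : List Lab) (b : Lab) : Prop :=
  b ∈ β.lt v ∧ b ∈ β'.lt v ∧ β'.u b v = β.u b v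

/-- how the base state changes in an update -/
structure StepB (β β' : Base Lab k) (s : Prof Lab k) : Prop where
  a : ∀ c j, β'.a c j = β.a c j ∨
    (β'.a c j = s c j ∧ max (β.a c j) (s c j) / 10 ≤ |s c j - β.a c j|)
  nh : ∀ c, β'.nh c = β.nh c ∨ (β'.nh c = β'.n c ∧ β'.n c ≤ 2 * |β'.nh c - β.nh c| ∧
    β.nh c ≤ 2 * |β'.nh c - β.nh c|)
  mh : ∀ v, β'.mh v = β.mh v ∨ (β'.mh v = β'.nb v ∧ β'.nb v ≤ 2 * |β'.mh v - β.mh v|)
  h : ∀ v, β'.h v = β.h v ∨ 2 * β'.n (β.h v :: v) ≤ β'.n (β'.h v :: v)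

/-- how the ratio trackers change in an update -/
def StepG (Γ : ℝ) (β β' : Base Lab k) (gh gh' : List Lab → ℝ) (s : Prof Lab k) : Prop :=
  ∀ v, ∀ b ∈ β'.lt v, (Kept β β' v b ∧ gh' (b :: v) = gh (b :: v)) ∨
    (gh' (b :: v) = β'.yy Γ s v b ∧ (Kept β β' v b →
      β'.th Γ b v / 7 * (max (gh (b :: v)) (β'.yy Γ s v b) + β'.del b v) ≤
        |gh (b :: v) - β'.yy Γ s v b|))

/-- anchor changes below `v` -/
noncomputable def Aev (β β' : Base Lab k) (v : List Lab) : ℝ :=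
  ∑ b, dsq (β.a (b :: v)) (β'.a (b :: v))

/-- resets at `v` -/
noncomputable def Ev (β β' : Base Lab k) (v : List Lab) : ℝ :=
  ∑ b, |β'.nh (b :: v) - β.nh (b :: v)| + |β'.mh v - β.mh v| +
    (β'.n (β'.h v :: v) - β'.n (β.h v :: v))

/-- parameter change inherited by the subtree of `c` -/
noncomputable def Tt (Γ : ℝ) (β β' : Base Lab k) (c : List Lab) : ℝ :=
  |β'.lam Γ c - β.lam Γ c| + |β'.chi c - β.chi c|

noncomputable def TM (Γ : ℝ) (β β' : Base Lab k) (s : Prof Lab k) (v : List Lab) : ℝ :=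
  ∑ b, Tt Γ β β' (b :: v) * sq (s (b :: v))

end Crest.Agent.R314.T
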