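import Crest.Agent.R314.TBasic

/-! # Movement cost, existence of the update, local estimates (row 314, part B) -/

set_option autoImplicit false

open Finset

namespace Crest.Agent.R314.T

universe u

variable {Lab : Type u} [Fintype Lab] [DecidableEq Lab] {k : ℕ} {β β' : Base Lab k} {Γ : ℝ}
  {J : ℕ} {s : Prof Lab k} {gh gh' : List Lab → ℝ}

/-- `z_cons`; `|D'γ' - Dγ| ≤ D'|γ'-γ| + γ |D'-D|`, `|D'-D| ≤ ∑|Δ(χR)| + |Δz v|`, `∑ γ ≤ 2`; so
`∑_b |Δz (b::v)| ≤ 2|Δz v| + 3∑|Δ(χR)| + D' ∑|Δγ|`; then `geom_tree` with `α = 2`. -/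
theorem move_le (h : β.Good Γ J gh) :
    ∑ c ∈ nodes Lab J, wt J c * |β'.z Γ gh' c - β.z Γ gh c| ≤
      2 * ∑ v ∈ inner Lab J, wc J v *
        (3 * ∑ b, |β'.chi (b :: v) * β'.R (b :: v) - β.chi (b :: v) * β.R (b :: v)| +
          β'.D Γ gh' v * ∑ b, |β'.gam Γ gh' v b - β.gam Γ gh v b|) := by
  have h1 := geom_tree J (fun c => |β'.z Γ gh' c - β.z Γ gh c|) (fun v =>
    3 * ∑ b, |β'.chi (b :: v) * β'.R (b :: v) - β.chi (b :: v) * β.R (b :: v)| +
      β'.D Γ gh' v * ∑ b, |β'.gam Γ gh' v b - β.gam Γ gh v b|) 2 zero_le_two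
    (by simp [Base.z]) (fun _ _ => abs_nonneg _) fun v hv => by
      have a1 : |β'.D Γ gh' v - β.D Γ gh v| ≤
          ∑ b, |β'.chi (b :: v) * β'.R (b :: v) - β.chi (b :: v) * β.R (b :: v)| +
            |β'.z Γ gh' v - β.z Γ gh v| := by
        rw [Base.D, Base.D, max_comm, max_comm 0]
        refine (abs_max_sub_max_le_abs _ _ _).trans ?_
        rw [sub_sub_sub_comm, ← sum_sub_distrib]
        exact (abs_sub _ _).trans (add_le_add_left (abs_sum_le_sum_abs _ _) _)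
      have a2 : ∀ b, |β'.z Γ gh' (b :: v) - β.z Γ gh (b :: v)| ≤
          |β'.chi (b :: v) * β'.R (b :: v) - β.chi (b :: v) * β.R (b :: v)| +
            (β'.D Γ gh' v * |β'.gam Γ gh' v b - β.gam Γ gh v b| +
              |β'.D Γ gh' v - β.D Γ gh v| * β.gam Γ gh v b) := fun b => by
        rw [Base.z_cons, Base.z_cons, sub_sub_sub_comm]
        refine (abs_sub _ _).trans (add_le_add_right ?_ _)
        have e : β'.D Γ gh' v * β'.gam Γ gh' v b - β.D Γ gh v * β.gam Γ gh v b =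
            β'.D Γ gh' v * (β'.gam Γ gh' v b - β.gam Γ gh v b) +
              (β'.D Γ gh' v - β.D Γ gh v) * β.gam Γ gh v b := by ring
        rw [e]
        refine (abs_add_le _ _).trans (le_of_eq ?_)
        rw [abs_mul, abs_mul, abs_of_nonneg (β'.D_nonneg gh' v), abs_of_nonneg (β.gam_nonneg gh v b)]
      refine (sum_le_sum fun b _ => a2 b).trans ?_
      rw [sum_add_distrib, sum_add_distrib, ← mul_sum, ← mul_sum]
      linarith [mul_le_mul_of_nonneg_left (h.gam_sum_le hv)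
        (abs_nonneg (β'.D Γ gh' v - β.D Γ gh v))]
  have h2 := sum_nonneg fun c (_ : c ∈ nodes Lab J) =>
    mul_nonneg (wt_pos J c).le (abs_nonneg (β'.z Γ gh' c - β.z Γ gh c))
  linarith

theorem tm_lazy {x : ℝ} (hx : 0 ≤ x) (w : ℝ) : ∃ y,
    (y = w ∨ (y = x ∧ x ≤ 2 * |y - w| ∧ w ≤ 2 * |y - w|)) ∧ y / 2 ≤ x ∧ x ≤ 2 * y := by
  by_cases h : w / 2 ≤ x ∧ x ≤ 2 * w
  · exact ⟨w, Or.inl rfl, h⟩
  · refine ⟨x, Or.inr ⟨rfl, ?_⟩, by linarith, by linarith⟩
    have h1 := le_abs_self (x - w)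
    have h2 := neg_le_abs (x - w)
    rcases not_and_or.1 h with h | h <;> constructor <;> linarith [not_le.1 h]

theorem tm_anchor {a x : ℝ} (ha : a ∈ Set.Icc (0 : ℝ) 1) (hx : x ∈ Set.Icc (0 : ℝ) 1) : ∃ y,
    (y = a ∨ (y = x ∧ max a x / 10 ≤ |x - a|)) ∧ y ∈ Set.Icc (0 : ℝ) 1 ∧
      9 / 10 * y ≤ x ∧ 9 / 10 * x ≤ y := by
  rcases le_total (max a x / 10) |x - a| with h | h
  · exact ⟨x, Or.inr ⟨rfl, h⟩, hx, by linarith [hx.1], by linarith [hx.1]⟩
  · refine ⟨a, Or.inl rfl, ha, ?_⟩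
    have h1 := abs_le.1 h
    rcases le_total a x with h2 | h2
    · rw [max_eq_right h2] at h1
      constructor <;> linarith [ha.1]
    · rw [max_eq_left h2] at h1
      constructor <;> linarith [hx.1]

omit [DecidableEq Lab] in
theorem tm_heavy {f : Lab → ℝ} (hf : ∀ b, 0 ≤ f b) (a : Lab) : ∃ a',
    (a' = a ∨ 2 * f a ≤ f a') ∧ ∀ b, f b ≤ 2 * f a' := by
  by_cases h : ∀ b, f b ≤ 2 * f a
  · exact ⟨a, Or.inl rfl, h⟩
  · have : Nonempty Lab := ⟨a⟩
    obtain ⟨a', ha'⟩ := Finite.exists_max f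
    obtain ⟨b, hb⟩ := not_forall.1 h
    exact ⟨a', Or.inr ((not_le.1 hb).le.trans (ha' b)), fun b => by linarith [ha' b, hf a']⟩

/-- The update of the base state: `a' = a` if `|s - a| ≤ max a s / 10` else `s`;
`nh' = nh` if `nh/2 ≤ n' ∧ n' ≤ 2 nh` else `n'`; the same for `mh` against `nb'`;
`h' = h` if `∀ b, n'_b ≤ 2 n'_h`, else a maximiser of `n'_b` (`Finite.exists_max`). -/
theorem exists_stepB [Nonempty Lab] (ha : ∀ c, In01 (β.a c)) (hs : s ∈ cube Lab k) :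
    ∃ β' : Base Lab k, StepB β β' s ∧ β'.AccB s := by
  choose a a1 a2 a3 using fun c j => tm_anchor (ha c j) (hs c j)
  choose nh b1 b2 using fun c => tm_lazy (sq_nonneg' (a c)) (β.nh c)
  choose mh c1 c2 using fun v => tm_lazy
    (sum_nonneg fun b (_ : b ∈ univ) => sq_nonneg' (a (b :: v))) (β.mh v)
  choose h d1 d2 using fun v => tm_heavy (f := fun b => sq (a (b :: v))) (fun _ => sq_nonneg' _)
    (β.h v)
  exact ⟨⟨a, nh, mh, h⟩, ⟨a1, b1, fun v => (c1 v).imp_right fun h => ⟨h.1, h.2.1⟩, d1⟩,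
    a2, a3, b2, c2, d2⟩

/-- The update of the trackers: `gh' (b :: v) = gh (b :: v)` if `Kept β β' v b` and the old value is
accurate, else `yy`; `yy ∈ [0,1]` by `AccB.Lam_mem`. -/
theorem exists_stepG (hΓ : 0 < Γ) (h : β.Good Γ J gh) (h' : β'.AccB s) (hs : s ∈ cube Lab k) :
    ∃ gh' : List Lab → ℝ, StepG Γ β β' gh gh' s ∧ β'.AccG Γ J gh' s := by
  classical
  refine ⟨fun c => match c with
    | [] => 0
    | b :: v => if Kept β β' v b ∧ |gh (b :: v) - β'.yy Γ s v b| ≤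
        β'.th Γ b v / 7 * (max (gh (b :: v)) (β'.yy Γ s v b) + β'.del b v) then gh (b :: v)
        else β'.yy Γ s v b, fun v b _ => ?_, fun v hv b hb => ?_⟩
  · dsimp only
    split_ifs with h1
    · exact Or.inl ⟨h1.1, rfl⟩
    · exact Or.inr ⟨rfl, fun h2 => (not_le.1 fun h3 => h1 ⟨h2, h3⟩).le⟩
  · dsimp only
    split_ifs with h1
    · exact ⟨h.gh01 v hv b h1.1.1, h1.2⟩
    · have a1 := fun b => (h'.Lam_mem hs hΓ hv.le b).1
      have a2 := sum_nonneg fun b (_ : b ∈ univ) => a1 b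
      have a3 : 0 ≤ β'.yy Γ s v b := div_nonneg (a1 b) a2
      have a4 := (h'.uok J).th_nonneg hΓ hv b
      have a5 := (h'.uok J).del_pos hv hb
      refine ⟨⟨a3, div_le_one_of_le₀ (single_le_sum (fun b _ => a1 b) (mem_univ b)) a2⟩, ?_⟩
      rw [sub_self, abs_zero]
      positivity

theorem Ev_nonneg (hst : StepB β β' s) (v : List Lab) : 0 ≤ Ev β β' v := by
  refine add_nonneg (add_nonneg (sum_nonneg fun _ _ => abs_nonneg _) (abs_nonneg _)) ?_
  rcases hst.h v with h | h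
  · rw [h, sub_self]
  · linarith [β'.n_nonneg (β.h v :: v)]

theorem tm_chi (Γ : ℝ) (h' : β'.AccB s) (hs : s ∈ cube Lab k) (c : List Lab) {G : ℝ} (h0 : 0 ≤ G)
    (h1 : G ≤ β'.R c) : |(β'.chi c - β.chi c) * (β'.R c - G) + β.chi c * (β'.R c - β.R c)| ≤
      2 * dsq (β.a c) (β'.a c) + 3 * (Tt Γ β β' c * sq (s c)) := by
  have a1 := (near_sq_le (h'.a01 c) (hs c) (h'.near c)).1
  have a2 : β'.R c ≤ 2 * sq (β'.a c) := β'.R_le c
  have a3 : |β'.R c - β.R c| ≤ 2 * dsq (β.a c) (β'.a c) := abs_capR_sub _ _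
  have a4 : |β'.chi c - β.chi c| ≤ Tt Γ β β' c := le_add_of_nonneg_left (abs_nonneg _)
  have a5 := sq_nonneg' (s c)
  refine (abs_add_le _ _).trans ?_
  rw [abs_mul, abs_mul, abs_of_nonneg (sub_nonneg.2 h1), abs_of_nonneg (β.chi_nonneg c)]
  linarith [mul_le_mul a4 (show β'.R c - G ≤ 3 * sq (s c) by linarith) (sub_nonneg.2 h1)
    ((abs_nonneg _).trans a4), mul_le_of_le_one_left (abs_nonneg (β'.R c - β.R c)) (β.chi_le_one c)]

/-- `χ'R' - χR = (χ'-χ) R' + χ (R'-R)`, `R' ≤ 2 n' ≤ 5/2 sq (s c)` -/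
theorem dchiR_le (h' : β'.AccB s) (hs : s ∈ cube Lab k) (v : List Lab) :
    ∑ b, |β'.chi (b :: v) * β'.R (b :: v) - β.chi (b :: v) * β.R (b :: v)| ≤
      2 * Aev β β' v + 3 * TM Γ β β' s v := by
  rw [Aev, TM, mul_sum, mul_sum, ← sum_add_distrib]
  refine sum_le_sum fun b _ => le_trans (le_of_eq ?_)
    (tm_chi Γ h' hs (b :: v) le_rfl (β'.R_nonneg _))
  congr 1
  ring

/-- `Λ' - Λ = (χ'-χ)(R' - G_{λ'}) + χ (R'-R) - χ (G_{λ'} - G_λ)`; `0 ≤ R' - G_{λ'} ≤ 5/2 sq`,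
`abs_Gf_sub_l`, `sq_super` -/
theorem dLam_le (hΓ : 0 < Γ) (h' : β'.AccB s) (hs : IsProf J s) {v : List Lab}
    (hv : v.length < J) :
    ∑ b, |β'.Lam Γ s v b - β.Lam Γ s v b| ≤
      2 * Aev β β' v + 3 * TM Γ β β' s v + Tt Γ β β' v * sq (s v) := by
  have hl := (h'.uok J).lam_mem hΓ v hv.le
  have a1 : |β'.lam Γ v - β.lam Γ v| ≤ Tt Γ β β' v := le_add_of_nonneg_right (abs_nonneg _)
  refine le_trans ?_ (add_le_add_right (mul_le_mul a1 (sq_super hs hv)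
    (sum_nonneg fun _ _ => sq_nonneg' _) ((abs_nonneg _).trans a1)) _)
  rw [Aev, TM, mul_sum, mul_sum, mul_sum, ← sum_add_distrib, ← sum_add_distrib]
  refine sum_le_sum fun b _ => ?_
  have a2 := tm_chi (β := β) Γ h' hs.mem (b :: v) (Gf_nonneg (hs.mem (b :: v)) hl)
    (near_Gf_le (h'.a01 _) (hs.mem _) (h'.near _) hl)
  have a3 := abs_Gf_sub_l (hs.mem (b :: v)) (β.lam Γ v) (β'.lam Γ v)
  have e : β'.Lam Γ s v b - β.Lam Γ s v b = (β'.chi (b :: v) - β.chi (b :: v)) *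
      (β'.R (b :: v) - Gf (β'.lam Γ v) (s (b :: v))) +
      β.chi (b :: v) * (β'.R (b :: v) - β.R (b :: v)) -
      β.chi (b :: v) * (Gf (β'.lam Γ v) (s (b :: v)) - Gf (β.lam Γ v) (s (b :: v))) := by
    unfold Base.Lam
    ring
  rw [e]
  refine (abs_sub _ _).trans (add_le_add a2 ?_)
  rw [abs_mul, abs_of_nonneg (β.chi_nonneg _)]
  exact (mul_le_of_le_one_left (abs_nonneg _) (β.chi_le_one _)).trans a3

theorem tm_copy {x x' w w' : ℝ} (h : w' = w ∨ w' = x') :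
    |w' - x'| - |w - x| ≤ |x' - x| - |w' - w| := by
  rcases h with rfl | rfl
  · rw [sub_self, abs_zero, abs_sub_comm x']
    linarith [abs_sub_le w' x x']
  · rw [sub_self, abs_zero, abs_sub_comm w x]
    linarith [abs_sub_le w' x w]

/-- for a lazy copy `|x̂' - x'| - |x̂ - x| ≤ |x' - x| - |x̂' - x̂|`; the last term equals
`(nb' - n'_h) - (nb - n_h) - (n'_{h'} - n'_h)` -/
theorem dHn_le (hst : StepB β β' s) (v : List Lab) :
    β'.Hn v - β.Hn v ≤ 3 * Aev β β' v - Ev β β' v := by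
  have a0 : ∀ b, |β'.n (b :: v) - β.n (b :: v)| ≤ dsq (β.a (b :: v)) (β'.a (b :: v)) :=
    fun b => abs_sq_sub _ _
  have a1 := sum_le_sum fun b (_ : b ∈ univ) => (tm_copy (x := β.n (b :: v))
    ((hst.nh (b :: v)).imp_right fun h => h.1)).trans (sub_le_sub_right (a0 b) _)
  have a2 := tm_copy (x := β.nb v) ((hst.mh v).imp_right fun h => h.1)
  have a3 : |β'.nb v - β.nb v| ≤ Aev β β' v := by
    rw [Base.nb, Base.nb, ← sum_sub_distrib]
    exact (abs_sum_le_sum_abs _ _).trans (sum_le_sum fun b _ => a0 b)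
  have a4 := single_le_sum (f := fun b => dsq (β.a (b :: v)) (β'.a (b :: v)) -
    (β'.n (b :: v) - β.n (b :: v))) (fun b _ => sub_nonneg.2 ((le_abs_self _).trans (a0 b)))
    (mem_univ (β.h v))
  have a5 := dsq_nonneg (β.a (β.h v :: v)) (β'.a (β.h v :: v))
  simp only [sum_sub_distrib] at a1 a4
  unfold Base.Hn Ev
  unfold Aev Base.nb at *
  linarith

theorem dAn_le (ha : ∀ c, In01 (β.a c)) (hst : StepB β β' s) (hs : s ∈ cube Lab k)
    (v : List Lab) : β'.An s v - β.An s v ≤ - Aev β β' v / 20 := by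
  rw [Base.An, Base.An, ← sum_sub_distrib, Aev, ← sum_neg_distrib, sum_div]
  exact sum_le_sum fun b _ => anchor_gain (ha _) (hs _) (hst.a _)

end Crest.Agent.R314.T
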