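import Crest.Agent.R314.TDefs

/-! # Slot level inequalities (row 314, part B) -/

set_option autoImplicit false

open Finset

namespace Crest.Agent.R314.T

universe u

variable {k : ℕ}

theorem sq_nonneg' (x : Fin k → ℝ) : 0 ≤ sq x := by
  exact sum_nonneg fun _ _ => sq_nonneg _

theorem dsq_nonneg (x y : Fin k → ℝ) : 0 ≤ dsq x y := by
  exact sum_nonneg fun _ _ => abs_nonneg _

theorem capR_nonneg (x : Fin k → ℝ) : 0 ≤ capR x := by
  exact sum_nonneg fun _ _ => le_min zero_le_one (by positivity)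

theorem capR_le (x : Fin k → ℝ) : capR x ≤ 2 * sq x := by
  unfold capR sq
  rw [mul_sum]
  exact sum_le_sum fun _ _ => min_le_right _ _

theorem abs_sq_sub (x y : Fin k → ℝ) : |sq y - sq x| ≤ dsq x y := by
  unfold sq dsq
  rw [← sum_sub_distrib]
  exact abs_sum_le_sum_abs _ _

/-- `min 1 ·` is 1-Lipschitz (`abs_min_sub_min_le_max`) -/
theorem abs_capR_sub (x y : Fin k → ℝ) : |capR y - capR x| ≤ 2 * dsq x y := by
  unfold capR dsq
  rw [← sum_sub_distrib, mul_sum]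
  refine (abs_sum_le_sum_abs _ _).trans (sum_le_sum fun j _ => ?_)
  refine (abs_min_sub_min_le_max _ _ _ _).trans ?_
  rw [sub_self, abs_zero, ← mul_sub, abs_mul, abs_two]
  exact max_le (by positivity) le_rfl

theorem sq_le_sum {x : Fin k → ℝ} (hx : In01 x) : sq x ≤ ∑ j, x j := by
  exact sum_le_sum fun j _ => by nlinarith [(hx j).1, (hx j).2]

theorem one_le_sq {x : Fin k → ℝ} {j : Fin k} (hj : x j = 1) : 1 ≤ sq x := by
  calc (1 : ℝ) = x j ^ 2 := by rw [hj]; norm_num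
    _ ≤ _ := single_le_sum (f := fun j => x j ^ 2) (fun _ _ => sq_nonneg _) (mem_univ j)

theorem ts_zeta_nonneg {l t : ℝ} (hl : l ∈ Set.Icc (0 : ℝ) 1) (ht : 0 ≤ t) :
    0 ≤ (1 - l) * t ^ 2 + l * t ^ 3 :=
  add_nonneg (mul_nonneg (sub_nonneg.2 hl.2) (sq_nonneg _)) (mul_nonneg hl.1 (by positivity))

theorem Gf_nonneg {x : Fin k → ℝ} (hx : In01 x) {l : ℝ} (hl : l ∈ Set.Icc (0 : ℝ) 1) :
    0 ≤ Gf l x := by
  exact sum_nonneg fun j _ => ts_zeta_nonneg hl (hx j).1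

theorem one_le_Gf {x : Fin k → ℝ} (hx : In01 x) {l : ℝ} (hl : l ∈ Set.Icc (0 : ℝ) 1) {j : Fin k}
    (hj : x j = 1) : 1 ≤ Gf l x := by
  calc (1 : ℝ) = (1 - l) * x j ^ 2 + l * x j ^ 3 := by rw [hj]; ring
    _ ≤ _ := single_le_sum (f := fun j => (1 - l) * x j ^ 2 + l * x j ^ 3)
        (fun j _ => ts_zeta_nonneg hl (hx j).1) (mem_univ j)

theorem Gf_zero_vec (l : ℝ) : Gf l (0 : Fin k → ℝ) = 0 := by
  simp [Gf]

/-- `Gf l' x - Gf l x = (l - l') ∑ x²(1-x)` and `0 ≤ x²(1-x) ≤ x²` -/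
theorem abs_Gf_sub_l {x : Fin k → ℝ} (hx : In01 x) (l l' : ℝ) :
    |Gf l' x - Gf l x| ≤ |l' - l| * sq x := by
  unfold Gf sq
  rw [← sum_sub_distrib, mul_sum]
  refine (abs_sum_le_sum_abs _ _).trans (sum_le_sum fun j _ => ?_)
  have h1 := (hx j).1
  have h2 := (hx j).2
  rw [show (1 - l') * x j ^ 2 + l' * x j ^ 3 - ((1 - l) * x j ^ 2 + l * x j ^ 3) =
    (l' - l) * -(x j ^ 2 * (1 - x j)) by ring, abs_mul, abs_neg]
  refine mul_le_mul_of_nonneg_left ?_ (abs_nonneg _)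
  rw [abs_of_nonneg (mul_nonneg (sq_nonneg _) (by linarith))]
  nlinarith [mul_nonneg (sq_nonneg (x j)) h1]

/-- `|x'² - x²| ≤ 2|x' - x|`, `|x'³ - x³| ≤ 3 |x' - x|` on `[0,1]` -/
theorem abs_Gf_sub {x x' : Fin k → ℝ} (hx : In01 x) (hx' : In01 x') {l : ℝ}
    (hl : l ∈ Set.Icc (0 : ℝ) 1) : |Gf l x' - Gf l x| ≤ 3 * ∑ j, |x' j - x j| := by
  unfold Gf
  rw [← sum_sub_distrib, mul_sum]
  refine (abs_sum_le_sum_abs _ _).trans (sum_le_sum fun j _ => ?_)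
  have h1 := (hx j).1
  have h2 := (hx j).2
  have h3 := (hx' j).1
  have h4 := (hx' j).2
  rw [show (1 - l) * x' j ^ 2 + l * x' j ^ 3 - ((1 - l) * x j ^ 2 + l * x j ^ 3) =
    ((1 - l) * (x' j + x j) + l * (x' j ^ 2 + x' j * x j + x j ^ 2)) * (x' j - x j) by ring, abs_mul]
  refine mul_le_mul_of_nonneg_right ?_ (abs_nonneg _)
  have h5 : x' j ^ 2 + x' j * x j + x j ^ 2 ≤ 3 := by nlinarith
  have h6 := mul_le_mul_of_nonneg_left h5 hl.1
  have h7 := mul_le_mul_of_nonneg_left (show x' j + x j ≤ 3 by linarith) (sub_nonneg.2 hl.2)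
  rw [abs_of_nonneg (add_nonneg (mul_nonneg (sub_nonneg.2 hl.2) (by positivity))
    (mul_nonneg hl.1 (by positivity)))]
  linarith

/-- convexity of `t ↦ (1-l) t² + l t³` on `[0,1]` (`convexOn_pow`) -/
theorem zeta_convex {l : ℝ} (hl : l ∈ Set.Icc (0 : ℝ) 1) :
    ConvexOn ℝ (Set.Icc 0 1) fun t : ℝ => (1 - l) * t ^ 2 + l * t ^ 3 := by
  have h : ∀ n : ℕ, ConvexOn ℝ (Set.Icc (0 : ℝ) 1) fun t : ℝ => t ^ n := fun n =>
    (convexOn_pow n).subset Set.Icc_subset_Ici_self (convex_Icc 0 1)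
  exact ((h 2).smul (sub_nonneg.2 hl.2)).add ((h 3).smul hl.1)

theorem zeta_mono {l : ℝ} (hl : l ∈ Set.Icc (0 : ℝ) 1) :
    MonotoneOn (fun t : ℝ => (1 - l) * t ^ 2 + l * t ^ 3) (Set.Icc 0 1) := by
  intro a ha b _ hab
  exact add_le_add (mul_le_mul_of_nonneg_left (pow_le_pow_left₀ ha.1 hab 2) (sub_nonneg.2 hl.2))
    (mul_le_mul_of_nonneg_left (pow_le_pow_left₀ ha.1 hab 3) hl.1)

theorem Gf_convex {x y : Fin k → ℝ} (hx : In01 x) (hy : In01 y) {l : ℝ}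
    (hl : l ∈ Set.Icc (0 : ℝ) 1) {p q : ℝ} (hp : 0 ≤ p) (hq : 0 ≤ q) (hpq : p + q = 1) :
    Gf l (p • x + q • y) ≤ p * Gf l x + q * Gf l y := by
  unfold Gf
  rw [mul_sum, mul_sum, ← sum_add_distrib]
  exact sum_le_sum fun j _ => (zeta_convex hl).2 (hx j) (hy j) hp hq hpq

theorem Gf_super {Lab : Type u} [Fintype Lab] {J : ℕ} {s : Prof Lab k} (hs : IsProf J s) {l : ℝ}
    (hl : l ∈ Set.Icc (0 : ℝ) 1) {v : List Lab} (hv : v.length < J) :
    ∑ b, Gf l (s (b :: v)) ≤ Gf l (s v) := by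
  exact hs.super _ (zeta_convex hl) (zeta_mono hl) (by simp) v hv

theorem sq_super {Lab : Type u} [Fintype Lab] {J : ℕ} {s : Prof Lab k} (hs : IsProf J s)
    {v : List Lab} (hv : v.length < J) : ∑ b, sq (s (b :: v)) ≤ sq (s v) := by
  have h := Gf_super hs (l := 0) ⟨le_rfl, zero_le_one⟩ hv
  simpa [Gf, sq] using h

theorem near_sq_le {a x : Fin k → ℝ} (ha : In01 a) (hx : In01 x) (h : Near a x) :
    sq a ≤ 5 / 4 * sq x ∧ sq x ≤ 5 / 4 * sq a := by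
  unfold sq
  rw [mul_sum, mul_sum]
  constructor
  · refine sum_le_sum fun j _ => ?_
    have h1 := pow_le_pow_left₀ (mul_nonneg (by norm_num) (ha j).1) (h j).1 2
    nlinarith [sq_nonneg (x j)]
  · refine sum_le_sum fun j _ => ?_
    have h1 := pow_le_pow_left₀ (mul_nonneg (by norm_num) (hx j).1) (h j).2 2
    nlinarith [sq_nonneg (a j)]

/-- `ζ_l(x) ≤ x² ≤ min 1 (2a²)` -/
theorem near_Gf_le {a x : Fin k → ℝ} (ha : In01 a) (hx : In01 x) (h : Near a x) {l : ℝ}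
    (hl : l ∈ Set.Icc (0 : ℝ) 1) : Gf l x ≤ capR a := by
  have _ := ha
  refine sum_le_sum fun j _ => ?_
  have h1 := pow_le_pow_left₀ (mul_nonneg (by norm_num) (hx j).1) (h j).2 2
  have h2 := (hx j).1
  have h3 := (hx j).2
  have h4 : (1 - l) * x j ^ 2 + l * x j ^ 3 ≤ x j ^ 2 := by
    nlinarith [mul_nonneg hl.1 (mul_nonneg (sq_nonneg (x j)) (sub_nonneg.2 h3))]
  exact h4.trans (le_min (by nlinarith) (by nlinarith [sq_nonneg (a j)]))

/-- per slot `min 1 (2a²) - ζ_l(x) ≤ 12 x²(1-x)` (for `x ≥ 1/2`: `≤ 1 - x³ ≤ 3(1-x)`; for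
`x ≤ 1/2`: `≤ 2a² ≤ 3x²`), and `ζ_l - ζ_{l+12θ} = 12 θ x²(1-x)`. -/
theorem near_slack {a x : Fin k → ℝ} (ha : In01 a) (hx : In01 x) (h : Near a x) {l : ℝ}
    (hl : l ∈ Set.Icc (0 : ℝ) 1) {θ : ℝ} (hθ : 0 ≤ θ) :
    (1 + θ) * (capR a - Gf l x) ≤ capR a - Gf (l + 12 * θ) x := by
  have key : capR a - Gf l x ≤ 12 * ∑ j, x j ^ 2 * (1 - x j) := by
    unfold capR Gf
    rw [← sum_sub_distrib, mul_sum]
    refine sum_le_sum fun j _ => ?_
    have h1 := pow_le_pow_left₀ (mul_nonneg (by norm_num) (ha j).1) (h j).1 2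
    have h2 := (hx j).1
    have h3 := (hx j).2
    have h4 : x j ^ 3 ≤ (1 - l) * x j ^ 2 + l * x j ^ 3 := by
      nlinarith [mul_nonneg (sub_nonneg.2 hl.2) (mul_nonneg (sq_nonneg (x j)) (sub_nonneg.2 h3))]
    rcases le_total (1 / 2) (x j) with h5 | h5
    · have h6 := min_le_left 1 (2 * a j ^ 2)
      have h7 : 1 + x j + x j ^ 2 ≤ 12 * x j ^ 2 := by nlinarith
      nlinarith [mul_le_mul_of_nonneg_right h7 (sub_nonneg.2 h3)]
    · have h6 := min_le_right 1 (2 * a j ^ 2)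
      have h7 : 0 ≤ x j ^ 3 := by positivity
      nlinarith [mul_le_mul_of_nonneg_left h5 (sq_nonneg (x j)), sq_nonneg (x j)]
  have e : Gf (l + 12 * θ) x = Gf l x - θ * (12 * ∑ j, x j ^ 2 * (1 - x j)) := by
    unfold Gf
    rw [mul_sum, mul_sum, ← sum_sub_distrib]
    exact sum_congr rfl fun j _ => by ring
  rw [e]
  nlinarith [mul_le_mul_of_nonneg_left key hθ]

/-- moving anchors onto the data gains `(x-a)² ≥ |x-a| max(a,x)/10 ≥ |x²-a²|/20` per moved slot -/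
theorem anchor_gain {a a' x : Fin k → ℝ} (ha : In01 a) (hx : In01 x)
    (h : ∀ j, a' j = a j ∨ (a' j = x j ∧ max (a j) (x j) / 10 ≤ |x j - a j|)) :
    ∑ j, (a' j ^ 2 - 2 * a' j * x j) - ∑ j, (a j ^ 2 - 2 * a j * x j) ≤ - dsq a a' / 20 := by
  unfold dsq
  rw [← sum_sub_distrib, ← sum_neg_distrib, sum_div]
  refine sum_le_sum fun j _ => ?_
  rcases h j with h1 | ⟨h1, h2⟩
  · rw [h1]
    simp
  · rw [h1]
    have h3 := (ha j).1
    have h4 := (hx j).1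
    have h5 := le_max_left (a j) (x j)
    have h6 := le_max_right (a j) (x j)
    have h7 : |x j ^ 2 - a j ^ 2| = (x j + a j) * |x j - a j| := by
      rw [sq_sub_sq, abs_mul, abs_of_nonneg (add_nonneg h4 h3)]
    have h8 := mul_le_mul_of_nonneg_right (show x j + a j ≤ 20 * |x j - a j| by linarith)
      (abs_nonneg (x j - a j))
    rw [h7]
    nlinarith [sq_abs (x j - a j)]

end Crest.Agent.R314.T
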